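import Vale.Agent.P011.D4.Defs4

/-!
Changing the basis of the quaternion algebra inside the octonion algebra.
-/

open NumberField IsDedekindDomain Topology

namespace Vale.Agent.P011.D4

open Vale.Agent.P011.MPQ Vale.Agent.P011.Arith Vale.Agent.P011.D4.Oct

section one

variable {F : Type} [Field F] {a b c a' b' : Fˣ}

/-- The map between quaternion algebras given by two anticommuting elements. -/
def phi (i j : Qt a b) (x : Qt a' b') : Qt a b :=
  x.re • 1 + x.imI • i + x.imJ • j + x.imK • (i * j)

/-- A pure element of a quaternion algebra can be completed to a basis. -/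
theorem exists_pair (hab : Aniso a b) {i : Qt a b} (hi : i.re = 0) (hi0 : i ≠ 0) :
    ∃ (a' b' : Fˣ) (j : Qt a b), j.re = 0 ∧ i * i = (a' : F) • (1 : Qt a b) ∧
      j * j = (b' : F) • (1 : Qt a b) ∧ i * j = -(j * i) := by
  obtain ⟨j, hj, hj0, hij⟩ : ∃ j : Qt a b, j.re = 0 ∧ j ≠ 0 ∧ i * j = -(j * i) := by
    by_cases h : i.imI = 0 ∧ i.imJ = 0
    · refine ⟨⟨0, 1, 0, 0⟩, rfl, ?_, ?_⟩
      · intro h0
        have := congrArg QuaternionAlgebra.imI h0
        simp at this
      · ext <;> simp [hi, h.1, h.2]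
    · refine ⟨⟨0, b * i.imJ, -(a * i.imI), 0⟩, rfl, ?_, ?_⟩
      · intro h0
        apply h
        have h1 := congrArg QuaternionAlgebra.imI h0
        have h2 := congrArg QuaternionAlgebra.imJ h0
        simp at h1 h2
        exact ⟨h2, h1⟩
      · ext <;> simp [hi] <;> ring
  have hsq : ∀ x : Qt a b, x.re = 0 → x * x = (-nrd x) • (1 : Qt a b) := by
    intro x hx
    ext <;> simp [nrd, hx] <;> ring
  refine ⟨Units.mk0 (-nrd i) (neg_ne_zero.2 fun h => hi0 (hab i h)),
    Units.mk0 (-nrd j) (neg_ne_zero.2 fun h => hj0 (hab j h)), j, hj, ?_, ?_, hij⟩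
  · exact hsq i hi
  · exact hsq j hj

theorem trip_of_pair {i j : Qt a b} (hi : i.re = 0) (hj : j.re = 0)
    (hii : i * i = (a' : F) • (1 : Qt a b)) (hjj : j * j = (b' : F) • (1 : Qt a b))
    (hij : i * j = -(j * i)) (h2 : (2 : F) ≠ 0) :
    Trip a' b' c (⟨i, 0⟩ : Oct a b c) ⟨j, 0⟩ gl := by
  have hsi : star i = -i := by
    ext <;> simp [hi]
  have hsj : star j = -j := by
    ext <;> simp [hj]
  have hre : (i * j).re = 0 := by
    have h1 := congrArg QuaternionAlgebra.re hij
    simp [hi, hj] at h1 ⊢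
    have h3 : (2 : F) * ((a : F) * i.imI * j.imI + b * i.imJ * j.imJ - a * b * i.imK * j.imK) = 0 := by
      linear_combination h1
    have := (mul_eq_zero.1 h3).resolve_left h2
    linear_combination this
  refine ⟨?_, ?_, ?_, ?_, ?_, ?_, ?_, ?_, ?_, ?_⟩
  · ext1
    · exact hsi
    · simp
  · ext1
    · exact hsj
    · simp
  · ext1
    · simp [gl]
    · simp
  · ext1
    · simpa using hii
    · simp
  · ext1
    · simpa using hjj
    · simp
  · ext1
    · simp [gl]
    · simp [gl]
  · simp only [dot, fst_mul, fst_star, hsj, snd_star]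
    simp only [neg_zero, star_zero, zero_mul, smul_zero, add_zero, mul_neg]
    rw [QuaternionAlgebra.re_neg, hre, neg_zero]
  · simp only [dot, fst_mul, fst_star, snd_star, gl]
    simp
  · simp only [dot, fst_mul, fst_star, snd_star, gl]
    simp
  · simp only [dot, fst_mul, snd_mul, fst_star, snd_star, gl]
    simp

end one

end Vale.Agent.P011.D4
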