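import Vale.Agent.P011.D4.Up
import Vale.Agent.P011.D4.Asm1
import Mathlib.Algebra.QuaternionBasis

/-!
The short subgroup does not depend on the basis of the quaternion algebra.
-/

open NumberField IsDedekindDomain Topology

namespace Vale.Agent.P011.D4

open Vale.Agent.P011.MPQ Vale.Agent.P011.Arith Vale.Agent.P011.D4.Oct

section phi

variable {F : Type} [Field F] {a b c a' b' : Fˣ} {i j : Qt a b}

theorem exists_SL1 {x : Qt a b} (hx : nrd x = 1) :
    ∃ y : SL1 a b, ((y : (Qt a b)ˣ) : Qt a b) = x := by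
  have h1 : x * star x = 1 := by
    simp only [nrd] at hx
    ext
    · simp
      linear_combination hx
    · simp
      ring
    · simp
      ring
    · simp
      ring
  have h2 : star x * x = 1 := by
    simp only [nrd] at hx
    ext
    · simp
      linear_combination hx
    · simp
      ring
    · simp
      ring
    · simp
      ring
  exact ⟨⟨⟨x, star x, h1, h2⟩, hx⟩, rfl⟩

/-- The basis. -/
def phiB (hii : i * i = (a' : F) • (1 : Qt a b)) (hjj : j * j = (b' : F) • (1 : Qt a b))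
    (hij : i * j = -(j * i)) : QuaternionAlgebra.Basis (Qt a b) (a' : F) 0 (b' : F) where
  i := i
  j := j
  k := i * j
  i_mul_i := by rw [hii, zero_smul, add_zero]
  j_mul_j := hjj
  i_mul_j := rfl
  j_mul_i := by rw [zero_smul, zero_sub, hij, neg_neg]

theorem phi_eq (hii : i * i = (a' : F) • (1 : Qt a b)) (hjj : j * j = (b' : F) • (1 : Qt a b))
    (hij : i * j = -(j * i)) (x : Qt a' b') : phi i j x = (phiB hii hjj hij).liftHom x := by
  simp only [phi, QuaternionAlgebra.Basis.liftHom_apply, QuaternionAlgebra.Basis.lift, phiB]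
  rw [Algebra.algebraMap_eq_smul_one]

theorem phi_mul (hii : i * i = (a' : F) • (1 : Qt a b)) (hjj : j * j = (b' : F) • (1 : Qt a b))
    (hij : i * j = -(j * i)) (x y : Qt a' b') : phi i j (x * y) = phi i j x * phi i j y := by
  rw [phi_eq hii hjj hij, phi_eq hii hjj hij, phi_eq hii hjj hij, map_mul]

theorem phi_star (hi : i.re = 0) (hj : j.re = 0) (hij : i * j = -(j * i)) (x : Qt a' b') :
    phi i j (star x) = star (phi i j x) := by
  have hsi : star i = -i := by
    ext <;> simp [hi]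
  have hsj : star j = -j := by
    ext <;> simp [hj]
  simp only [phi, star_add, QuaternionAlgebra.star_smul, star_mul, hsi, hsj, star_one]
  have h1 : -j * -i = -(i * j) := by rw [neg_mul_neg, hij, neg_neg]
  rw [h1]
  simp

theorem emb_pair {c' : Fˣ} (x : Oct a' b' c') :
    emb (⟨i, 0⟩ : Oct a b c) ⟨j, 0⟩ gl x = ⟨phi i j x.fst, phi i j x.snd⟩ := by
  have h0 : ∀ x : Qt a' b', qemb (⟨i, 0⟩ : Oct a b c) ⟨j, 0⟩ x = ⟨phi i j x, 0⟩ := by
    intro x
    ext1 <;> simp [qemb, phi]
  rw [emb, h0, h0]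
  ext1 <;> simp [gl]

end phi

section conj

variable {k E M : Type} [Field k] [Field E] [Field M] [Algebra k E] [Algebra k M] [Algebra E M]
  [IsScalarTower k E M] {ρ : M ≃ₐ[k] M} {I : Set (M ≃ₐ[k] M)} {a b c a' b' : kˣ} {i j : Qt a b}

theorem qmap_phi {L : Type} [Field L] [Algebra k L] (σ : L ≃ₐ[k] L)
    (x : Qt (up L a') (up L b')) :
    qmap σ (phi (qup L i) (qup L j) x) = phi (qup L i) (qup L j) (qmap σ x) := by
  simp only [phi, qmap_add, qmap_smul, qmap_one, qmap_qup, qmap_mul, re_qmap, imI_qmap, imJ_qmap,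
    imK_qmap]

theorem qEM_phi (x : Qt (up E a') (up E b')) :
    qEM M (phi (qup E i) (qup E j) x) = phi (qup M i) (qup M j) (qEM M x) := by
  simp only [phi, qEM_add, qEM_smul, qEM_one, qEM_qup, qEM_mul, re_qEM, imI_qEM, imJ_qEM,
    imK_qEM]

theorem qup_rel (L : Type) [Field L] [Algebra k L] (hii : i * i = (a' : k) • (1 : Qt a b)) :
    qup L i * qup L i = ((up L a' : Lˣ) : L) • (1 : Qt (up L a) (up L b)) := by
  rw [← qup_mul, hii, qup_smul, qup_one]
  rfl

/-- The short subgroups of two bases of the same quaternion algebra correspond. -/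
theorem short_conj (hi : i.re = 0) (hj : j.re = 0)
    (hii : i * i = (a' : k) • (1 : Qt a b)) (hjj : j * j = (b' : k) • (1 : Qt a b))
    (hij : i * j = -(j * i))
    {s : SL1 (up E a) (up E b) →* TriU ρ I a b c} (hs : IsShortU ρ I s)
    {s' : SL1 (up E a') (up E b') →* TriU ρ I a' b' c} (hs' : IsShortU ρ I s')
    {C : TriU ρ I a' b' c →* TriU ρ I a b c}
    (hC : IsConjU ρ I (⟨i, 0⟩ : Oct a b c) ⟨j, 0⟩ gl C)
    (hsurj : ∀ y : OctL M a b c, ∃ x : OctL M a' b' c,
      emb (oup M (⟨i, 0⟩ : Oct a b c)) (oup M ⟨j, 0⟩) (oup M gl) x = y)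
    (x' : SL1 (up E a') (up E b')) (x : SL1 (up E a) (up E b))
    (hx : ((x : (Qt (up E a) (up E b))ˣ) : Qt (up E a) (up E b)) =
      phi (qup E i) (qup E j) ((x' : (Qt (up E a') (up E b'))ˣ) : Qt (up E a') (up E b'))) :
    C (s' x') = s x := by
  have hemb : ∀ x : OctL M a' b' c,
      emb (oup M (⟨i, 0⟩ : Oct a b c)) (oup M ⟨j, 0⟩) (oup M gl) x =
        ⟨phi (qup M i) (qup M j) x.fst, phi (qup M i) (qup M j) x.snd⟩ := by
    intro x
    rw [oup_gl]
    have h1 : oup M (⟨i, 0⟩ : Oct a b c) = ⟨qup M i, 0⟩ := by ext1 <;> simp [oup]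
    have h2 : oup M (⟨j, 0⟩ : Oct a b c) = ⟨qup M j, 0⟩ := by ext1 <;> simp [oup]
    rw [h1, h2]
    exact emb_pair x
  have hmi : (qup M i).re = 0 := by simp [hi]
  have hmj : (qup M j).re = 0 := by simp [hj]
  have hmii := qup_rel M hii
  have hmjj := qup_rel M hjj
  have hmij : qup M i * qup M j = -(qup M j * qup M i) := by
    rw [← qup_mul, hij, qup_neg, qup_mul]
  apply Subtype.ext
  apply LinearEquiv.ext
  intro y
  obtain ⟨z, rfl⟩ := hsurj y
  rw [hC, hs', hs, hemb, hemb, hx, qEM_phi]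
  ext1
  · simp only [shortFun]
    rw [phi_mul hmii hmjj hmij, phi_mul hmii hmjj hmij, phi_star hmi hmj hmij, qmap_phi, qmap_phi]
  · simp only [shortFun]
    rw [phi_mul hmii hmjj hmij, phi_star hmi hmj hmij, qmap_phi]

end conj

end Vale.Agent.P011.D4
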