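import Vale.Agent.P011.D4.Defs3

/-!
The uniform set-up for the trialitarian groups: a tower `k ⊂ E ⊂ M`, with `E` cubic over `k` and
`M` the Galois closure.
-/

open NumberField IsDedekindDomain Topology

namespace Vale.Agent.P011.D4

open Vale.Agent.P011.MPQ Vale.Agent.P011.Arith

section grp

variable {k M : Type} [Field k] [Field M] [Algebra k M]

/-- The semilinear involution of the octonion algebra over `M` given by `ι`. -/
def invo (ι : M ≃ₐ[k] M) {a b c : kˣ} (x : OctL M a b c) : OctL M a b c := omap ι (star x)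

/-- The automorphisms of the cyclic composition which commute with the involutions given by the
members of `I` (`I = ∅` for a cyclic cubic extension, `I = {ι}` for a cubic extension with
Galois group of order six). -/
def TriU (ρ : M ≃ₐ[k] M) (I : Set (M ≃ₐ[k] M)) (a b c : kˣ) :
    Subgroup (OctL M a b c ≃ₗ[M] OctL M a b c) where
  carrier := {g | g ∈ Tri ρ a b c ∧ ∀ ι ∈ I, ∀ x, g (invo ι x) = invo ι (g x)}
  mul_mem' := by
    intro g h hg hh
    refine ⟨mul_mem hg.1 hh.1, fun ι hι x => ?_⟩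
    rw [LinearEquiv.mul_apply, LinearEquiv.mul_apply, hh.2 ι hι, hg.2 ι hι]
  one_mem' := ⟨one_mem _, fun _ _ _ => rfl⟩
  inv_mem' := by
    intro g hg
    refine ⟨inv_mem hg.1, fun ι hι x => ?_⟩
    apply g.injective
    have h1 : ∀ z, g (g⁻¹ z) = z := fun z => by
      rw [← LinearEquiv.mul_apply, mul_inv_cancel]; rfl
    rw [hg.2 ι hι, h1, h1]

end grp

variable (k E M : Type) [Field k] [Field E] [Field M] [Algebra k E] [Algebra k M] [Algebra E M]

/-- The set-up: `E` is cubic over `k`, `ρ` is an automorphism of `M` of order three; either `I` is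
empty and `E = M`, or `I = {ι}` with `⟨ρ, ι⟩` nonabelian of order six and `E` is the fixed field
of `ρ ι`. -/
structure SetU (ρ : M ≃ₐ[k] M) (I : Set (M ≃ₐ[k] M)) : Prop where
  h3 : Module.finrank k E = 3
  r3 : ∀ m, ρ (ρ (ρ m)) = m
  rE : ∃ e : E, ρ (algebraMap E M e) ≠ algebraMap E M e
  ii : ∀ ι ∈ I, ∀ m, ι (ι m) = m
  iri : ∀ ι ∈ I, ∀ m, ι (ρ (ι m)) = ρ (ρ m)
  iE : ∀ ι ∈ I, ∀ e : E, ρ (ι (algebraMap E M e)) = algebraMap E M e
  fixE : ∀ m : M, (∀ ι ∈ I, ρ (ι m) = m) → ∃ e : E, algebraMap E M e = m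
  fixk : ∀ m : M, ρ m = m → (∀ ι ∈ I, ι m = m) → ∃ t : k, algebraMap k M t = m
  sub : I.Subsingleton

variable {k E M}

/-- A quaternion over `E`, as a quaternion over `M`. -/
def qEM (M : Type) [Field M] [Algebra k M] [Algebra E M] {a b : kˣ} (x : Qt (up E a) (up E b)) :
    Qt (up M a) (up M b) :=
  ⟨algebraMap E M x.re, algebraMap E M x.imI, algebraMap E M x.imJ, algebraMap E M x.imK⟩

/-- The homomorphism `e` extends automorphisms of the octonion algebra. -/
def IsExtU (ρ : M ≃ₐ[k] M) (I : Set (M ≃ₐ[k] M)) {a b c : kˣ} (e : AutC a b c →* TriU ρ I a b c) :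
    Prop :=
  ∀ (g : AutC a b c) (x : Oct a b c), (e g).1 (oup M x) = oup M (g.1 x)

/-- The homomorphism of the short subgroup. -/
def IsShortU (ρ : M ≃ₐ[k] M) (I : Set (M ≃ₐ[k] M)) {a b c : kˣ}
    (s : SL1 (up E a) (up E b) →* TriU ρ I a b c) : Prop :=
  ∀ (x : SL1 (up E a) (up E b)) (y : OctL M a b c),
    (s x).1 y = shortFun ρ (qEM M ((x : (Qt (up E a) (up E b))ˣ) : Qt (up E a) (up E b))) y

/-- Transport of the trialitarian group along an isomorphism of octonion algebras. -/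
def IsConjU (ρ : M ≃ₐ[k] M) (I : Set (M ≃ₐ[k] M)) {a b c a' b' c' : kˣ} (i j l : Oct a b c)
    (C : TriU ρ I a' b' c' →* TriU ρ I a b c) : Prop :=
  ∀ (g : TriU ρ I a' b' c') (x : OctL M a' b' c'),
    (C g).1 (Oct.emb (oup M i) (oup M j) (oup M l) x) =
      Oct.emb (oup M i) (oup M j) (oup M l) (g.1 x)

end Vale.Agent.P011.D4
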