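import Vale.Agent.P011.D4.H90
import Vale.Agent.P011.D4.Defs4

/-!
Hilbert 90 for the orbit of `1`, in the uniform set-up.
-/

namespace Vale.Agent.P011.D4

open Vale.Agent.P011.MPQ

variable {k E M : Type} [Field k] [Field E] [Field M] [Algebra k E] [Algebra k M] [Algebra E M]
  [IsScalarTower k E M] {ρ : M ≃ₐ[k] M} {I : Set (M ≃ₐ[k] M)}

/-- Hilbert 90 in the uniform set-up. -/
theorem h90U [CharZero k] (hU : SetU k E M ρ I) {a b : kˣ} (hab : Aniso a b)
    (f : Qt (up M a) (up M b)) (hn : nrd f = 1)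
    (hf : f = qmap ρ (star f) * qmap ρ (qmap ρ (star f)))
    (hI : ∀ ι ∈ I, qmap ι f = star f) :
    ∃ x : Qt (up E a) (up E b), nrd x = 1 ∧ f = qEM M x * star (qmap ρ (qmap ρ (qEM M x))) := by
  rcases I.eq_empty_or_nonempty with he | ⟨ι, hι⟩
  · refine h90 (κ := 1) hU.h3 hab hU.r3 hU.rE (fun m => ⟨fun _ => ?_, fun _ => rfl⟩)
      (fun m h _ => ?_) f hn hf (Or.inl rfl)
    · obtain ⟨e, h⟩ := hU.fixE m (fun ι hι => by rw [he] at hι; exact absurd hι (by simp))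
      exact ⟨e, h⟩
    · obtain ⟨t, ht⟩ := hU.fixk m h (fun ι hι => by rw [he] at hι; exact absurd hι (by simp))
      exact ⟨t, ht⟩
  · have hιρ : ∀ m, ι (ρ m) = ρ (ρ (ι m)) := fun m => by
      have h := hU.iri ι hι (ι m)
      rw [hU.ii ι hι] at h
      exact h
    refine h90 (κ := ρ * ι) hU.h3 hab hU.r3 hU.rE (fun m => ⟨fun h => ?_, fun h => ?_⟩)
      (fun m h h' => ?_) f hn hf (Or.inr ⟨fun m => ?_, fun m => ?_, ?_⟩)
    · obtain ⟨e, h⟩ := hU.fixE m (fun ι' hι' => by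
        rw [hU.sub hι' hι]
        exact h)
      exact ⟨e, h⟩
    · obtain ⟨e, rfl⟩ := h
      exact hU.iE ι hι e
    · have h1 : ι m = m := by
        have h2 : ρ (ι m) = m := h'
        have h3 : ρ (ρ (ρ (ι m))) = ρ (ρ m) := by rw [h2]
        rw [hU.r3, h, h] at h3
        exact h3
      obtain ⟨t, ht⟩ := hU.fixk m h (fun ι' hι' => by
        rw [hU.sub hι' hι]
        exact h1)
      exact ⟨t, ht⟩
    · change ρ (ι (ρ (ι m))) = m
      rw [hU.iri ι hι, hU.r3]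
    · change ρ (ι (ρ m)) = ρ (ρ (ρ (ι m)))
      rw [hιρ]
    · have h1 := hI ι hι
      have h2 : qmap (ρ * ι) f = qmap ρ (qmap ι f) := rfl
      rw [h2, h1]

end Vale.Agent.P011.D4
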