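import Vale.Agent.P011.D4.Defs4

/-!
Base change of quaternions and octonions, and the action of automorphisms on coefficients.
-/

open NumberField IsDedekindDomain Topology

namespace Vale.Agent.P011.D4

open Vale.Agent.P011.MPQ Vale.Agent.P011.Arith Vale.Agent.P011.D4.Oct

section quat

variable {k L : Type} [Field k] [Field L] [Algebra k L] {a b c : kˣ}

@[simp] theorem re_qup (x : Qt a b) : (qup L x).re = algebraMap k L x.re := rfl
@[simp] theorem imI_qup (x : Qt a b) : (qup L x).imI = algebraMap k L x.imI := rfl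
@[simp] theorem imJ_qup (x : Qt a b) : (qup L x).imJ = algebraMap k L x.imJ := rfl
@[simp] theorem imK_qup (x : Qt a b) : (qup L x).imK = algebraMap k L x.imK := rfl

theorem qup_mul (x y : Qt a b) : qup L (x * y) = qup L x * qup L y := by
  ext <;> simp

theorem qup_add (x y : Qt a b) : qup L (x + y) = qup L x + qup L y := by
  ext <;> simp

theorem qup_neg (x : Qt a b) : qup L (-x) = -qup L x := by
  ext <;> simp

theorem qup_sub (x y : Qt a b) : qup L (x - y) = qup L x - qup L y := by
  ext <;> simp

theorem qup_smul (t : k) (x : Qt a b) : qup L (t • x) = algebraMap k L t • qup L x := by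
  ext <;> simp [-algebraMap_smul]

theorem qup_star (x : Qt a b) : qup L (star x) = star (qup L x) := by
  ext <;> simp

@[simp] theorem qup_zero : qup L (0 : Qt a b) = 0 := by
  ext <;> simp

@[simp] theorem qup_one : qup L (1 : Qt a b) = 1 := by
  ext <;> simp

theorem nrd_qup (x : Qt a b) : nrd (qup L x) = algebraMap k L (nrd x) := by
  simp [nrd]

theorem oup_mul (x y : Oct a b c) : oup L (x * y) = oup L x * oup L y := by
  ext1
  · simp only [oup, fst_mul, qup_add, qup_mul, qup_smul, qup_star]
    rfl
  · simp only [oup, snd_mul, qup_add, qup_mul, qup_star]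

theorem oup_add (x y : Oct a b c) : oup L (x + y) = oup L x + oup L y := by
  ext1
  · exact qup_add _ _
  · exact qup_add _ _

theorem oup_neg (x : Oct a b c) : oup L (-x) = -oup L x := by
  ext1
  · exact qup_neg _
  · exact qup_neg _

theorem oup_sub (x y : Oct a b c) : oup L (x - y) = oup L x - oup L y := by
  ext1
  · exact qup_sub _ _
  · exact qup_sub _ _

theorem oup_smul (t : k) (x : Oct a b c) : oup L (t • x) = algebraMap k L t • oup L x := by
  ext1
  · exact qup_smul _ _
  · exact qup_smul _ _

theorem oup_star (x : Oct a b c) : oup L (star x) = star (oup L x) := by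
  ext1
  · exact qup_star _
  · exact qup_neg _

@[simp] theorem oup_zero : oup L (0 : Oct a b c) = 0 := by
  ext1
  · exact qup_zero
  · exact qup_zero

@[simp] theorem oup_one : oup L (1 : Oct a b c) = 1 := by
  ext1
  · exact qup_one
  · exact qup_zero

@[simp] theorem oup_gi : oup L (gi : Oct a b c) = gi := by
  ext <;> simp [oup, gi]

@[simp] theorem oup_gj : oup L (gj : Oct a b c) = gj := by
  ext <;> simp [oup, gj]

@[simp] theorem oup_gl : oup L (gl : Oct a b c) = gl := by
  ext <;> simp [oup, gl]

theorem dot_oup (x y : Oct a b c) : dot (oup L x) (oup L y) = algebraMap k L (dot x y) := by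
  unfold dot
  rw [← oup_star, ← oup_mul]
  rfl

theorem norm_oup (x : Oct a b c) : norm (oup L x) = algebraMap k L (norm x) := by
  change nrd (qup L x.fst) - algebraMap k L c * nrd (qup L x.snd) =
    algebraMap k L (nrd x.fst - c * nrd x.snd)
  rw [nrd_qup, nrd_qup, map_sub, map_mul]

theorem trip_up {a' b' c' : kˣ} {i j l : Oct a b c} (h : Trip a' b' c' i j l) :
    Trip (up L a') (up L b') (up L c') (oup L i) (oup L j) (oup L l) where
  si := by rw [← oup_star, h.si, oup_neg]
  sj := by rw [← oup_star, h.sj, oup_neg]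
  sl := by rw [← oup_star, h.sl, oup_neg]
  ii := by rw [← oup_mul, h.ii, oup_smul, oup_one]; rfl
  jj := by rw [← oup_mul, h.jj, oup_smul, oup_one]; rfl
  ll := by rw [← oup_mul, h.ll, oup_smul, oup_one]; rfl
  ij := by rw [dot_oup, h.ij, map_zero]
  il := by rw [dot_oup, h.il, map_zero]
  jl := by rw [dot_oup, h.jl, map_zero]
  ijl := by rw [← oup_mul, dot_oup, h.ijl, map_zero]

/-! The action of automorphisms. -/

variable (σ : L ≃ₐ[k] L)

@[simp] theorem re_qmap (x : Qt (up L a) (up L b)) : (qmap σ x).re = σ x.re := rfl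
@[simp] theorem imI_qmap (x : Qt (up L a) (up L b)) : (qmap σ x).imI = σ x.imI := rfl
@[simp] theorem imJ_qmap (x : Qt (up L a) (up L b)) : (qmap σ x).imJ = σ x.imJ := rfl
@[simp] theorem imK_qmap (x : Qt (up L a) (up L b)) : (qmap σ x).imK = σ x.imK := rfl

theorem qmap_mul (x y : Qt (up L a) (up L b)) : qmap σ (x * y) = qmap σ x * qmap σ y := by
  ext <;> simp

theorem qmap_add (x y : Qt (up L a) (up L b)) : qmap σ (x + y) = qmap σ x + qmap σ y := by
  ext <;> simp

theorem qmap_neg (x : Qt (up L a) (up L b)) : qmap σ (-x) = -qmap σ x := by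
  ext <;> simp

theorem qmap_sub (x y : Qt (up L a) (up L b)) : qmap σ (x - y) = qmap σ x - qmap σ y := by
  ext <;> simp

theorem qmap_smul (t : L) (x : Qt (up L a) (up L b)) : qmap σ (t • x) = σ t • qmap σ x := by
  ext <;> simp

theorem qmap_star (x : Qt (up L a) (up L b)) : qmap σ (star x) = star (qmap σ x) := by
  ext <;> simp

@[simp] theorem qmap_zero : qmap σ (0 : Qt (up L a) (up L b)) = 0 := by
  ext <;> simp

@[simp] theorem qmap_one : qmap σ (1 : Qt (up L a) (up L b)) = 1 := by
  ext <;> simp

@[simp] theorem qmap_qup (x : Qt a b) : qmap σ (qup L x) = qup L x := by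
  ext <;> simp

theorem nrd_qmap (x : Qt (up L a) (up L b)) : nrd (qmap σ x) = σ (nrd x) := by
  simp [nrd]

theorem omap_mul (x y : OctL L a b c) : omap σ (x * y) = omap σ x * omap σ y := by
  ext1
  · simp only [omap, fst_mul, qmap_add, qmap_mul, qmap_smul, qmap_star]
    congr 2
    simp
  · simp only [omap, snd_mul, qmap_add, qmap_mul, qmap_star]

theorem omap_add (x y : OctL L a b c) : omap σ (x + y) = omap σ x + omap σ y := by
  ext1
  · exact qmap_add σ _ _
  · exact qmap_add σ _ _

theorem omap_neg (x : OctL L a b c) : omap σ (-x) = -omap σ x := by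
  ext1
  · exact qmap_neg σ _
  · exact qmap_neg σ _

theorem omap_sub (x y : OctL L a b c) : omap σ (x - y) = omap σ x - omap σ y := by
  ext1
  · exact qmap_sub σ _ _
  · exact qmap_sub σ _ _

theorem omap_smul (t : L) (x : OctL L a b c) : omap σ (t • x) = σ t • omap σ x := by
  ext1
  · exact qmap_smul σ _ _
  · exact qmap_smul σ _ _

theorem omap_star (x : OctL L a b c) : omap σ (star x) = star (omap σ x) := by
  ext1
  · exact qmap_star σ _
  · exact qmap_neg σ _

@[simp] theorem omap_zero : omap σ (0 : OctL L a b c) = 0 := by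
  ext1
  · exact qmap_zero σ
  · exact qmap_zero σ

@[simp] theorem omap_one : omap σ (1 : OctL L a b c) = 1 := by
  ext1
  · exact qmap_one σ
  · exact qmap_zero σ

@[simp] theorem omap_oup (x : Oct a b c) : omap σ (oup L x) = oup L x := by
  ext1
  · exact qmap_qup σ _
  · exact qmap_qup σ _

end quat

section tower

variable {k E M : Type} [Field k] [Field E] [Field M] [Algebra k E] [Algebra k M] [Algebra E M]
  {a b c : kˣ}

@[simp] theorem re_qEM (x : Qt (up E a) (up E b)) : (qEM M x).re = algebraMap E M x.re := rfl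
@[simp] theorem imI_qEM (x : Qt (up E a) (up E b)) : (qEM M x).imI = algebraMap E M x.imI := rfl
@[simp] theorem imJ_qEM (x : Qt (up E a) (up E b)) : (qEM M x).imJ = algebraMap E M x.imJ := rfl
@[simp] theorem imK_qEM (x : Qt (up E a) (up E b)) : (qEM M x).imK = algebraMap E M x.imK := rfl

@[simp] theorem qEM_one [IsScalarTower k E M] :
    qEM M (1 : Qt (up E a) (up E b)) = (1 : Qt (up M a) (up M b)) := by
  ext <;> simp

theorem qEM_mul [IsScalarTower k E M] (x y : Qt (up E a) (up E b)) :
    qEM M (x * y) = qEM M x * qEM M y := by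
  ext <;> simp [← IsScalarTower.algebraMap_apply]

theorem qEM_star (x : Qt (up E a) (up E b)) : qEM M (star x) = star (qEM M x) := by
  ext <;> simp

theorem qEM_add (x y : Qt (up E a) (up E b)) : qEM M (x + y) = qEM M x + qEM M y := by
  ext <;> simp

theorem qEM_smul (t : E) (x : Qt (up E a) (up E b)) :
    qEM M (t • x) = algebraMap E M t • qEM M x := by
  ext <;> simp [-algebraMap_smul]

theorem qEM_qup [IsScalarTower k E M] (x : Qt a b) : qEM M (qup E x) = qup M x := by
  ext <;> simp [← IsScalarTower.algebraMap_apply]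

theorem nrd_qEM [IsScalarTower k E M] (x : Qt (up E a) (up E b)) :
    nrd (qEM M x) = algebraMap E M (nrd x) := by
  simp [nrd, ← IsScalarTower.algebraMap_apply]

end tower

end Vale.Agent.P011.D4
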