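import Vale.Agent.P011.D4.R1
import Vale.Agent.P011.D4.Up
import Vale.Agent.P011.D4.H90U

/-!
The orbit of the unit element under the trialitarian group.
-/

open NumberField

namespace Vale.Agent.P011.D4

open Vale.Agent.P011.MPQ Vale.Agent.P011.D4.Oct

namespace Orb

section comp

variable {k M : Type} [Field k] [Field M] [Algebra k M] {a b c : kˣ} {ρ : M ≃ₐ[k] M}

theorem omap_qemb (σ : M ≃ₐ[k] M) (i j : Oct a b c) {a' b' : kˣ} (x : Qt (up M a') (up M b')) :
    omap σ (qemb (oup M i) (oup M j) x) = qemb (oup M i) (oup M j) (qmap σ x) := by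
  simp only [qemb, omap_add, omap_smul, omap_mul, omap_oup, omap_one, qmap]

theorem omap_emb (σ : M ≃ₐ[k] M) (i j l : Oct a b c) {a' b' c' : kˣ} (x : OctL M a' b' c') :
    omap σ (emb (oup M i) (oup M j) (oup M l) x) =
      emb (oup M i) (oup M j) (oup M l) (omap σ x) := by
  rw [emb, omap_add, omap_mul, omap_qemb, omap_qemb, omap_oup]
  rfl

theorem omap_cube (hρ : ∀ m, ρ (ρ (ρ m)) = m) (x : OctL M a b c) :
    omap ρ (omap ρ (omap ρ x)) = x := by
  ext <;> simp [omap, qmap, hρ]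

theorem norm_omap (σ : M ≃ₐ[k] M) (x : OctL M a b c) : norm (omap σ x) = σ (norm x) := by
  change nrd (qmap σ x.fst) - ((up M c : Mˣ) : M) * nrd (qmap σ x.snd) = σ (nrd x.fst -
    ((up M c : Mˣ) : M) * nrd x.snd)
  have hc : σ ((up M c : Mˣ) : M) = ((up M c : Mˣ) : M) := σ.commutes _
  rw [nrd_qmap, nrd_qmap, map_sub, map_mul, hc]

theorem tri_one : tri ρ (1 : OctL M a b c) 1 = 1 := by
  rw [tri, star_one, omap_one, omap_one, mul_one]

theorem tri_tri (hρ : ∀ m, ρ (ρ (ρ m)) = m) (x y : OctL M a b c) :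
    tri ρ (tri ρ x y) x = ρ (ρ (norm x)) • y := by
  rw [tri, tri, star_mul, omap_mul, ← omap_star, ← omap_star, ← omap_star, star_star, star_star,
    omap_cube hρ, omap_star, omap_star, mul_mul_star, norm_omap, norm_omap]

/-- The image of `1` has norm one. -/
theorem norm_of_tri (hρ : ∀ m, ρ (ρ (ρ m)) = m) {f : OctL M a b c} (h0 : f ≠ 0)
    (hf : tri ρ f f = f) : norm f = 1 := by
  have h1 := tri_tri hρ f f
  rw [hf, hf] at h1
  have h2 : (ρ (ρ (norm f)) - 1) • f = 0 := by rw [sub_smul, one_smul, ← h1, sub_self]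
  have h3 : ρ (ρ (norm f)) - 1 = 0 := by
    by_contra h
    apply h0
    rw [← one_smul M f, ← inv_mul_cancel₀ h, mul_smul, h2, smul_zero]
  have h4 : ρ (ρ (norm f)) = ρ (ρ 1) := by rw [map_one, map_one]; exact sub_eq_zero.1 h3
  exact ρ.injective (ρ.injective h4)

theorem invo_one (ι : M ≃ₐ[k] M) : invo ι (1 : OctL M a b c) = 1 := by
  rw [invo, star_one, omap_one]

/-- The three properties of the image of `1`. -/
theorem image_one {I : Set (M ≃ₐ[k] M)} (hρ : ∀ m, ρ (ρ (ρ m)) = m) (g : TriU ρ I a b c) :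
    tri ρ (g.1 1) (g.1 1) = g.1 1 ∧ norm (g.1 1) = 1 ∧ ∀ ι ∈ I, invo ι (g.1 1) = g.1 1 := by
  have h1 : tri ρ (g.1 1) (g.1 1) = g.1 1 := by
    rw [← g.2.1, tri_one]
  refine ⟨h1, norm_of_tri hρ (fun h => ?_) h1, fun ι hι => ?_⟩
  · have h2 : (1 : OctL M a b c) = 0 := g.1.injective (by rw [h, map_zero])
    have h3 := congrArg (fun x : OctL M a b c => x.fst.re) h2
    simp at h3
  · rw [← g.2.2 ι hι, invo_one]

/-- Relations in the quaternion algebra. -/
theorem quat_rel [CharZero M] {i j l : Oct a b c} {a' b' c' : kˣ} (h : Trip a' b' c' i j l)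
    {f : OctL M a b c} {x : Qt (up M a') (up M b')} (hx : f = qemb (oup M i) (oup M j) x) :
    norm f = nrd x ∧ (tri ρ f f = f → x = qmap ρ (star x) * qmap ρ (qmap ρ (star x))) ∧
      ∀ ι : M ≃ₐ[k] M, invo ι f = f → qmap ι x = star x := by
  have hM := (trip_up (L := M) h).triple
  have hb := hM.toBasic
  have e2 : ∀ y : Qt (up M a') (up M b'), qemb (oup M i) (oup M j) y =
      emb (oup M i) (oup M j) (oup M l) (⟨y, 0⟩ : OctL M a' b' c') := by
    intro y
    change _ = qemb (oup M i) (oup M j) y + qemb (oup M i) (oup M j) 0 * oup M l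
    rw [qemb_zero, zero_mul, add_zero]
  have hinj : ∀ y z : Qt (up M a') (up M b'), qemb (oup M i) (oup M j) y =
      qemb (oup M i) (oup M j) z → y = z := by
    intro y z hyz
    have h0 : ∀ w : OctL M a' b' c', bil (⟨y - z, 0⟩ : OctL M a' b' c') w = 0 := by
      intro w
      rw [← hM.bil_emb, ← e2]
      have h1 : qemb (oup M i) (oup M j) (y - z) = 0 := by
        rw [sub_eq_add_neg, qemb_add, ← neg_one_smul M z, qemb_smul, hyz]
        module
      rw [h1, bil_zero_left]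
    exact sub_eq_zero.1 (congrArg Oct.fst (eq_zero_of_bil h0))
  refine ⟨by rw [hx, hb.norm_qemb], fun hf => ?_, fun ι hι => ?_⟩
  · rw [hx, tri, hb.star_qemb, omap_qemb, omap_qemb, ← hb.qemb_mul] at hf
    exact (hinj _ _ hf).symm
  · rw [hx, invo, hb.star_qemb, omap_qemb] at hι
    have h1 := hinj _ _ hι
    rw [qmap_star] at h1
    rw [← star_star (qmap ι x), h1]

end comp

/-- The statement of descent. -/
def Desc {k M : Type} [Field k] [Field M] [Algebra k M] (ρ : M ≃ₐ[k] M)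
    (I : Set (M ≃ₐ[k] M)) (a b c : kˣ) : Prop :=
  ∀ f : OctL M a b c, tri ρ f f = f → norm f = 1 → (∀ ι ∈ I, invo ι f = f) →
    ∃ (a' b' c' : kˣ) (i j l : Oct a b c), Trip a' b' c' i j l ∧
      ∃ x : Qt (up M a') (up M b'), f = qemb (oup M i) (oup M j) x

variable {k E M : Type} [Field k] [Field E] [Field M] [Algebra k E] [Algebra k M] [Algebra E M]
  [IsScalarTower k E M] {ρ : M ≃ₐ[k] M} {I : Set (M ≃ₐ[k] M)}

theorem orbit_one_of_desc [CharZero k] (hU : SetU k E M ρ I) {a b c : kˣ} (hdiv : Division a b c)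
    (hD : Desc ρ I a b c) (g : TriU ρ I a b c) : ∃ (a' b' c' : kˣ) (i j l : Oct a b c),
      Trip a' b' c' i j l ∧
      ∃ x : SL1 (up E a') (up E b'), g.1 1 = Oct.emb (oup M i) (oup M j) (oup M l)
        (shortFun ρ (qEM M ((x : (Qt (up E a') (up E b'))ˣ) : Qt (up E a') (up E b'))) 1 :
          OctL M a' b' c') := by
  have : CharZero M := charZero_of_injective_algebraMap (algebraMap k M).injective
  obtain ⟨h1, h2, h3⟩ := image_one hU.r3 g
  obtain ⟨a₁, b₁, c₁, i, j, l, hT', x, hx⟩ := hD _ h1 h2 h3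
  obtain ⟨h4, h5, h6⟩ := quat_rel (ρ := ρ) hT' hx
  have hab : Aniso a₁ b₁ := (aniso_of_trip hdiv hT').1
  obtain ⟨y, hy, hxy⟩ := h90U hU hab x (by rw [← h4, h2]) (h5 h1) (fun ι hι => h6 ι (h3 ι hι))
  have hy' : y * star y = 1 := by
    rw [mul_star_self', hy, one_smul]
  have hy'' : star y * y = 1 := by
    rw [star_mul_self', hy, one_smul]
  refine ⟨a₁, b₁, _, i, j, l, hT', ⟨⟨y, star y, hy', hy''⟩, hy⟩, ?_⟩
  rw [hx]
  change _ = qemb (oup M i) (oup M j) (qEM M y * 1 * star (qmap ρ (qmap ρ (qEM M y)))) +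
    qemb (oup M i) (oup M j) (0 * star (qmap ρ (qEM M y))) * oup M l
  rw [mul_one, zero_mul, qemb_zero, zero_mul, add_zero, ← hxy]

end Orb

end Vale.Agent.P011.D4
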