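import Vale.Agent.P011.D4.Maps

/-!
The homomorphisms into the trialitarian group, uniform set-up.
-/

namespace Vale.Agent.P011.D4.H24

open Vale.Agent.P011.MPQ Vale.Agent.P011.D4.Oct

variable {k E M : Type} [Field k] [Field E] [Field M] [Algebra k E] [Algebra k M] [Algebra E M]
  [IsScalarTower k E M] {ρ : M ≃ₐ[k] M} {I : Set (M ≃ₐ[k] M)}

/-- The extension of automorphisms. -/
theorem exists_ext (ρ : M ≃ₐ[k] M) (I : Set (M ≃ₐ[k] M)) (a b c : kˣ) :
    ∃ e : AutC a b c →* TriU ρ I a b c, IsExtU ρ I e := by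
  refine ⟨{ toFun := fun g => ⟨extE M g.1, fun x y => ?_, fun ι hι x => ?_⟩,
            map_one' := ?_, map_mul' := ?_ }, fun g x => extE_oup _ x⟩
  · exact tri_extL ρ g.2 (aut_star g) x y
  · change extL M _ (omap ι (star x)) = omap ι (star (extL M _ x))
    rw [← omap_extL, extL_star (aut_star g)]
  · exact Subtype.ext (equiv_unique fun x => extE_oup _ x)
  · intro g h
    refine Subtype.ext (equiv_unique fun x => ?_)
    rw [extE_oup]
    change _ = extE M g.1 (extE M h.1 (oup M x))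
    rw [extE_oup, extE_oup]
    rfl

omit [IsScalarTower k E M] in
/-- The short elements commute with the involution. -/
theorem shortFun_invo (hU : SetU k E M ρ I) {ι : M ≃ₐ[k] M} (hι : ι ∈ I) {a b c : kˣ}
    (x : Qt (up E a) (up E b)) (y : OctL M a b c) :
    shortFun ρ (qEM M x) (invo ι y) = invo ι (shortFun ρ (qEM M x) y) := by
  have h1 : qmap ρ (qmap ι (qEM M x)) = qEM M x :=
    QuaternionAlgebra.ext (hU.iE ι hι _) (hU.iE ι hι _) (hU.iE ι hι _) (hU.iE ι hι _)
  have h2 : ∀ z : Qt (up M a) (up M b), qmap ι (qmap ρ (qmap ι z)) = qmap ρ (qmap ρ z) := fun z =>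
    QuaternionAlgebra.ext (hU.iri ι hι _) (hU.iri ι hι _) (hU.iri ι hι _) (hU.iri ι hι _)
  have h3 : ∀ z : Qt (up M a) (up M b), qmap ι (qmap ι z) = z := fun z =>
    QuaternionAlgebra.ext (hU.ii ι hι _) (hU.ii ι hι _) (hU.ii ι hι _) (hU.ii ι hι _)
  have h4 : ∀ z : Qt (up M a) (up M b), qmap ρ (qmap ρ (qmap ρ z)) = z := qmap_cube ρ hU.r3
  obtain ⟨X, hX⟩ : ∃ X, X = qEM M x := ⟨_, rfl⟩
  rw [← hX] at h1 ⊢
  -- `ι X = ρ² X`
  have h5 : qmap ι X = qmap ρ (qmap ρ X) := by
    conv_rhs => rw [← h1]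
    exact (h4 (qmap ι X)).symm
  have h6 : qmap ι (qmap ρ (qmap ρ X)) = X := by rw [← h5, h3]
  have h7 : qmap ι (qmap ρ X) = qmap ρ X := by
    have := h2 (qmap ι X)
    rw [h3, h5, h4] at this
    exact this
  unfold shortFun invo
  apply Oct.ext
  · change X * qmap ι (star y.fst) * star (qmap ρ (qmap ρ X)) =
      qmap ι (star (X * y.fst * star (qmap ρ (qmap ρ X))))
    rw [star_mul, star_mul, star_star, qmap_mul, qmap_mul, qmap_star ι X, h5, h6, mul_assoc]
  · change qmap ι (-y.snd) * star (qmap ρ X) = qmap ι (-(y.snd * star (qmap ρ X)))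
    rw [qmap_neg, qmap_neg, qmap_mul, qmap_star, h7, neg_mul]

/-- The homomorphism of the short subgroup. -/
theorem exists_short (hU : SetU k E M ρ I) (a b c : kˣ) :
    ∃ s : SL1 (up E a) (up E b) →* TriU ρ I a b c, IsShortU ρ I s := by
  let f : Qt (up E a) (up E b) → OctL M a b c →ₗ[M] OctL M a b c := fun x =>
    { toFun := shortFun ρ (qEM M x)
      map_add' := shortFun_add ρ _
      map_smul' := fun t y => shortFun_smul ρ _ t y }
  have hf : ∀ x y z, f (x * y) z = f x (f y z) := fun x y z => by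
    change shortFun ρ (qEM M (x * y)) z = _
    rw [qEM_mul]
    exact shortFun_mul ρ _ _ z
  have hf1 : ∀ z, f 1 z = z := fun z => by
    change shortFun ρ (qEM M 1) z = _
    rw [qEM_one]
    exact shortFun_one ρ z
  let g : (Qt (up E a) (up E b))ˣ → OctL M a b c ≃ₗ[M] OctL M a b c := fun x =>
    LinearEquiv.ofLinearMap (f x) (f (x⁻¹ : (Qt (up E a) (up E b))ˣ))
      (LinearMap.ext fun z => by
        rw [LinearMap.comp_apply, ← hf, Units.mul_inv, hf1, LinearMap.id_apply])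
      (LinearMap.ext fun z => by
        rw [LinearMap.comp_apply, ← hf, Units.inv_mul, hf1, LinearMap.id_apply])
  refine ⟨{ toFun := fun x => ⟨g x, fun y z => ?_, fun ι hι y => ?_⟩,
            map_one' := ?_, map_mul' := ?_ }, fun x y => rfl⟩
  · refine shortFun_tri ρ hU.r3 ?_ y z
    have h : nrd ((x : (Qt (up E a) (up E b))ˣ) : Qt (up E a) (up E b)) = 1 := x.2
    have h' : star ((x : (Qt (up E a) (up E b))ˣ) : Qt (up E a) (up E b)) *
        ((x : (Qt (up E a) (up E b))ˣ) : Qt (up E a) (up E b)) = 1 := by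
      have e : ∀ q : Qt (up E a) (up E b), star q * q = (nrd q) • (1 : Qt (up E a) (up E b)) := by
        intro q
        ext
        · simp [nrd]
          ring
        · simp
          ring
        · simp
          ring
        · simp
          ring
      rw [e, h, one_smul]
    rw [← qEM_star, ← qEM_mul, h', qEM_one]
  · exact shortFun_invo hU hι _ y
  · exact Subtype.ext (LinearEquiv.ext fun z => hf1 z)
  · intro x y
    exact Subtype.ext (LinearEquiv.ext fun z => hf _ _ z)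

/-- Transport along a basic triple. -/
theorem exists_conj (ρ : M ≃ₐ[k] M) (I : Set (M ≃ₐ[k] M)) {a b c a' b' c' : kˣ}
    (h2 : (2 : k) ≠ 0) {i j l : Oct a b c}
    (h : Trip a' b' c' i j l) : ∃ C : TriU ρ I a' b' c' →* TriU ρ I a b c, IsConjU ρ I i j l C ∧
      Function.Bijective C := by
  have hM2 : NeZero (2 : M) := ⟨by
    have := (map_ne_zero (algebraMap k M)).mpr h2
    rwa [map_ofNat] at this⟩
  obtain ⟨Φ, h1, h3, h4, -⟩ := exists_emb (trip_up (L := M) h)
  have ho : ∀ (σ : M ≃ₐ[k] M) x, omap σ (Φ x) = Φ (omap σ x) := fun σ x => by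
    rw [h1, h1, omap_emb]
  have ht : ∀ x y, Φ (tri ρ x y) = tri ρ (Φ x) (Φ y) := fun x y => by
    unfold tri
    rw [h3, ← ho, ← ho, ← ho, h4, h4]
  have ht' : ∀ x y, Φ.symm (tri ρ x y) = tri ρ (Φ.symm x) (Φ.symm y) := fun x y => by
    apply Φ.injective
    rw [ht, Φ.apply_symm_apply, Φ.apply_symm_apply, Φ.apply_symm_apply]
  have hi : ∀ (ι : M ≃ₐ[k] M) x, Φ (invo ι x) = invo ι (Φ x) := fun ι x => by
    unfold invo
    rw [← ho, h4]
  have hi' : ∀ (ι : M ≃ₐ[k] M) x, Φ.symm (invo ι x) = invo ι (Φ.symm x) := fun ι x => by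
    apply Φ.injective
    rw [hi, Φ.apply_symm_apply, Φ.apply_symm_apply]
  let C : TriU ρ I a' b' c' →* TriU ρ I a b c :=
    { toFun := fun g => ⟨(Φ.symm.trans g.1).trans Φ, fun x y => by
        change Φ (g.1 (Φ.symm (tri ρ x y))) = tri ρ (Φ (g.1 (Φ.symm x))) (Φ (g.1 (Φ.symm y)))
        rw [ht', g.2.1, ht], fun ι hι x => by
        change Φ (g.1 (Φ.symm (invo ι x))) = invo ι (Φ (g.1 (Φ.symm x)))
        rw [hi', g.2.2 ι hι, hi]⟩
      map_one' := Subtype.ext (LinearEquiv.ext fun x => Φ.apply_symm_apply x)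
      map_mul' := fun g h => Subtype.ext (LinearEquiv.ext fun x => by
        change Φ (g.1 (h.1 (Φ.symm x))) = Φ (g.1 (Φ.symm (Φ (h.1 (Φ.symm x)))))
        rw [Φ.symm_apply_apply]) }
  have hC : ∀ g x, (C g).1 x = Φ (g.1 (Φ.symm x)) := fun g x => rfl
  refine ⟨C, fun g x => ?_, ?_, fun g => ?_⟩
  · rw [← h1, ← h1, hC, Φ.symm_apply_apply]
  · intro g h hgh
    refine Subtype.ext (LinearEquiv.ext fun x => Φ.injective ?_)
    have := hC g (Φ x)
    rw [hgh, hC, Φ.symm_apply_apply] at this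
    exact this.symm
  · refine ⟨⟨(Φ.trans g.1).trans Φ.symm, fun x y => ?_, fun ι hι x => ?_⟩, ?_⟩
    · change Φ.symm (g.1 (Φ (tri ρ x y))) = tri ρ (Φ.symm (g.1 (Φ x))) (Φ.symm (g.1 (Φ y)))
      rw [ht, g.2.1, ht']
    · change Φ.symm (g.1 (Φ (invo ι x))) = invo ι (Φ.symm (g.1 (Φ x)))
      rw [hi, g.2.2 ι hι, hi']
    · refine Subtype.ext (LinearEquiv.ext fun x => ?_)
      rw [hC]
      change Φ (Φ.symm (g.1 (Φ (Φ.symm x)))) = g.1 x
      rw [Φ.apply_symm_apply, Φ.apply_symm_apply]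

end Vale.Agent.P011.D4.H24
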