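import Vale.Agent.P011.D4.Triple

/-!
Octonion algebras: embeddings given by basic triples, automorphisms, orthogonal vectors.
-/

namespace Vale.Agent.P011.D4

open Vale.Agent.P011.MPQ

namespace Oct

variable {F : Type} [Field F] {a b c a' b' c' : Fˣ}

/-- The two components. -/
def toPair : Oct a b c ≃ₗ[F] Qt a b × Qt a b where
  toFun x := (x.fst, x.snd)
  invFun p := ⟨p.1, p.2⟩
  left_inv _ := rfl
  right_inv _ := rfl
  map_add' _ _ := rfl
  map_smul' _ _ := rfl

instance : Module.Finite F (Oct a b c) := Module.Finite.equiv toPair.symm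

theorem finrank_oct : Module.finrank F (Oct a b c) = 8 := by
  rw [toPair.finrank_eq, Module.finrank_prod, QuaternionAlgebra.finrank_eq_four]

theorem dot_comm (x y : Oct a b c) : dot x y = dot y x := by
  simp [dot]
  ring

theorem dot_add_left (x y z : Oct a b c) : dot (x + y) z = dot x z + dot y z := by
  simp only [dot, add_mul, fst_add, QuaternionAlgebra.re_add]

theorem dot_smul_left (t : F) (x z : Oct a b c) : dot (t • x) z = t * dot x z := by
  simp only [dot, smul_mul_oct, fst_smul, QuaternionAlgebra.re_smul, smul_eq_mul]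

theorem dot_add_right (x y z : Oct a b c) : dot x (y + z) = dot x y + dot x z := by
  rw [dot_comm, dot_add_left, dot_comm y, dot_comm z]

theorem dot_smul_right (t : F) (x z : Oct a b c) : dot x (t • z) = t * dot x z := by
  rw [dot_comm, dot_smul_left, dot_comm z]

theorem dot_neg_left (x z : Oct a b c) : dot (-x) z = -dot x z := by
  have := dot_smul_left (-1 : F) x z
  rwa [neg_one_smul, neg_one_mul] at this

theorem dot_neg_right (x z : Oct a b c) : dot x (-z) = -dot x z := by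
  rw [dot_comm, dot_neg_left, dot_comm z]

theorem dot_sub_left (x y z : Oct a b c) : dot (x - y) z = dot x z - dot y z := by
  rw [sub_eq_add_neg, dot_add_left, dot_neg_left, sub_eq_add_neg]

theorem dot_sub_right (x y z : Oct a b c) : dot x (y - z) = dot x y - dot x z := by
  rw [dot_comm, dot_sub_left, dot_comm y, dot_comm z]

theorem dot_mul_left (x y z : Oct a b c) : dot (x * y) z = dot y (star x * z) := by
  simp [dot]
  ring

theorem dot_mul_left' (x y z : Oct a b c) : dot (x * y) z = dot x (z * star y) := by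
  simp [dot]
  ring

theorem smul_one_inj {s t : F} (h : s • (1 : Oct a b c) = t • 1) : s = t := by
  have := congrArg (fun z : Oct a b c => z.fst.re) h
  simpa using this

/-- Orthogonal vectors exist. -/
theorem exists_perp (v : Fin 7 → Oct a b c) : ∃ x : Oct a b c, x ≠ 0 ∧ ∀ m, dot x (v m) = 0 := by
  let f : Oct a b c →ₗ[F] (Fin 7 → F) :=
    { toFun := fun x m => dot x (v m)
      map_add' := fun x y => funext fun m => dot_add_left x y (v m)
      map_smul' := fun t x => funext fun m => dot_smul_left t x (v m) }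
  have hlt : Module.finrank F (Fin 7 → F) < Module.finrank F (Oct a b c) := by
    rw [finrank_oct, Module.finrank_fin_fun]
    norm_num
  obtain ⟨x, hx, h0⟩ := Submodule.exists_mem_ne_zero_of_ne_bot
    (LinearMap.ker_ne_bot_of_finrank_lt (f := f) hlt)
  exact ⟨x, h0, fun m => congrFun (LinearMap.mem_ker.1 hx) m⟩

theorem Trip.triple {i j l : Oct a b c} (h : Trip a' b' c' i j l) : Triple i j l a' b' c' := by
  have hn : ∀ {x : Oct a b c} {t : F}, bil x 1 = 0 → x * x = t • (1 : Oct a b c) →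
      norm x = -t := by
    intro x t hx hxx
    rw [mul_self_of_pure hx] at hxx
    rw [← smul_one_inj hxx, neg_neg]
  have hi := star_eq_neg_iff.1 h.si
  have hj := star_eq_neg_iff.1 h.sj
  have hl := star_eq_neg_iff.1 h.sl
  refine ⟨⟨hi, hj, ?_, hn hi h.ii, hn hj h.jj⟩, ⟨hl, ?_, ?_, ?_⟩, hn hl h.ll⟩
  · rw [bil_eq_dot, h.ij, mul_zero]
  · rw [bil_eq_dot, dot_comm, h.il, mul_zero]
  · rw [bil_eq_dot, dot_comm, h.jl, mul_zero]
  · rw [bil_eq_dot, dot_comm, h.ijl, mul_zero]

theorem Triple.trip [NeZero (2 : F)] {i j l : Oct a b c} (h : Triple i j l a' b' c') :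
    Trip a' b' c' i j l := by
  have h2 : (2 : F) ≠ 0 := NeZero.ne 2
  have hd : ∀ {x y : Oct a b c}, bil x y = 0 → dot y x = 0 := by
    intro x y hxy
    rw [bil_eq_dot, dot_comm] at hxy
    exact (mul_eq_zero.1 hxy).resolve_left h2
  refine ⟨h.star_i, h.star_j, star_neg_of_pure h.perp.1, h.i_i, h.j_j, ?_, ?_, hd h.perp.2.1,
    hd h.perp.2.2.1, hd h.perp.2.2.2⟩
  · rw [mul_self_of_pure h.perp.1, h.norm_l, neg_neg]
  · rw [dot_comm]
    exact hd h.i_j

section two

variable [NeZero (2 : F)]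

/-- A triple determines an isomorphism. -/
theorem exists_emb {i j l : Oct a b c} (h : Trip a' b' c' i j l) :
    ∃ Φ : Oct a' b' c' ≃ₗ[F] Oct a b c, (∀ x, Φ x = emb i j l x) ∧
      (∀ x y, Φ (x * y) = Φ x * Φ y) ∧ (∀ x, Φ (star x) = star (Φ x)) ∧
      ∀ x, norm (Φ x) = norm x := by
  have ht := h.triple
  let f : Oct a' b' c' →ₗ[F] Oct a b c :=
    { toFun := emb i j l
      map_add' := emb_add
      map_smul' := emb_smul }
  have hinj : Function.Injective f := by
    rw [injective_iff_map_eq_zero]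
    intro x hx
    apply eq_zero_of_bil
    intro y
    rw [← ht.bil_emb]
    change bil (f x) _ = 0
    rw [hx, bil_zero_left]
  have hsur : Function.Surjective f :=
    (LinearMap.injective_iff_surjective_of_finrank_eq_finrank
      (by rw [finrank_oct, finrank_oct])).1 hinj
  exact ⟨LinearEquiv.ofBijective f ⟨hinj, hsur⟩, fun _ => rfl, ht.emb_mul, ht.emb_star,
    ht.norm_emb⟩

omit [NeZero (2 : F)] in
theorem trip_std : Trip a b c (gi : Oct a b c) gj gl := by
  constructor
  · apply ext8 <;> simp [gi]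
  · apply ext8 <;> simp [gj]
  · apply ext8 <;> simp [gl]
  · apply ext8 <;> simp [gi]
  · apply ext8 <;> simp [gj]
  · apply ext8 <;> simp [gl]
  · simp [dot, gi, gj]
  · simp [dot, gi, gl]
  · simp [dot, gj, gl]
  · simp [dot, gi, gj, gl]

omit [NeZero (2 : F)] in
theorem emb_std (x : Oct a b c) : emb (gi : Oct a b c) gj gl x = x := by
  apply ext8 <;> simp [emb, qemb, gi, gj, gl]

/-! Multiplicative isomorphisms. -/

section hom

variable {Φ : Oct a b c ≃ₗ[F] Oct a' b' c'} (hΦ : ∀ x y, Φ (x * y) = Φ x * Φ y)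
include hΦ

omit [NeZero (2 : F)] in
theorem hom_one : Φ 1 = 1 := by
  have h1 : ∀ y, Φ 1 * y = y := by
    intro y
    obtain ⟨x, rfl⟩ := Φ.surjective y
    rw [← hΦ, one_mul]
  have := h1 1
  rwa [mul_one] at this

omit [NeZero (2 : F)] in
theorem hom_tr (x : Oct a b c) : bil (Φ x) 1 = bil x 1 ∧ norm (Φ x) = norm x := by
  have h1 := hom_one hΦ
  have h2 : Φ (x * x) = Φ x * Φ x := hΦ x x
  rw [mul_self_eq, mul_self_eq, map_sub, map_smul, map_smul, h1] at h2
  by_cases hx : ∃ s : F, x = s • 1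
  · obtain ⟨s, rfl⟩ := hx
    rw [map_smul, h1, bil_smul_left, bil_smul_left, norm_smul, norm_smul, bil_self, bil_self,
      norm_one, norm_one]
    exact ⟨rfl, rfl⟩
  · have h3 : (bil x 1 - bil (Φ x) 1) • Φ x = (norm x - norm (Φ x)) • 1 := by
      rw [sub_smul, sub_smul, sub_eq_sub_iff_add_eq_add, add_comm (norm x • (1 : Oct a' b' c'))]
      rw [sub_eq_sub_iff_add_eq_add] at h2
      rw [h2]
    have h4 : bil x 1 - bil (Φ x) 1 = 0 := by
      by_contra h5
      apply hx
      refine ⟨(bil x 1 - bil (Φ x) 1)⁻¹ * (norm x - norm (Φ x)), ?_⟩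
      apply Φ.injective
      rw [map_smul, h1, mul_smul, ← h3, smul_smul, inv_mul_cancel₀ h5, one_smul]
    rw [h4, zero_smul] at h3
    have h6 : norm x - norm (Φ x) = 0 := by
      apply smul_one_inj (a := a') (b := b') (c := c')
      rw [← h3, zero_smul]
    exact ⟨(sub_eq_zero.1 h4).symm, (sub_eq_zero.1 h6).symm⟩

omit [NeZero (2 : F)] in
theorem hom_norm (x : Oct a b c) : norm (Φ x) = norm x := (hom_tr hΦ x).2

omit [NeZero (2 : F)] in
theorem hom_star (x : Oct a b c) : Φ (star x) = star (Φ x) := by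
  rw [star_eq, star_eq, map_sub, map_smul, hom_one hΦ, (hom_tr hΦ x).1]

omit [NeZero (2 : F)] in
theorem hom_bil (x y : Oct a b c) : bil (Φ x) (Φ y) = bil x y := by
  rw [bil, bil, ← map_add, hom_norm hΦ, hom_norm hΦ, hom_norm hΦ]

theorem hom_dot (x y : Oct a b c) : dot (Φ x) (Φ y) = dot x y := by
  have h := hom_bil hΦ x y
  rw [bil_eq_dot, bil_eq_dot] at h
  exact mul_left_cancel₀ (NeZero.ne 2) h

end hom

theorem trip_map {a'' b'' c'' : Fˣ} {i j l : Oct a b c} (h : Trip a' b' c' i j l)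
    {Φ : Oct a b c ≃ₗ[F] Oct a'' b'' c''} (hΦ : ∀ x y, Φ (x * y) = Φ x * Φ y) :
    Trip a' b' c' (Φ i) (Φ j) (Φ l) := by
  constructor
  · rw [← hom_star hΦ, h.si, map_neg]
  · rw [← hom_star hΦ, h.sj, map_neg]
  · rw [← hom_star hΦ, h.sl, map_neg]
  · rw [← hΦ, h.ii, map_smul, hom_one hΦ]
  · rw [← hΦ, h.jj, map_smul, hom_one hΦ]
  · rw [← hΦ, h.ll, map_smul, hom_one hΦ]
  · rw [hom_dot hΦ, h.ij]
  · rw [hom_dot hΦ, h.il]
  · rw [hom_dot hΦ, h.jl]
  · rw [← hΦ, hom_dot hΦ, h.ijl]

omit [NeZero (2 : F)] in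
theorem eq_gen (x : Oct a b c) : x = (x.fst.re • 1 + x.fst.imI • gi + x.fst.imJ • gj
    + x.fst.imK • (gi * gj)) + (x.snd.re • 1 + x.snd.imI • gi + x.snd.imJ • gj
    + x.snd.imK • (gi * gj)) * gl := by
  apply ext8 <;> simp [gi, gj, gl]

omit [NeZero (2 : F)] in
/-- A multiplicative linear map is determined by the images of the generators. -/
theorem hom_ext {A : Type} [NonAssocRing A] [Module F A] {f g : Oct a b c →ₗ[F] A}
    (hf : ∀ x y, f (x * y) = f x * f y) (hg : ∀ x y, g (x * y) = g x * g y) (h1 : f 1 = g 1)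
    (hi : f gi = g gi) (hj : f gj = g gj) (hl : f gl = g gl) : f = g := by
  apply LinearMap.ext
  intro x
  rw [eq_gen x]
  simp only [map_add, map_smul, hf, hg, h1, hi, hj, hl]

omit [NeZero (2 : F)] in
theorem aut_star (g : AutC a b c) (x : Oct a b c) : g.1 (star x) = star (g.1 x) :=
  hom_star g.2 x

omit [NeZero (2 : F)] in
theorem aut_norm (g : AutC a b c) (x : Oct a b c) : norm (g.1 x) = norm x := hom_norm g.2 x

omit [NeZero (2 : F)] in
theorem aut_one (g : AutC a b c) : g.1 1 = 1 := hom_one g.2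

theorem aut_dot (g : AutC a b c) (x y : Oct a b c) : dot (g.1 x) (g.1 y) = dot x y :=
  hom_dot g.2 x y

omit [NeZero (2 : F)] in
theorem aut_bil (g : AutC a b c) (x y : Oct a b c) : bil (g.1 x) (g.1 y) = bil x y :=
  hom_bil g.2 x y

omit [NeZero (2 : F)] in
theorem aut_ext {g h : AutC a b c} (hi : g.1 gi = h.1 gi) (hj : g.1 gj = h.1 gj)
    (hl : g.1 gl = h.1 gl) : g = h := by
  apply Subtype.ext
  apply LinearEquiv.toLinearMap_injective
  apply hom_ext g.2 h.2 _ hi hj hl
  change g.1 1 = h.1 1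
  rw [aut_one, aut_one]

/-- The automorphism carrying a triple to another one with the same squares. -/
theorem exists_aut {i j l i' j' l' : Oct a b c} (h : Trip a' b' c' i j l)
    (h' : Trip a' b' c' i' j' l') :
    ∃ g : AutC a b c, g.1 i = i' ∧ g.1 j = j' ∧ g.1 l = l' := by
  obtain ⟨Φ, hΦ, hm, -, -⟩ := exists_emb h
  obtain ⟨Ψ, hΨ, hm', -, -⟩ := exists_emb h'
  have e1 : ∀ {i j l : Oct a b c}, emb i j l (gi : Oct a' b' c') = i := by
    intro i j l
    simp [emb, qemb, gi]
  have e2 : ∀ {i j l : Oct a b c}, emb i j l (gj : Oct a' b' c') = j := by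
    intro i j l
    simp [emb, qemb, gj]
  have e3 : ∀ {i j l : Oct a b c}, emb i j l (gl : Oct a' b' c') = l := by
    intro i j l
    simp [emb, qemb, gl]
  have hs : ∀ x y, Φ.symm (x * y) = Φ.symm x * Φ.symm y := by
    intro x y
    apply Φ.injective
    rw [hm, Φ.apply_symm_apply, Φ.apply_symm_apply, Φ.apply_symm_apply]
  refine ⟨⟨Φ.symm.trans Ψ, fun x y => ?_⟩, ?_, ?_, ?_⟩
  · change Ψ (Φ.symm (x * y)) = Ψ (Φ.symm x) * Ψ (Φ.symm y)
    rw [hs, hm']
  · change Ψ (Φ.symm i) = i'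
    have : Φ.symm i = gi := by
      apply Φ.injective
      rw [Φ.apply_symm_apply, hΦ, e1]
    rw [this, hΨ, e1]
  · change Ψ (Φ.symm j) = j'
    have : Φ.symm j = gj := by
      apply Φ.injective
      rw [Φ.apply_symm_apply, hΦ, e2]
    rw [this, hΨ, e2]
  · change Ψ (Φ.symm l) = l'
    have : Φ.symm l = gl := by
      apply Φ.injective
      rw [Φ.apply_symm_apply, hΦ, e3]
    rw [this, hΨ, e3]

end two

theorem norm_eq_of_sq {x : Oct a b c} (hx : star x = -x) : x * x = (-norm x) • 1 :=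
  mul_self_of_pure (star_eq_neg_iff.1 hx)

/-- Completion of a basic pair by a given third vector. -/
theorem exists_trip (hdiv : Division a b c) {i j l : Oct a b c} (hi : star i = -i) (hi0 : i ≠ 0)
    (hj : star j = -j) (hj0 : j ≠ 0) (hl : star l = -l) (hl0 : l ≠ 0) (hij : dot i j = 0)
    (hil : dot i l = 0) (hjl : dot j l = 0) (hijl : dot (i * j) l = 0) :
    ∃ a' b' c' : Fˣ, Trip a' b' c' i j l :=
  ⟨Units.mk0 (-norm i) (neg_ne_zero.2 fun h => hi0 (hdiv i h)),
    Units.mk0 (-norm j) (neg_ne_zero.2 fun h => hj0 (hdiv j h)),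
    Units.mk0 (-norm l) (neg_ne_zero.2 fun h => hl0 (hdiv l h)),
    ⟨hi, hj, hl, norm_eq_of_sq hi, norm_eq_of_sq hj, norm_eq_of_sq hl, hij, hil, hjl, hijl⟩⟩

theorem Division.aniso (hdiv : Division a b c) : Aniso a b := by
  intro x hx
  have h := hdiv ⟨x, 0⟩ (by rw [norm, hx]; simp [nrd])
  exact congrArg Oct.fst h

/-- Cyclic permutation of a triple. -/
theorem Trip.rot {i j l : Oct a b c} (h : Trip a' b' c' i j l) : Trip c' a' b' l i j := by
  refine ⟨h.sl, h.si, h.sj, h.ll, h.ii, h.jj, ?_, ?_, h.ij, ?_⟩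
  · rw [dot_comm, h.il]
  · rw [dot_comm, h.jl]
  · rw [dot_mul_left', h.si, mul_neg, h.triple.j_i, neg_neg, dot_comm, h.ijl]

/-- Transposition of a triple. -/
theorem Trip.swap {i j l : Oct a b c} (h : Trip a' b' c' i j l) : Trip b' a' c' j i l := by
  refine ⟨h.sj, h.si, h.sl, h.jj, h.ii, h.ll, ?_, h.jl, h.il, ?_⟩
  · rw [dot_comm, h.ij]
  · rw [h.triple.j_i, dot_neg_left, h.ijl, neg_zero]

/-- The quaternion algebras in a division octonion algebra. -/
theorem aniso_of_trip [NeZero (2 : F)] (hdiv : Division a b c) {i j l : Oct a b c} (h : Trip a' b' c' i j l) :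
    Aniso a' b' ∧ Aniso c' a' ∧ Aniso c' b' ∧ Division a' b' c' := by
  have key : ∀ {a' b' c' : Fˣ} {i j l : Oct a b c}, Trip a' b' c' i j l → Division a' b' c' := by
    intro a' b' c' i j l h x hx
    obtain ⟨Φ, -, -, -, hn⟩ := exists_emb h
    apply Φ.injective
    rw [map_zero]
    exact hdiv _ (by rw [hn, hx])
  exact ⟨(key h).aniso, (key h.rot).aniso, (key h.swap.rot).aniso, key h⟩

/-! Decomposition with respect to a quaternion subalgebra. -/

/-- Every element orthogonal to a quaternion subalgebra is a product with `l`, and conversely. -/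
theorem Trip.perp_iff [NeZero (2 : F)] {i j l : Oct a b c} (h : Trip a' b' c' i j l)
    (y : Oct a b c) : Perp i j y ↔ ∃ q : Qt a' b', y = qemb i j q * l := by
  have ht := h.triple
  obtain ⟨Φ, hΦ, hm, -, -⟩ := exists_emb h
  constructor
  · intro hy
    obtain ⟨x, rfl⟩ := Φ.surjective y
    rw [hΦ] at hy ⊢
    have h1 : (⟨x.fst, 0⟩ : Oct a' b' c') = 0 := by
      apply eq_zero_of_bil
      intro z
      have h2 := bil_qemb i j _ hy z.fst
      have h3 : qemb i j z.fst = emb i j l (⟨z.fst, 0⟩ : Oct a' b' c') := by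
        rw [emb, qemb_zero, zero_mul, add_zero]
      rw [h3, ht.bil_emb] at h2
      rw [bil_eq] at h2 ⊢
      simpa using h2
    refine ⟨x.snd, ?_⟩
    have h4 : x.fst = 0 := congrArg Oct.fst h1
    rw [emb, h4, qemb_zero, zero_add]
  · rintro ⟨q, rfl⟩
    have h5 : ∀ p : Qt a' b', bil (qemb i j q * l) (qemb i j p) = 0 := by
      intro p
      rw [bil_mul_left, ht.toBasic.star_qemb, ← ht.toBasic.qemb_mul, bil_qemb i j l ht.perp]
    have e0 : (1 : Oct a b c) = qemb i j (1 : Qt a' b') := qemb_one.symm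
    have e1 : i = qemb i j (⟨0, 1, 0, 0⟩ : Qt a' b') := by simp [qemb]
    have e2 : j = qemb i j (⟨0, 0, 1, 0⟩ : Qt a' b') := by simp [qemb]
    have e3 : i * j = qemb i j (⟨0, 0, 0, 1⟩ : Qt a' b') := by simp [qemb]
    refine ⟨?_, ?_, ?_, ?_⟩
    · rw [e0]
      exact h5 _
    · have := h5 ⟨0, 1, 0, 0⟩
      rwa [← e1] at this
    · have := h5 ⟨0, 0, 1, 0⟩
      rwa [← e2] at this
    · have := h5 ⟨0, 0, 0, 1⟩
      rwa [← e3] at this

end Oct

end Vale.Agent.P011.D4
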