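import Vale.Agent.P011.D4.Defs

/-!
Springer's theorem for diagonal quadratic forms and cubic extensions, and consequences for
quaternion algebras and octonion algebras.
-/

open Polynomial

namespace Vale.Agent.P011.D4

open Vale.Agent.P011.MPQ

theorem springer_poly {k : Type*} [Field k] {ι : Type*} [Fintype ι] (c : ι → k)
    (han : ∀ w : ι → k, ∑ i, c i * w i ^ 2 = 0 → w = 0) (F : k[X]) (hF : Irreducible F)
    (hdeg : F.natDegree = 3) : ∀ d : ℕ, d ≤ 2 → ∀ g : ι → k[X], (∀ i, (g i).natDegree ≤ d) →
      F ∣ ∑ i, C (c i) * g i ^ 2 → g = 0 := by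
  have key : ∀ d : ℕ, d ≤ 2 → (∀ g : ι → k[X], (∀ i, (g i).natDegree + 1 ≤ d) →
      F ∣ ∑ i, C (c i) * g i ^ 2 → g = 0) → ∀ g : ι → k[X], (∀ i, (g i).natDegree ≤ d) →
      F ∣ ∑ i, C (c i) * g i ^ 2 → (∀ i, (g i).coeff d = 0) ∨ g = 0 := by
    intro d hd2 hrec g hg hdvd
    by_contra hcon
    push Not at hcon
    obtain ⟨⟨i₀, hi₀⟩, hg0⟩ := hcon
    set P : k[X] := ∑ i, C (c i) * g i ^ 2 with hP
    have hPc : P.coeff (2 * d) = ∑ i, c i * ((g i).coeff d) ^ 2 := by
      rw [hP, finsetSum_coeff]
      refine Finset.sum_congr rfl fun i _ => ?_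
      rw [coeff_C_mul, coeff_pow_of_natDegree_le (hg i)]
    have hPc0 : P.coeff (2 * d) ≠ 0 := by
      rw [hPc]
      intro h
      exact hi₀ (congrFun (han _ h) i₀)
    have hPdeg : P.natDegree = 2 * d := by
      apply le_antisymm
      · apply natDegree_sum_le_of_forall_le
        intro i _
        refine (natDegree_C_mul_le _ _).trans ?_
        exact (natDegree_pow_le).trans (Nat.mul_le_mul_left 2 (hg i))
      · exact le_natDegree_of_ne_zero hPc0
    have hP0 : P ≠ 0 := fun h => hPc0 (by rw [h, coeff_zero])
    obtain ⟨h, hh⟩ := hdvd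
    have hh0 : h ≠ 0 := fun h0 => hP0 (by rw [hh, h0, mul_zero])
    have hdeg2 : P.natDegree = 3 + h.natDegree := by
      rw [hh, natDegree_mul hF.ne_zero hh0, hdeg]
    have hh1 : h.natDegree = 1 := by omega
    obtain ⟨r, hr⟩ : ∃ r, h.eval r = 0 := by
      have h1 : h.degree = 1 := by
        rw [degree_eq_natDegree hh0, hh1]
        rfl
      obtain ⟨r, hr⟩ := exists_root_of_degree_eq_one h1
      exact ⟨r, hr⟩
    have hPr : ∑ i, c i * ((g i).eval r) ^ 2 = 0 := by
      have h1 : P.eval r = 0 := by rw [hh, eval_mul, hr, mul_zero]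
      rw [hP, eval_finsetSum] at h1
      rw [← h1]
      refine Finset.sum_congr rfl fun i _ => ?_
      rw [eval_mul, eval_C, eval_pow]
    have hgr := han _ hPr
    have hroot : ∀ i, ∃ q : k[X], g i = (X - C r) * q := fun i =>
      dvd_iff_isRoot.2 (congrFun hgr i)
    choose q hq using hroot
    have hXC : (X - C r : k[X]) ≠ 0 := X_sub_C_ne_zero r
    have hqdeg : ∀ i, (q i).natDegree + 1 ≤ d := by
      intro i
      by_cases hqi : q i = 0
      · rw [hqi, natDegree_zero]
        omega
      · have h1 : (g i).natDegree = 1 + (q i).natDegree := by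
          rw [hq i, natDegree_mul hXC hqi, natDegree_X_sub_C]
        have h2 := hg i
        omega
    have hPq : P = (X - C r) ^ 2 * ∑ i, C (c i) * q i ^ 2 := by
      rw [hP, Finset.mul_sum]
      refine Finset.sum_congr rfl fun i _ => ?_
      rw [hq i]
      ring
    have hcop : IsCoprime F (X - C r) := by
      rcases (EuclideanDomain.dvd_or_coprime F (X - C r) hF) with hd | hc
      · exfalso
        have h1 := natDegree_le_of_dvd hd hXC
        rw [natDegree_X_sub_C, hdeg] at h1
        omega
      · exact hc
    have hdvd' : F ∣ ∑ i, C (c i) * q i ^ 2 := by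
      have h1 : F ∣ (X - C r) ^ 2 * ∑ i, C (c i) * q i ^ 2 := by
        rw [← hPq, hh]
        exact dvd_mul_right _ _
      exact (hcop.pow_right).dvd_of_dvd_mul_left h1
    have hq0 := hrec q hqdeg hdvd'
    apply hg0
    funext i
    rw [hq i, hq0]
    simp
  intro d
  induction d with
  | zero =>
    intro _ g hg hdvd
    rcases key 0 (by omega) (fun g hg _ => by
      funext i
      exact absurd (hg i) (by omega)) g hg hdvd with h | h
    · funext i
      rw [eq_C_of_natDegree_le_zero (hg i), h i]
      simp
    · exact h
  | succ d ih =>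
    intro hd g hg hdvd
    rcases key (d + 1) hd (fun g hg hdvd => ih (by omega) g (fun i => by
      have := hg i
      omega) hdvd) g hg hdvd with h | h
    · refine ih (by omega) g (fun i => ?_) hdvd
      by_contra hcon
      have h1 : (g i).natDegree = d + 1 := by
        have := hg i
        omega
      have h2 : (g i).leadingCoeff = 0 := by
        rw [leadingCoeff, h1, h i]
      rw [leadingCoeff_eq_zero] at h2
      rw [h2, natDegree_zero] at h1
      omega
    · exact h

section cubic

variable {k E : Type*} [Field k] [Field E] [Algebra k E]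

/-- Springer's theorem for a diagonal form and a cubic extension. -/
theorem springer3 [CharZero k] (h3 : Module.finrank k E = 3) {ι : Type*} [Fintype ι] (c : ι → k)
    (v : ι → E) (hv : v ≠ 0) (h : ∑ i, algebraMap k E (c i) * v i ^ 2 = 0) :
    ∃ w : ι → k, w ≠ 0 ∧ ∑ i, c i * w i ^ 2 = 0 := by
  by_contra hcon
  push Not at hcon
  have : FiniteDimensional k E := Module.finite_of_finrank_pos (by omega)
  let pb := Field.powerBasisOfFiniteOfSeparable k E
  have hdim : pb.dim = 3 := by rw [← pb.finrank, h3]
  have hg : ∀ i, ∃ g : k[X], g.natDegree < pb.dim ∧ v i = aeval pb.gen g := fun i =>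
    pb.exists_eq_aeval (v i)
  choose g hg1 hg2 using hg
  have hirr : Irreducible (minpoly k pb.gen) := minpoly.irreducible pb.isIntegral_gen
  have hdeg : (minpoly k pb.gen).natDegree = 3 := by rw [pb.natDegree_minpoly, hdim]
  have h0 := springer_poly c (fun w hw => by
    by_contra hw0
    exact hcon w hw0 hw) _ hirr hdeg 2 le_rfl g (fun i => by
      have := hg1 i
      omega) (minpoly.dvd k pb.gen (by
      rw [map_sum, ← h]
      refine Finset.sum_congr rfl fun i _ => ?_
      rw [map_mul, map_pow, aeval_C, ← hg2 i]))
  apply hv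
  funext i
  rw [hg2 i, h0]
  simp

end cubic

section quat

variable {k E : Type} [Field k] [Field E] [Algebra k E]

/-- A quaternion division algebra stays a division algebra over a cubic extension. -/
theorem aniso_up [CharZero k] (h3 : Module.finrank k E = 3) {a b : kˣ} (hab : Aniso a b) :
    Aniso (up E a) (up E b) := by
  intro x hx
  by_contra hx0
  obtain ⟨w, hw0, hw⟩ := springer3 h3 ![(1 : k), -a, -b, a * b] ![x.re, x.imI, x.imJ, x.imK]
    (by
      intro h
      apply hx0
      have h0 := congrFun h 0
      have h1 := congrFun h 1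
      have h2 := congrFun h 2
      have h3 := congrFun h 3
      ext
      · simpa using h0
      · simpa using h1
      · simpa using h2
      · simpa using h3)
    (by
      simp only [Fin.sum_univ_four, nrd] at hx ⊢
      simp [up] at hx ⊢
      linear_combination hx)
  apply hw0
  have h := hab ⟨w 0, w 1, w 2, w 3⟩ (by
    simp only [Fin.sum_univ_four] at hw
    simp [nrd] at hw ⊢
    linear_combination hw)
  have h0 := congrArg QuaternionAlgebra.re h
  have h1 := congrArg QuaternionAlgebra.imI h
  have h2 := congrArg QuaternionAlgebra.imJ h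
  have h3 := congrArg QuaternionAlgebra.imK h
  funext i
  fin_cases i
  · simpa using h0
  · simpa using h1
  · simpa using h2
  · simpa using h3

/-- A reduced norm over a cubic extension lying in the ground field is a reduced norm. -/
theorem nrd_desc [CharZero k] (h3 : Module.finrank k E = 3) {a b : kˣ} (hab : Aniso a b) (ν : k)
    (x : Qt (up E a) (up E b)) (hx : nrd x = algebraMap k E ν) :
    ∃ q : Qt a b, nrd q = ν := by
  obtain ⟨w, hw0, hw⟩ := springer3 h3 ![(1 : k), -a, -b, a * b, -ν]
    ![x.re, x.imI, x.imJ, x.imK, 1]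
    (by
      intro h
      have h4 := congrFun h 4
      simp at h4)
    (by
      simp only [Fin.sum_univ_five, nrd] at hx ⊢
      simp [up] at hx ⊢
      linear_combination hx)
  simp only [Fin.sum_univ_five] at hw
  simp at hw
  have hw4 : w 4 ≠ 0 := by
    intro h4
    apply hw0
    have h := hab ⟨w 0, w 1, w 2, w 3⟩ (by
      rw [h4] at hw
      simp only [nrd]
      linear_combination hw)
    have h0 := congrArg QuaternionAlgebra.re h
    have h1 := congrArg QuaternionAlgebra.imI h
    have h2 := congrArg QuaternionAlgebra.imJ h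
    have h3 := congrArg QuaternionAlgebra.imK h
    funext i
    fin_cases i
    · simpa using h0
    · simpa using h1
    · simpa using h2
    · simpa using h3
    · simpa using h4
  refine ⟨⟨w 0 / w 4, w 1 / w 4, w 2 / w 4, w 3 / w 4⟩, ?_⟩
  simp only [nrd]
  field_simp
  linear_combination hw

/-- An octonion division algebra stays a division algebra over a cubic extension. -/
theorem oct_div_up [CharZero k] (h3 : Module.finrank k E = 3) {a b c : kˣ}
    (h : Oct.Division a b c) : Oct.Division (up E a) (up E b) (up E c) := by
  intro x hx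
  by_contra hx0
  obtain ⟨w, hw0, hw⟩ := springer3 h3
    ![(1 : k), -a, -b, a * b, -c, c * a, c * b, -(c * (a * b))]
    ![x.fst.re, x.fst.imI, x.fst.imJ, x.fst.imK, x.snd.re, x.snd.imI, x.snd.imJ, x.snd.imK]
    (by
      intro h
      apply hx0
      have h0 := congrFun h 0
      have h1 := congrFun h 1
      have h2 := congrFun h 2
      have h3 := congrFun h 3
      have h4 := congrFun h 4
      have h5 := congrFun h 5
      have h6 := congrFun h 6
      have h7 := congrFun h 7
      ext
      · simpa using h0
      · simpa using h1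
      · simpa using h2
      · simpa using h3
      · simpa using h4
      · simpa using h5
      · simpa using h6
      · simpa using h7)
    (by
      simp only [Fin.sum_univ_eight, Oct.norm, nrd] at hx ⊢
      simp [up] at hx ⊢
      linear_combination hx)
  apply hw0
  have h := h ⟨⟨w 0, w 1, w 2, w 3⟩, ⟨w 4, w 5, w 6, w 7⟩⟩ (by
    simp only [Fin.sum_univ_eight] at hw
    simp [Oct.norm, nrd] at hw ⊢
    linear_combination hw)
  have h0 := congrArg (fun o => o.fst.re) h
  have h1 := congrArg (fun o => o.fst.imI) h
  have h2 := congrArg (fun o => o.fst.imJ) h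
  have h3 := congrArg (fun o => o.fst.imK) h
  have h4 := congrArg (fun o => o.snd.re) h
  have h5 := congrArg (fun o => o.snd.imI) h
  have h6 := congrArg (fun o => o.snd.imJ) h
  have h7 := congrArg (fun o => o.snd.imK) h
  funext i
  fin_cases i
  · simpa using h0
  · simpa using h1
  · simpa using h2
  · simpa using h3
  · simpa using h4
  · simpa using h5
  · simpa using h6
  · simpa using h7

end quat

end Vale.Agent.P011.D4
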