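import Vale.Agent.P011.D4.Defs2

/-!
The maps from the automorphism group of the octonion algebra and from the norm-one group of a
quaternion algebra to the trialitarian group.
-/

open NumberField IsDedekindDomain Topology

namespace Vale.Agent.P011.D4

open Vale.Agent.P011.MPQ Vale.Agent.P011.Arith

variable {k L : Type} [Field k] [Field L] [Algebra k L]

/-- A quaternion over the ground field, as a quaternion over the extension. -/
def qup (L : Type) [Field L] [Algebra k L] {a b : kˣ} (x : Qt a b) : Qt (up L a) (up L b) :=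
  ⟨algebraMap k L x.re, algebraMap k L x.imI, algebraMap k L x.imJ, algebraMap k L x.imK⟩

/-- An octonion over the ground field, as an octonion over the extension. -/
def oup (L : Type) [Field L] [Algebra k L] {a b c : kˣ} (x : Oct a b c) : OctL L a b c :=
  ⟨qup L x.fst, qup L x.snd⟩

/-- The underlying map of the short subgroup. -/
def shortFun (ρ : L ≃ₐ[k] L) {a b c : kˣ} (x : Qt (up L a) (up L b)) (y : OctL L a b c) :
    OctL L a b c :=
  ⟨x * y.fst * star (qmap ρ (qmap ρ x)), y.snd * star (qmap ρ x)⟩

/-- The homomorphism `E` extends automorphisms of the octonion algebra to the cubic extension. -/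
def IsExt (ρ : L ≃ₐ[k] L) {a b c : kˣ} (E : AutC a b c →* Tri ρ a b c) : Prop :=
  ∀ (g : AutC a b c) (x : Oct a b c), (E g).1 (oup L x) = oup L (g.1 x)

/-- The homomorphism of the short subgroup. -/
def IsShort (ρ : L ≃ₐ[k] L) {a b c : kˣ} (s : SL1 (up L a) (up L b) →* Tri ρ a b c) : Prop :=
  ∀ (x : SL1 (up L a) (up L b)) (y : OctL L a b c),
    (s x).1 y = shortFun ρ ((x : (Qt (up L a) (up L b))ˣ) : Qt (up L a) (up L b)) y

/-- Transport of the trialitarian group along an isomorphism of octonion algebras. -/
def IsConjT (ρ : L ≃ₐ[k] L) {a b c a' b' c' : kˣ} (i j l : Oct a b c)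
    (C : Tri ρ a' b' c' →* Tri ρ a b c) : Prop :=
  ∀ (g : Tri ρ a' b' c') (x : OctL L a' b' c'),
    (C g).1 (Oct.emb (oup L i) (oup L j) (oup L l) x) =
      Oct.emb (oup L i) (oup L j) (oup L l) (g.1 x)

end Vale.Agent.P011.D4
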