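import Vale.Agent.P011.D4.TG2

/-!
A pure quaternion generating the unramified quadratic extension at each ramified prime.
-/

open NumberField IsDedekindDomain

namespace Vale.Agent.P011.D4.TG

open Vale.Agent.P011.Arith Vale.Agent.P011.MPQ Vale.Agent.P011.Two

variable {k : Type} [Field k] [NumberField k] {a b : kˣ}

/-- Norm groups attached to two different classes generate everything. -/
theorem sup_eq_top' {v : HeightOneSpectrum (𝓞 k)} {a u : kˣ} (ha : a ∉ LS (v.valuation k))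
    (hu : u ∉ LS (v.valuation k)) (x : kˣ) :
    x ∈ (NF a ⊔ LS (v.valuation k)) ⊔ (NF (a * u) ⊔ LS (v.valuation k)) := by
  obtain ⟨H, hH⟩ : ∃ H : kˣ → Subgroup kˣ, H = fun t => NF t ⊔ LS (v.valuation k) := ⟨_, rfl⟩
  have hHt : ∀ t, NF t ⊔ LS (v.valuation k) = H t := fun t => by rw [hH]
  have hsymm : ∀ s t, s ∈ H t ↔ t ∈ H s := fun s t => by
    rw [← hHt, ← hHt]
    exact ⟨fun h => mem_symm _ _ h, fun h => mem_symm _ _ h⟩
  have hidx : ∀ t, t ∉ LS (v.valuation k) → (H t).index = 2 := fun t ht => by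
    rw [← hHt]
    exact local_index_two v t ht
  have hLS : ∀ t, LS (v.valuation k) ≤ H t := fun t => by
    rw [← hHt]
    exact le_sup_right
  have htop : ∀ t, t ∈ LS (v.valuation k) → H t = ⊤ := fun t ht => by
    rw [← hHt]
    exact NF_sup_of_mem' t ht
  rw [hHt, hHt]
  by_contra hcon
  have h1 : H a ⊔ H (a * u) ≠ ⊤ := fun h => hcon (by rw [h]; exact Subgroup.mem_top _)
  have h2 : H (a * u) ≤ H a := by
    have h3 := Subgroup.relIndex_mul_index (le_sup_left : H a ≤ H a ⊔ H (a * u))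
    rw [hidx a ha] at h3
    have h4 : (H a ⊔ H (a * u)).index ≠ 1 := fun h => h1 (Subgroup.index_eq_one.mp h)
    have h5 : (H a ⊔ H (a * u)).index ∣ 2 := ⟨_, by rw [← h3, mul_comm]⟩
    have h6 : (H a ⊔ H (a * u)).index = 2 := by
      rcases (Nat.dvd_prime Nat.prime_two).mp h5 with h | h
      · exact absurd h h4
      · exact h
    have h7 : (H a).relIndex (H a ⊔ H (a * u)) = 1 := by
      rw [h6] at h3
      omega
    exact le_sup_right.trans (Subgroup.relIndex_eq_one.mp h7)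
  have hau : a * u ∉ LS (v.valuation k) := fun h => by
    rw [htop _ h, top_le_iff] at h2
    have := hidx a ha
    rw [h2, Subgroup.index_top] at this
    exact absurd this (by norm_num)
  have heq : H (a * u) = H a := by
    refine le_antisymm h2 ?_
    have h3 := Subgroup.relIndex_mul_index h2
    rw [hidx a ha, hidx _ hau] at h3
    exact Subgroup.relIndex_eq_one.mp (by omega)
  have hut : H u = ⊤ := by
    rw [eq_top_iff]
    intro y _
    by_cases hy : y ∈ LS (v.valuation k)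
    · exact hLS u hy
    · rw [hsymm]
      have h5 := hidx y hy
      have h6 : a ∈ H y ↔ a * u ∈ H y := by
        rw [hsymm a y, hsymm (a * u) y, heq]
      have h7 : a * (a * u) ∈ H y := (Subgroup.mul_mem_iff_of_index_two h5).mpr h6
      have h8 : a ^ 2 ∈ H y := hLS y (sq_mem_LS a)
      have h9 : a ^ 2 * u ∈ H y := by
        have : a ^ 2 * u = a * (a * u) := by rw [sq, mul_assoc]
        rw [this]
        exact h7
      exact (Subgroup.mul_mem_cancel_left (H y) h8).mp h9
  have := hidx u hu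
  rw [hut, Subgroup.index_top] at this
  exact absurd this (by norm_num)

/-- Local solution. -/
theorem loc_unram {v : HeightOneSpectrum (𝓞 k)} (hv : Ram a b v) {c : k}
    (hc : AdmC (v.valuation k) c) : ∃ x y z r : k, r ≠ 0 ∧
      v.valuation k ((a * x ^ 2 + b * y ^ 2 - a * b * z ^ 2) / ((1 + 4 * c) * r ^ 2) - 1) <
        v.valuation k 4 := by
  have hu0 : 1 + 4 * c ≠ 0 := by
    intro h
    have := adm_unit hc
    rw [h, map_zero] at this
    exact zero_ne_one this
  obtain ⟨u, hu⟩ : ∃ u : kˣ, (u : k) = 1 + 4 * c := ⟨Units.mk0 _ hu0, rfl⟩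
  have huL : u ∉ LS (v.valuation k) := adm_notMem hc hu
  have haL : a ∉ LS (v.valuation k) := fun h => hv (by
    rw [NF_sup_of_mem' a h]
    exact Subgroup.mem_top _)
  have h1 := sup_eq_top' (v := v) haL huL (b * u)
  obtain ⟨p, hp, q, hq, hpq⟩ := Subgroup.mem_sup.mp h1
  obtain ⟨n, hn, μ₁, hμ₁, rfl⟩ := Subgroup.mem_sup.mp hp
  obtain ⟨m, hm, μ₂, hμ₂, rfl⟩ := Subgroup.mem_sup.mp hq
  obtain ⟨μ, hμdef⟩ : ∃ μ : kˣ, μ = μ₁ * μ₂ := ⟨_, rfl⟩
  have hμ : μ ∈ LS (v.valuation k) := by rw [hμdef]; exact mul_mem hμ₁ hμ₂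
  have hE : b * n⁻¹ = u⁻¹ * (m * μ) := by
    rw [hμdef]
    have : b * n⁻¹ = u⁻¹ * ((b * u) * n⁻¹) := by
      rw [mul_comm b u, mul_assoc, inv_mul_cancel_left]
    rw [this, ← hpq]
    congr 1
    rw [mul_comm n μ₁, mul_assoc μ₁ n, mul_comm n, ← mul_assoc, mul_inv_cancel_right,
      mul_left_comm]
  obtain ⟨Y, Z, hYZ⟩ := (NF a).inv_mem hn
  obtain ⟨S, X, hSX⟩ := hm
  have hS : S ≠ 0 := by
    rintro rfl
    apply hv
    have hX : X ≠ 0 := by
      rintro rfl
      apply m.ne_zero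
      rw [hSX]
      ring
    have e1 : b = (-a) * (n * (Units.mk0 X hX ^ 2 * μ)) := by
      have e2 : b = u⁻¹ * (m * μ) * n := by rw [← hE, inv_mul_cancel_right]
      rw [e2]
      apply Units.ext
      push_cast
      rw [hSX, Units.val_mk0]
      push_cast
      have := u.ne_zero
      field_simp
      ring
    rw [e1]
    refine mul_mem (Subgroup.mem_sup_left ⟨0, 1, ?_⟩) (mul_mem (Subgroup.mem_sup_left hn)
      (Subgroup.mem_sup_right (mul_mem (sq_mem_LS _) hμ)))
    push_cast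
    ring
  have hW0 : v.valuation k ((m : k) / S ^ 2) ≠ 0 :=
    (Valuation.ne_zero_iff _).mpr (div_ne_zero m.ne_zero (pow_ne_zero 2 hS))
  obtain ⟨r, hr⟩ := LS_newton' hμ (γ := v.valuation k 4 * (v.valuation k ((m : k) / S ^ 2))⁻¹)
    (mul_ne_zero (val_four_ne _) (inv_ne_zero hW0))
  have hr0 : (r : k) ≠ 0 := r.ne_zero
  have hu0' : (u : k) ≠ 0 := u.ne_zero
  refine ⟨r * X, Y, Z, S * r / u, div_ne_zero (mul_ne_zero hS hr0) hu0', ?_⟩
  have e3 : (b : k) * (Y ^ 2 - a * Z ^ 2) * u = m * μ := by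
    have h2 := congrArg Units.val hE
    push_cast at h2
    rw [Units.val_inv_eq_inv_val] at hYZ
    rw [← hYZ, h2]
    field_simp
  have e4 : (a * (r * X) ^ 2 + b * Y ^ 2 - a * b * Z ^ 2) / ((1 + 4 * c) * (S * r / u) ^ 2) - 1 =
      ((μ : k) / r ^ 2 - 1) * (m / S ^ 2) := by
    rw [← hu]
    have e5 : (a * (r * X) ^ 2 + b * Y ^ 2 - a * b * Z ^ 2 : k) =
        a * (r * X) ^ 2 + m * μ / u := by
      rw [← e3]
      field_simp
      ring
    rw [e5, hSX]
    push_cast
    field_simp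
    ring
  rw [e4, map_mul]
  calc _ < v.valuation k 4 * (v.valuation k ((m : k) / S ^ 2))⁻¹ *
        v.valuation k ((m : k) / S ^ 2) := mul_lt_mul_of_pos_right hr (zero_lt_iff.mpr hW0)
    _ = _ := by rw [mul_assoc, inv_mul_cancel₀ hW0, mul_one]

theorem exists_gamma (M C : Z0) (hC : C ≠ 0) : ∃ γ : Z0, γ ≠ 0 ∧ γ ≤ 1 ∧ γ ^ 2 * M ≤ C := by
  by_cases hM : M = 0
  · exact ⟨1, one_ne_zero, le_rfl, by rw [hM, mul_zero]; exact zero_le⟩
  · refine ⟨min 1 (C / M), ?_, min_le_left _ _, ?_⟩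
    · rcases min_choice 1 (C / M) with h | h <;> rw [h]
      · exact one_ne_zero
      · exact div_ne_zero hC hM
    · calc min 1 (C / M) ^ 2 * M ≤ (C / M) * M := by
            refine mul_le_mul_left ?_ _
            rw [sq]
            exact (mul_le_of_le_one_left' (min_le_left _ _)).trans (min_le_right _ _)
        _ = C := div_mul_cancel₀ C hM

/-- A pure quaternion generating the unramified extension at the ramified primes. -/
theorem exists_unram (a b : kˣ) :
    ∃ (i : Qt a b) (c : k), i.re = 0 ∧ i ≠ 0 ∧ nrd i = -(1 + 4 * c) ∧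
      ∀ v, Ram a b v → AdmC (v.valuation k) c := by
  classical
  by_cases hR : ∃ v, Ram a b v
  swap
  · refine ⟨⟨0, 1, 0, 0⟩, (a - 1) / 4, rfl, fun h0 => one_ne_zero (α := k)
      (congrArg QuaternionAlgebra.imI h0), ?_, fun v hv => absurd ⟨v, hv⟩ hR⟩
    simp only [nrd]
    have : (4 : k) ≠ 0 := by norm_num
    field_simp
    ring
  obtain ⟨v₀, hv₀⟩ := hR
  obtain ⟨s, hs0, hs⟩ := exists_ram_nat a b
  obtain ⟨h, hh⟩ : ∃ h : k, h = 4 * s := ⟨_, rfl⟩
  have hh0 : h ≠ 0 := by
    rw [hh]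
    exact mul_ne_zero (by norm_num) (Nat.cast_ne_zero.mpr hs0)
  have hh4 : ∀ v, Ram a b v → v.valuation k h < v.valuation k 4 := fun v hv => by
    rw [hh, map_mul]
    calc _ < v.valuation k 4 * 1 := mul_lt_mul_of_pos_left (hs v hv)
          (zero_lt_iff.mpr (val_four_ne _))
      _ = _ := mul_one _
  have hloc : ∀ v : HeightOneSpectrum (𝓞 k), ∃ x y z r c : k, Ram a b v →
      AdmC (v.valuation k) c ∧ r ≠ 0 ∧
      v.valuation k ((a * x ^ 2 + b * y ^ 2 - a * b * z ^ 2) / ((1 + 4 * c) * r ^ 2) - 1) <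
        v.valuation k 4 := by
    intro v
    by_cases hv : Ram a b v
    · obtain ⟨c, hc⟩ := exists_admC v
      obtain ⟨x, y, z, r, hr, h⟩ := loc_unram hv hc
      exact ⟨x, y, z, r, c, fun _ => ⟨hc, hr, h⟩⟩
    · exact ⟨0, 0, 0, 0, 0, fun h => absurd h hv⟩
  choose xv yv zv rv cv hv using hloc
  have hδ0 : ∀ v, Ram a b v → (a * xv v ^ 2 + b * yv v ^ 2 - a * b * zv v ^ 2 : k) ≠ 0 := by
    intro v hvR h0
    have h1 := (hv v hvR).2.2
    rw [h0, zero_div, zero_sub, Valuation.map_neg, map_one] at h1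
    exact absurd h1 (not_lt.mpr (val_four_le _))
  have hγ : ∀ v : HeightOneSpectrum (𝓞 k), ∃ γ : Z0, γ ≠ 0 ∧ (Ram a b v →
      γ ^ 2 * max (v.valuation k (a : k)) (max (v.valuation k (b : k)) (v.valuation k (a * b : k))) ≤
        v.valuation k h ^ 2 *
          v.valuation k (a * xv v ^ 2 + b * yv v ^ 2 - a * b * zv v ^ 2 : k)) := by
    intro v
    by_cases hvR : Ram a b v
    · obtain ⟨γ, h1, -, h2⟩ := exists_gamma
        (max (v.valuation k (a : k)) (max (v.valuation k (b : k)) (v.valuation k (a * b : k))))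
        (v.valuation k h ^ 2 * v.valuation k (a * xv v ^ 2 + b * yv v ^ 2 - a * b * zv v ^ 2 : k))
        (mul_ne_zero (pow_ne_zero 2 ((Valuation.ne_zero_iff _).mpr hh0))
          ((Valuation.ne_zero_iff _).mpr (hδ0 v hvR)))
      exact ⟨γ, h1, fun _ => h2⟩
    · exact ⟨1, one_ne_zero, fun h => absurd h hvR⟩
  choose γ hγ0 hγ using hγ
  obtain ⟨x, hx, -⟩ := approxVal (F := k) (ram_finite a b).toFinset xv γ (fun v _ => hγ0 v)
    (fun _ => 0) (ε := 1) one_pos
  obtain ⟨y, hy, -⟩ := approxVal (F := k) (ram_finite a b).toFinset yv γ (fun v _ => hγ0 v)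
    (fun _ => 0) (ε := 1) one_pos
  obtain ⟨z, hz, -⟩ := approxVal (F := k) (ram_finite a b).toFinset zv γ (fun v _ => hγ0 v)
    (fun _ => 0) (ε := 1) one_pos
  obtain ⟨δ, hδ⟩ : ∃ δ : k, δ = a * x ^ 2 + b * y ^ 2 - a * b * z ^ 2 := ⟨_, rfl⟩
  -- closeness of `δ`
  have hδc : ∀ v, Ram a b v → v.valuation k
      (δ / (a * xv v ^ 2 + b * yv v ^ 2 - a * b * zv v ^ 2) - 1) ≤ v.valuation k h := by
    intro v hvR
    have hmem := (ram_finite a b).mem_toFinset.mpr hvR
    obtain ⟨δv, hδv⟩ : ∃ δv : k, δv = a * xv v ^ 2 + b * yv v ^ 2 - a * b * zv v ^ 2 := ⟨_, rfl⟩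
    have hδv0 : δv ≠ 0 := by rw [hδv]; exact hδ0 v hvR
    have hδvv : v.valuation k δv ≠ 0 := (Valuation.ne_zero_iff _).mpr hδv0
    have h1 := hγ v hvR
    rw [← hδv] at h1 ⊢
    obtain ⟨Q, hQ⟩ : ∃ Q : Qt a b, Q = ⟨0, xv v, yv v, zv v⟩ := ⟨_, rfl⟩
    obtain ⟨Δ, hΔ⟩ : ∃ Δ : Qt a b, Δ = ⟨0, x - xv v, y - yv v, z - zv v⟩ := ⟨_, rfl⟩
    have hQn : nrd Q = -δv := by
      rw [hQ, hδv]
      simp only [nrd]
      ring
    have hΔn : v.valuation k (nrd Δ) ≤ v.valuation k h ^ 2 * v.valuation k δv := by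
      have e1 : nrd Δ = -(a * (x - xv v) ^ 2) - b * (y - yv v) ^ 2 + a * b * (z - zv v) ^ 2 := by
        rw [hΔ]
        simp only [nrd]
        ring
      rw [e1]
      refine le_trans ?_ h1
      have h2 : ∀ t s : k, v.valuation k t < γ v →
          v.valuation k s ≤ max (v.valuation k (a : k)) (max (v.valuation k (b : k))
            (v.valuation k (a * b : k))) →
          v.valuation k (s * t ^ 2) ≤ γ v ^ 2 * max (v.valuation k (a : k))
            (max (v.valuation k (b : k)) (v.valuation k (a * b : k))) := fun t s ht hs => by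
        rw [map_mul, map_pow, mul_comm]
        exact mul_le_mul' (pow_le_pow_left' ht.le 2) hs
      refine (v.valuation k).map_add_le ((v.valuation k).map_sub_le ?_ ?_) ?_
      · rw [Valuation.map_neg]
        exact h2 _ _ (hx v hmem) (le_max_left _ _)
      · exact h2 _ _ (hy v hmem) ((le_max_left _ _).trans (le_max_right _ _))
      · exact h2 _ _ (hz v hmem) ((le_max_right _ _).trans (le_max_right _ _))
    have h3 : v.valuation k (2 * (Q * star Δ).re) ≤ v.valuation k h * v.valuation k δv := by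
      have h4 : v.valuation k (nrd ((h * δv)⁻¹ • (Q * star Δ))) ≤ 1 := by
        rw [Two.nrd_smul, nrd_mul, Two.nrd_star, hQn, map_mul, map_mul, map_pow, map_inv₀,
          Valuation.map_neg, map_mul]
        have h5 : v.valuation k h ≠ 0 := (Valuation.ne_zero_iff _).mpr hh0
        calc _ ≤ ((v.valuation k h * v.valuation k δv)⁻¹) ^ 2 *
              (v.valuation k δv * (v.valuation k h ^ 2 * v.valuation k δv)) :=
              mul_le_mul_right (mul_le_mul_right hΔn _) _
          _ = 1 := by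
              field_simp
      have h6 := trd_le hvR h4
      have h7 : 2 * (Q * star Δ).re = (h * δv) * (2 * ((h * δv)⁻¹ • (Q * star Δ)).re) := by
        rw [QuaternionAlgebra.re_smul, smul_eq_mul]
        field_simp
      rw [h7, map_mul, map_mul]
      exact mul_le_of_le_one_right' h6
    have e2 : δ / δv - 1 = -((2 * (Q * star Δ).re + nrd Δ) / δv) := by
      rw [div_sub_one hδv0, ← neg_div]
      congr 1
      rw [hδ, hδv, hQ, hΔ]
      simp only [nrd, QuaternionAlgebra.re_mul, QuaternionAlgebra.re_star,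
        QuaternionAlgebra.imI_star, QuaternionAlgebra.imJ_star, QuaternionAlgebra.imK_star]
      ring
    rw [e2, Valuation.map_neg, map_div₀]
    refine div_le_of_le_mul₀ zero_le zero_le ?_
    refine (v.valuation k).map_add_le h3 (hΔn.trans ?_)
    refine mul_le_mul_left ?_ _
    rw [sq]
    exact mul_le_of_le_one_left' ((hh4 v hvR).le.trans (val_four_le _))
  have hδ0' : δ ≠ 0 := by
    intro h0
    have h1 := hδc v₀ hv₀
    rw [h0, zero_div, zero_sub, Valuation.map_neg, map_one] at h1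
    exact absurd h1 (not_le.mpr ((hh4 v₀ hv₀).trans_le (val_four_le _)))
  -- the scaling factor
  obtain ⟨m, hm, -⟩ := approxVal (F := k) (ram_finite a b).toFinset rv
    (fun v => if Ram a b v then v.valuation k h * v.valuation k (rv v) else 1) (fun v hmem => by
      have hvR : Ram a b v := (ram_finite a b).mem_toFinset.mp hmem
      change (if Ram a b v then v.valuation k h * v.valuation k (rv v) else 1) ≠ 0
      rw [if_pos hvR]
      exact mul_ne_zero ((Valuation.ne_zero_iff _).mpr hh0)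
        ((Valuation.ne_zero_iff _).mpr (hv v hvR).2.1)) (fun _ => 0) (ε := 1) one_pos
  have hmv : ∀ v, Ram a b v → v.valuation k (m / rv v - 1) < v.valuation k h := by
    intro v hvR
    have h1 := hm v ((ram_finite a b).mem_toFinset.mpr hvR)
    rw [if_pos hvR] at h1
    have hr0 : rv v ≠ 0 := (hv v hvR).2.1
    rw [div_sub_one hr0, map_div₀, div_lt_iff₀ (zero_lt_iff.mpr ((Valuation.ne_zero_iff _).mpr hr0))]
    exact h1
  have hm0 : m ≠ 0 := by
    rintro rfl
    have h1 := hmv v₀ hv₀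
    rw [zero_div, zero_sub, Valuation.map_neg, map_one] at h1
    exact absurd h1 (not_lt.mpr ((hh4 v₀ hv₀).le.trans (val_four_le _)))
  refine ⟨m⁻¹ • ⟨0, x, y, z⟩, (δ / m ^ 2 - 1) / 4, by simp, fun h0 => hδ0' ?_, ?_,
    fun v hvR => ?_⟩
  · have h1 := congrArg nrd h0
    rw [Two.nrd_smul] at h1
    have h2 : nrd (0 : Qt a b) = 0 := by simp [nrd]
    rw [h2] at h1
    have h3 := (mul_eq_zero.mp h1).resolve_left (pow_ne_zero 2 (inv_ne_zero hm0))
    simp only [nrd] at h3
    rw [hδ]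
    linear_combination -h3
  · rw [Two.nrd_smul, hδ]
    simp only [nrd]
    have : (4 : k) ≠ 0 := by norm_num
    field_simp
    ring
  · obtain ⟨hc, hr0, hr⟩ := hv v hvR
    refine AdmC.congr hc ?_
    have hu := adm_unit hc
    have hu0 : 1 + 4 * cv v ≠ 0 := by
      intro h
      rw [h, map_zero] at hu
      exact zero_ne_one hu
    obtain ⟨δv, hδv⟩ : ∃ δv : k, δv = a * xv v ^ 2 + b * yv v ^ 2 - a * b * zv v ^ 2 := ⟨_, rfl⟩
    have hδv0 : δv ≠ 0 := by rw [hδv]; exact hδ0 v hvR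
    have h1 := hδc v hvR
    rw [← hδv] at h1 hr
    obtain ⟨A, hA⟩ : ∃ A : k, A = δ / δv - 1 := ⟨_, rfl⟩
    obtain ⟨B, hB⟩ : ∃ B : k, B = δv / ((1 + 4 * cv v) * rv v ^ 2) - 1 := ⟨_, rfl⟩
    obtain ⟨C, hC⟩ : ∃ C : k, C = m / rv v - 1 := ⟨_, rfl⟩
    rw [← hA] at h1
    rw [← hB] at hr
    have h2 := hmv v hvR
    rw [← hC] at h2
    have h4F : (4 : k) ≠ 0 := by norm_num
    have hA' : v.valuation k A < v.valuation k 4 := h1.trans_lt (hh4 v hvR)
    have hC' : v.valuation k C < v.valuation k 4 := h2.trans (hh4 v hvR)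
    have hA1 : v.valuation k (1 + A) = 1 := Valuation.map_one_add_of_lt _
      (hA'.trans_le (val_four_le _))
    have hC1 : v.valuation k (1 + C) = 1 := Valuation.map_one_add_of_lt _
      (hC'.trans_le (val_four_le _))
    have hC0 : 1 + C ≠ 0 := by
      intro h
      rw [h, map_zero] at hC1
      exact zero_ne_one hC1
    have e1 : (δ / m ^ 2 - 1) / 4 - cv v =
        (1 + 4 * cv v) * ((A + B * (1 + A) - C * (1 + (1 + C))) / (1 + C) ^ 2) / 4 := by
      have e2 : δ / m ^ 2 = (1 + 4 * cv v) * ((1 + A) * (1 + B) / (1 + C) ^ 2) := by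
        have eA : 1 + A = δ / δv := by rw [hA]; ring
        have eB : 1 + B = δv / ((1 + 4 * cv v) * rv v ^ 2) := by rw [hB]; ring
        have eC : 1 + C = m / rv v := by rw [hC]; ring
        rw [eA, eB, eC]
        field_simp
      rw [e2]
      field_simp
      ring
    rw [e1, map_div₀, map_mul, hu, one_mul, map_div₀, map_pow, hC1, one_pow, div_one,
      div_lt_iff₀ (zero_lt_iff.mpr (val_four_ne _)), one_mul]
    refine (v.valuation k).map_sub_lt ((v.valuation k).map_add_lt hA' ?_) ?_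
    · rw [map_mul, hA1, mul_one]
      exact hr
    · rw [map_mul]
      refine lt_of_le_of_lt (mul_le_of_le_one_right' ?_) hC'
      exact (v.valuation k).map_add_le (by rw [map_one]) hC1.le

end Vale.Agent.P011.D4.TG
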