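import Vale.Agent.P011.D4.TG5
import Vale.Agent.P011.D4.TG6
import Vale.Agent.P011.D4.Defs3
import Vale.Agent.P011.Arith.Quad

/-!
The unramified quadratic extension stays unramified over an extension of the ground field, and
the generation of the norm-one group by tori over the ground field.
-/

open NumberField IsDedekindDomain

namespace Vale.Agent.P011.D4.TG

open Vale.Agent.P011.Arith Vale.Agent.P011.MPQ Vale.Agent.P011.Two

section loc

variable {F : Type} [Field F] [CharZero F] {w : Valuation F Z0}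

theorem adm_of_notMem {c : F} {a : Fˣ} (ha : (a : F) = 1 + 4 * c) (hc : w c ≤ 1)
    (hu : w (1 + 4 * c) = 1) (haL : a ∉ LS w) : AdmC w c := by
  refine ⟨hc, fun p q => ?_⟩
  by_cases hq : q = 0
  · subst hq
    simp
  have hq0 : w q ≠ 0 := (Valuation.ne_zero_iff w).mpr hq
  obtain ⟨t, ht⟩ : ∃ t : F, t = p / q := ⟨_, rfl⟩
  have hp : p = t * q := by rw [ht, div_mul_cancel₀ _ hq]
  have key : w (t ^ 2 + t - c) = max (w t) 1 ^ 2 := by
    rcases lt_or_ge 1 (w t) with h | h
    · rw [max_eq_left h.le]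
      have h2 : w (t - c) < w (t ^ 2) := by
        have h3 : w t < w (t ^ 2) := by
          rw [map_pow, sq]
          exact lt_mul_of_one_lt_left (zero_lt_one.trans h) h
        exact (w.map_sub t c).trans_lt (max_lt h3 ((hc.trans_lt h).trans h3))
      have e1 : t ^ 2 + t - c = t ^ 2 + (t - c) := by ring
      rw [e1, Valuation.map_add_eq_of_lt_left w h2, map_pow]
    · rw [max_eq_right h, one_pow]
      by_contra hcon
      have hle : w (t ^ 2 + t - c) ≤ 1 := by
        refine w.map_sub_le (w.map_add_le ?_ h) hc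
        rw [map_pow]
        exact pow_le_one' h 2
      have hlt : w (t ^ 2 + t - c) < 1 := lt_of_le_of_ne hle hcon
      apply haL
      have e1 : (2 * t + 1) ^ 2 = (1 + 4 * c) + 4 * (t ^ 2 + t - c) := by ring
      have h4 : w (4 * (t ^ 2 + t - c)) < 1 := by
        rw [map_mul]
        exact (mul_le_of_le_one_left' (val_four_le w)).trans_lt hlt
      have h5 : w ((2 * t + 1) ^ 2) = 1 := by
        rw [e1, Valuation.map_add_eq_of_lt_left w (by rw [hu]; exact h4), hu]
      have h6 : 2 * t + 1 ≠ 0 := by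
        intro h0
        rw [h0, zero_pow two_ne_zero, map_zero] at h5
        exact zero_ne_one h5
      refine ⟨Units.mk0 _ h6, ?_⟩
      have e2 : (a : F) / (2 * t + 1) ^ 2 - 1 = -(4 * (t ^ 2 + t - c) / (2 * t + 1) ^ 2) := by
        rw [ha, div_sub_one (pow_ne_zero 2 h6), e1, ← neg_div]
        congr 1
        ring
      rw [Units.val_mk0, e2, Valuation.map_neg, map_div₀, h5, div_one, map_mul]
      calc _ < w 4 * 1 := mul_lt_mul_of_pos_left hlt (zero_lt_iff.mpr (val_four_ne w))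
        _ = _ := mul_one _
  have e3 : p ^ 2 + p * q - c * q ^ 2 = (t ^ 2 + t - c) * q ^ 2 := by rw [hp]; ring
  rw [e3, map_mul, key, map_pow, ← mul_pow, hp, map_mul]
  congr 1
  rcases le_total (w t) 1 with h | h
  · rw [max_eq_right h, one_mul, max_eq_right]
    exact mul_le_of_le_one_left' h
  · rw [max_eq_left h, max_eq_left]
    exact le_mul_of_one_le_left' h

/-- A split quaternion algebra contains a pure quaternion whose square is a local square. -/
theorem exists_pure_of_split {a b : Fˣ} (h : b ∈ NF a ⊔ LS w) :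
    ∃ (p q r : F) (δ : Fˣ), (δ : F) = a * p ^ 2 + b * q ^ 2 - a * b * r ^ 2 ∧ δ ∈ LS w := by
  obtain ⟨μ, hμ, x, y, hxy⟩ := mem_sup_iff_exists.mp h
  have hμ0 : (μ : F) ≠ 0 := μ.ne_zero
  have hb0 : (b : F) ≠ 0 := b.ne_zero
  by_cases hx : x = 0
  · have hy : y ≠ 0 := by
      rintro rfl
      rw [hx] at hxy
      apply mul_ne_zero hb0 hμ0
      rw [hxy]
      ring
    refine ⟨0, 0, 1, μ * (b * (Units.mk0 y hy)⁻¹) ^ 2, ?_, mul_mem hμ (sq_mem_LS _)⟩
    push_cast
    rw [Units.val_mk0]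
    rw [hx] at hxy
    field_simp
    linear_combination b * hxy
  · have hW0 : w (b * μ / x ^ 2) ≠ 0 :=
      (Valuation.ne_zero_iff _).mpr (div_ne_zero (mul_ne_zero hb0 hμ0) (pow_ne_zero 2 hx))
    obtain ⟨s, hs⟩ := LS_newton' ((LS w).inv_mem hμ) (γ := w 4 * (w (b * μ / x ^ 2))⁻¹)
      (mul_ne_zero (val_four_ne _) (inv_ne_zero hW0))
    have hs0 : (s : F) ≠ 0 := s.ne_zero
    have hlt : w ((a * y ^ 2 + b * (1 / s) ^ 2) / x ^ 2 - 1) < w 4 := by
      have e1 : (a * y ^ 2 + b * (1 / s) ^ 2) / x ^ 2 - 1 =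
          (((μ⁻¹ : Fˣ) : F) / s ^ 2 - 1) * (b * μ / x ^ 2) := by
        rw [Units.val_inv_eq_inv_val]
        have e2 : a * y ^ 2 = x ^ 2 - b * μ := by rw [hxy]; ring
        rw [e2]
        field_simp
        ring
      rw [e1, map_mul]
      calc _ < w 4 * (w (b * μ / x ^ 2))⁻¹ * w (b * μ / x ^ 2) :=
            mul_lt_mul_of_pos_right hs (zero_lt_iff.mpr hW0)
        _ = _ := by rw [mul_assoc, inv_mul_cancel₀ hW0, mul_one]
    have hδ0 : a * y ^ 2 + b * (1 / s) ^ 2 ≠ (0 : F) := by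
      intro h0
      rw [h0, zero_div, zero_sub, Valuation.map_neg, map_one] at hlt
      exact absurd hlt (not_lt.mpr (val_four_le _))
    refine ⟨y, 1 / s, 0, Units.mk0 _ hδ0, ?_, ⟨Units.mk0 x hx, hlt⟩⟩
    rw [Units.val_mk0]
    ring

/-- Ramification does not depend on the presentation of the algebra. -/
theorem split_of_equiv {a b a2 b2 : Fˣ} (Φ : Qt a2 b2 ≃ₐ[F] Qt a b)
    (hΦ : ∀ x, nrd (Φ x) = nrd x) (h : b ∈ NF a ⊔ LS w) : b2 ∈ NF a2 ⊔ LS w := by
  obtain ⟨p, q, r, δ, hδ, hδL⟩ := exists_pure_of_split h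
  obtain ⟨z, hz⟩ : ∃ z : Qt a2 b2, z = Φ.symm ⟨0, p, q, r⟩ := ⟨_, rfl⟩
  have hΦz : Φ z = ⟨0, p, q, r⟩ := by rw [hz, Φ.apply_symm_apply]
  have h1 : nrd z = -δ := by
    rw [← hΦ, hΦz, hδ]
    simp only [nrd]
    ring
  have h2 : z.re = 0 := by
    have h3 := hΦ (1 + z)
    rw [map_add, map_one, hΦz, nrd_one_add, nrd_one_add, h1, ← hΦz, hΦ, h1, hΦz] at h3
    have h4 : 2 * z.re = 0 := by linear_combination -h3
    exact (mul_eq_zero.mp h4).resolve_left two_ne_zero
  refine mem_of_pure (δ := δ) (p := z.imI) (q := z.imJ) (r := z.imK) ?_ hδL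
  simp only [nrd, h2] at h1
  linear_combination h1

end loc

/-- The unramified extension stays unramified at the ramified primes of the extension. -/
theorem adm_up {k E : Type} [Field k] [NumberField k] [Field E] [NumberField E] [Algebra k E]
    {a b a2 b2 : kˣ} (Φ : Qt a2 b2 ≃ₐ[k] Qt a b) (hΦ : ∀ x, nrd (Φ x) = nrd x) {c : k}
    (ha : (a2 : k) = 1 + 4 * c) (hc : ∀ v, Ram a b v → AdmC (v.valuation k) c)
    {w : HeightOneSpectrum (𝓞 E)} (hw : Ram (up E a2) (up E b2) w) :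
    AdmC (w.valuation E) (algebraMap k E c) := by
  obtain ⟨v, hv⟩ := Arith.exists_below (F := k) w
  have h1 : Ram a b v := by
    intro hcon
    apply hw
    obtain ⟨μ, hμ, x, y, hxy⟩ := mem_sup_iff_exists.mp (split_of_equiv Φ hΦ hcon)
    refine mem_sup_iff_exists.mpr ⟨up E μ, LS_map hv hμ, algebraMap k E x, algebraMap k E y, ?_⟩
    have := congrArg (algebraMap k E) hxy
    simpa using this
  have hc' := hc v h1
  obtain ⟨e, he, hval⟩ := val_above (E := E) hv
  have ha' : ((up E a2 : Eˣ) : E) = 1 + 4 * algebraMap k E c := by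
    change algebraMap k E (a2 : k) = _
    rw [ha, map_add, map_mul, map_one, map_ofNat]
  refine adm_of_notMem ha' ?_ ?_ fun h => hw (by rw [NF_sup_of_mem' _ h]; exact Subgroup.mem_top _)
  · rw [hval]
    exact pow_le_one' hc'.1 e
  · have e1 : (1 : E) + 4 * algebraMap k E c = algebraMap k E (1 + 4 * c) := by
      rw [map_add, map_mul, map_one, map_ofNat]
    rw [e1, hval, adm_unit hc', one_pow]

/-- **R8.** Generation of the norm-one group by tori over the ground field. -/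
theorem torus_gen {k E : Type} [Field k] [NumberField k] [Field E] [NumberField E] [Algebra k E]
    (_h3 : Module.finrank k E = 3) {a b : kˣ} (hab : Aniso (up E a) (up E b))
    (N : Subgroup (SL1 (up E a) (up E b))) (hN : N.Normal) (hi : N.index ≠ 0)
    (h : ∀ (i : Qt a b), i.re = 0 → i ≠ 0 → ∀ x : SL1 (up E a) (up E b),
      (∃ p q : E, ((x : (Qt (up E a) (up E b))ˣ) : Qt (up E a) (up E b)) =
        p • 1 + q • qup E i) → x ∈ N) : N = ⊤ := by
  have r1 : ∀ x : Qt a b, (qup E x).re = algebraMap k E x.re := fun _ => rfl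
  have r2 : ∀ x : Qt a b, (qup E x).imI = algebraMap k E x.imI := fun _ => rfl
  have r3 : ∀ x : Qt a b, (qup E x).imJ = algebraMap k E x.imJ := fun _ => rfl
  have r4 : ∀ x : Qt a b, (qup E x).imK = algebraMap k E x.imK := fun _ => rfl
  have hqn : ∀ x : Qt a b, nrd (qup E x) = algebraMap k E (nrd x) := fun x => by
    simp [nrd, r1, r2, r3, r4]
  have hqm : ∀ x y : Qt a b, qup E (x * y) = qup E x * qup E y := fun x y => by
    ext <;> simp [r1, r2, r3, r4]
  have hqneg : ∀ x : Qt a b, qup E (-x) = -qup E x := fun x => by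
    ext <;> simp [r1, r2, r3, r4]
  have hqs : ∀ (t : k) (x : Qt a b), qup E (t • x) = algebraMap k E t • qup E x := fun t x => by
    refine QuaternionAlgebra.ext ?_ ?_ ?_ ?_ <;> exact map_mul _ _ _
  have hq1 : qup E (1 : Qt a b) = 1 := by
    ext <;> simp [r1, r2, r3, r4]
  have habk : Aniso a b := by
    intro x hx
    have h1 := hab (qup E x) (by rw [hqn, hx, map_zero])
    have h2 : ∀ t : k, algebraMap k E t = 0 → t = 0 := fun t ht => by
      rwa [map_eq_zero] at ht
    ext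
    · exact h2 _ (congrArg QuaternionAlgebra.re h1)
    · exact h2 _ (congrArg QuaternionAlgebra.imI h1)
    · exact h2 _ (congrArg QuaternionAlgebra.imJ h1)
    · exact h2 _ (congrArg QuaternionAlgebra.imK h1)
  obtain ⟨i, c, hi0, hin0, hin, hc⟩ := exists_unram a b
  have hsq : ∀ x : Qt a b, x.re = 0 → x * x = -nrd x • (1 : Qt a b) := fun x hx => by
    have h1 : star x = -x := by ext <;> simp [hx]
    have h2 := mul_star_self' x
    rw [h1, mul_neg] at h2
    rw [neg_smul, ← h2, neg_neg]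
  obtain ⟨j, hj0, hj1, hji⟩ := exists_anti hi0
  have hai : -nrd i ≠ 0 := neg_ne_zero.mpr fun h0 => hin0 (habk i h0)
  have haj : -nrd j ≠ 0 := neg_ne_zero.mpr fun h0 => hj1 (habk j h0)
  obtain ⟨a2, ha2⟩ : ∃ a2 : kˣ, (a2 : k) = -nrd i := ⟨Units.mk0 _ hai, rfl⟩
  obtain ⟨b2, hb2⟩ : ∃ b2 : kˣ, (b2 : k) = -nrd j := ⟨Units.mk0 _ haj, rfl⟩
  have hii : i * i = (a2 : k) • (1 : Qt a b) := by rw [ha2, hsq i hi0]
  have hjj : j * j = (b2 : k) • (1 : Qt a b) := by rw [hb2, hsq j hj0]
  obtain ⟨Φ, -, hΦn⟩ := exists_equiv (A := a2) (B := b2) hi0 hj0 hii hjj hji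
  obtain ⟨Ψ, hΨ, hΨn⟩ := exists_equiv (F := E) (a := up E a) (b := up E b) (A := up E a2)
    (B := up E b2) (i := qup E i) (j := qup E j) (by simp [qup, hi0]) (by simp [qup, hj0])
    (by rw [← hqm, hii, hqs, hq1]; rfl) (by rw [← hqm, hjj, hqs, hq1]; rfl)
    (by rw [← hqm, hji, hqneg, hqm])
  have ha2c : (a2 : k) = 1 + 4 * c := by rw [ha2, hin, neg_neg]
  refine top_of_equiv Ψ hΨn (fun N' => ∀ x : SL1 (up E a2) (up E b2),
      ((x : (Qt (up E a2) (up E b2))ˣ) : Qt (up E a2) (up E b2)).imJ = 0 →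
      ((x : (Qt (up E a2) (up E b2))ˣ) : Qt (up E a2) (up E b2)).imK = 0 → x ∈ N')
    (fun N' hN' hi' hT => ?_) N hN hi (fun N' hN' x hxJ hxK => ?_)
  · refine gen_one (c := algebraMap k E c) ?_ ?_ ?_ N' hN' hi' hT
    · intro x hx
      have h1 := hab (Ψ x) (by rw [hΨn, hx])
      exact (map_eq_zero_iff Ψ Ψ.injective).mp h1
    · change algebraMap k E (a2 : k) = _
      rw [ha2c, map_add, map_mul, map_one, map_ofNat]
    · intro w hw
      exact adm_up Φ hΦn ha2c hc hw
  · obtain ⟨y, hy⟩ := exists_SL1 (Ψ ((x : (Qt (up E a2) (up E b2))ˣ) :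
      Qt (up E a2) (up E b2))) (by rw [hΨn]; exact x.2)
    refine hN' x y hy (h i hi0 hin0 y
      ⟨((x : (Qt (up E a2) (up E b2))ˣ) : Qt (up E a2) (up E b2)).re,
        ((x : (Qt (up E a2) (up E b2))ˣ) : Qt (up E a2) (up E b2)).imI, ?_⟩)
    rw [hy, hΨ, hxJ, hxK, zero_smul, zero_smul, add_zero, add_zero]

end Vale.Agent.P011.D4.TG
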