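import Vale.Agent.P011.D4.Torus
import Vale.Agent.P011.D4.Homs

/-!
The torus trick, final form.
-/

open NumberField IsDedekindDomain Topology

namespace Vale.Agent.P011.D4.H24

open Vale.Agent.P011.MPQ Vale.Agent.P011.Arith Vale.Agent.P011.D4 Vale.Agent.P011.D4.Oct

/-- The torus trick: elements of norm one of `E(i)` lie in every normal subgroup of finite index
which contains the automorphisms of the octonion algebra. -/
theorem torus_mem_fin {k E M : Type} [Field k] [Field E] [Field M] [Algebra k E] [Algebra k M]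
    [Algebra E M] [IsScalarTower k E M] {ρ : M ≃ₐ[k] M} {I : Set (M ≃ₐ[k] M)}
    [NumberField k] [NumberField E] (hU : SetU k E M ρ I)
    {a b c : kˣ} (hdiv : Division a b c) {s : SL1 (up E a) (up E b) →* TriU ρ I a b c}
    (hs : IsShortU ρ I s) {e : AutC a b c →* TriU ρ I a b c} (he : IsExtU ρ I e)
    (N : Subgroup (TriU ρ I a b c)) [N.Normal] (hN : N.index ≠ 0) (hEN : ∀ g, e g ∈ N)
    (x : SL1 (up E a) (up E b)) (hJ : ((x : (Qt (up E a) (up E b))ˣ) : Qt (up E a) (up E b)).imJ = 0)
    (hK : ((x : (Qt (up E a) (up E b))ˣ) : Qt (up E a) (up E b)).imK = 0) : s x ∈ N :=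
  torus_mem hU (exists_short hU) (fun h => by
    obtain ⟨C, hC, -⟩ := exists_conj ρ I two_ne_zero h
    exact ⟨C, hC⟩) hdiv hs he N hN hEN x hJ hK

end Vale.Agent.P011.D4.H24
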