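import Vale.Agent.P011.D4.G2
import Vale.Agent.P011.D4.Asm2
import Vale.Agent.P011.D4.R1
import Vale.Agent.P011.D4.Springer
import Vale.Agent.P011.D4.Homs
import Vale.Agent.P011.D4.TorusFin
import Vale.Agent.P011.D4.TG7
import Vale.Agent.P011.D4.H369.Stab
import Vale.Agent.P011.D4.H369.OrbitOne

/-!
Assembly: the trialitarian groups have no proper subgroup of finite index.
-/

open NumberField IsDedekindDomain Topology

namespace Vale.Agent.P011.D4

open Vale.Agent.P011.MPQ Vale.Agent.P011.Arith Vale.Agent.P011.D4.Oct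
open TG (torus_gen)
open H24 (exists_ext exists_short exists_conj torus_mem_fin)
open H369 (stab_one orbit_one)

variable {k E M : Type} [Field k] [NumberField k] [Field E] [NumberField E] [Field M]
  [NumberField M] [Algebra k E] [Algebra k M] [Algebra E M] [IsScalarTower k E M]
  {ρ : M ≃ₐ[k] M} {I : Set (M ≃ₐ[k] M)} {a b c : kˣ}

theorem index_comap_ne {G H : Type} [Group G] [Group H] (f : G →* H) {N : Subgroup H}
    (hN : N.index ≠ 0) : (N.comap f).index ≠ 0 := by
  have : N.FiniteIndex := ⟨hN⟩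
  rw [Subgroup.index_comap]
  exact (inferInstance : (N.subgroupOf f.range).FiniteIndex).index_ne_zero

omit [NumberField M] in
/-- The automorphisms of the octonion algebra lie in every normal subgroup of finite index. -/
theorem ext_mem (hdiv : Division a b c) {e : AutC a b c →* TriU ρ I a b c}
    (N : Subgroup (TriU ρ I a b c)) (hN : N.Normal) (hi : N.index ≠ 0) (g : AutC a b c) :
    e g ∈ N := by
  have h : N.comap e = ⊤ := g2 hdiv (N.comap e) (hN.comap e) (index_comap_ne e hi)
  have : g ∈ N.comap e := by rw [h]; exact Subgroup.mem_top g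
  exact this

/-- The short subgroup lies in every normal subgroup of finite index. -/
theorem short_mem (hU : SetU k E M ρ I) (hdiv : Division a b c) (hab : Aniso a b)
    {s : SL1 (up E a) (up E b) →* TriU ρ I a b c}
    (hs : IsShortU ρ I s) (N : Subgroup (TriU ρ I a b c)) (hN : N.Normal) (hi : N.index ≠ 0)
    (x : SL1 (up E a) (up E b)) : s x ∈ N := by
  have h2 : (2 : k) ≠ 0 := two_ne_zero
  suffices h : N.comap s = ⊤ by
    have : x ∈ N.comap s := by rw [h]; exact Subgroup.mem_top x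
    exact this
  refine torus_gen hU.h3 (aniso_up hU.h3 hab) (N.comap s) (hN.comap s) (index_comap_ne s hi) ?_
  intro i1 hi1 hi10 x hx
  obtain ⟨p, q, hpq⟩ := hx
  obtain ⟨a', b', j1, hj1, hii, hjj, hij⟩ := exists_pair hab hi1 hi10
  have htrip : Trip a' b' c (⟨i1, 0⟩ : Oct a b c) ⟨j1, 0⟩ gl :=
    trip_of_pair hi1 hj1 hii hjj hij h2
  obtain ⟨C, hC, hCb⟩ := exists_conj ρ I h2 htrip
  obtain ⟨s', hs'⟩ := exists_short hU a' b' c
  obtain ⟨e', he'⟩ := exists_ext ρ I a' b' c
  obtain ⟨-, -, -, hdiv'⟩ := aniso_of_trip hdiv htrip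
  have hNC : (N.comap C).Normal := hN.comap C
  have hiC : (N.comap C).index ≠ 0 := index_comap_ne C hi
  -- the element in the new coordinates
  have hphi : phi (qup E i1) (qup E j1) (⟨p, q, 0, 0⟩ : Qt (up E a') (up E b')) =
      ((x : (Qt (up E a) (up E b))ˣ) : Qt (up E a) (up E b)) := by
    rw [hpq]
    simp [phi]
  have hnrd : nrd (⟨p, q, 0, 0⟩ : Qt (up E a') (up E b')) = 1 := by
    have h1 : nrd ((x : (Qt (up E a) (up E b))ˣ) : Qt (up E a) (up E b)) = 1 := x.2
    have h3 : (algebraMap k E (nrd i1)) = -algebraMap k E a' := by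
      have h4 := congrArg QuaternionAlgebra.re hii
      have h5 : nrd i1 = -(a' : k) := by
        simp [hi1] at h4
        simp only [nrd, hi1]
        linear_combination -h4
      rw [h5, map_neg]
    rw [hpq] at h1
    simp only [nrd, Units.coe_map, MonoidHom.coe_coe, QuaternionAlgebra.re_add,
      QuaternionAlgebra.re_smul, QuaternionAlgebra.re_one, QuaternionAlgebra.imI_add,
      QuaternionAlgebra.imI_smul, QuaternionAlgebra.imI_one, QuaternionAlgebra.imJ_add,
      QuaternionAlgebra.imJ_smul, QuaternionAlgebra.imJ_one, QuaternionAlgebra.imK_add,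
      QuaternionAlgebra.imK_smul, QuaternionAlgebra.imK_one, re_qup, imI_qup, imJ_qup, imK_qup,
      hi1, map_zero, smul_eq_mul, mul_zero, mul_one, add_zero, zero_add] at h1 ⊢
    simp only [nrd, hi1, map_add, map_sub, map_mul, map_pow, map_zero] at h3
    linear_combination h1 - q ^ 2 * h3
  obtain ⟨x', hx'⟩ := exists_SL1 hnrd
  have hmem : s' x' ∈ N.comap C := by
    have := hNC
    exact torus_mem_fin hU hdiv' hs' he' (N.comap C) hiC
      (ext_mem hdiv' (N.comap C) hNC hiC) x' (by rw [hx']) (by rw [hx'])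
  obtain ⟨Φ, hΦ, -⟩ := exists_emb (F := M) (trip_up (L := M) htrip)
  have hsurj : ∀ y : OctL M a b c, ∃ x : OctL M a' b' c,
      Oct.emb (oup M (⟨i1, 0⟩ : Oct a b c)) (oup M ⟨j1, 0⟩) (oup M gl) x = y := by
    intro y
    refine ⟨Φ.symm y, ?_⟩
    rw [← hΦ, Φ.apply_symm_apply]
  have hfin : C (s' x') = s x :=
    short_conj hi1 hj1 hii hjj hij hs hs' hC hsurj x' x (by rw [hx', hphi])
  change s x ∈ N
  rw [← hfin]
  exact hmem

/-- **Trialitarian groups.** -/
theorem tri_top (hU : SetU k E M ρ I) (hdiv : Division a b c) (S : Subgroup (TriU ρ I a b c))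
    (hS : S.index ≠ 0) : S = ⊤ := by
  have h2 : (2 : k) ≠ 0 := two_ne_zero
  have : S.FiniteIndex := ⟨hS⟩
  have hN : S.normalCore.Normal := inferInstance
  have hi : S.normalCore.index ≠ 0 := (inferInstance : S.normalCore.FiniteIndex).index_ne_zero
  obtain ⟨e, he⟩ := exists_ext ρ I a b c
  rw [eq_top_iff]
  intro g _
  apply S.normalCore_le
  obtain ⟨a', b', c', i, j, l, ht, x, hx⟩ := orbit_one hU hdiv g
  obtain ⟨hab', -, -, hdiv'⟩ := aniso_of_trip hdiv ht
  obtain ⟨C, hC, hCb⟩ := exists_conj ρ I h2 ht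
  obtain ⟨s', hs'⟩ := exists_short hU a' b' c'
  have hmem : C (s' x) ∈ S.normalCore :=
    short_mem hU hdiv' hab' hs' (S.normalCore.comap C) (hN.comap C)
      (index_comap_ne C hi) x
  have hone : Oct.emb (oup M i) (oup M j) (oup M l) (1 : OctL M a' b' c') = 1 := by
    simp [Oct.emb, Oct.qemb]
  have h1 : (C (s' x)).1 1 = g.1 1 := by
    rw [hx, ← hs', ← hC, hone]
  have h3 : ((C (s' x))⁻¹ * g).1 1 = 1 := by
    change (C (s' x))⁻¹.1 (g.1 1) = 1
    rw [← h1]
    change ((C (s' x))⁻¹ * C (s' x)).1 1 = 1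
    rw [inv_mul_cancel]
    rfl
  obtain ⟨φ, hφ⟩ := stab_one hU he _ h3
  have h4 : (C (s' x))⁻¹ * g ∈ S.normalCore := by
    rw [← hφ]
    exact ext_mem hdiv _ hN hi φ
  have h5 := mul_mem hmem h4
  rwa [mul_inv_cancel_left] at h5

end Vale.Agent.P011.D4
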