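import Vale.Agent.P011.D4.R1

/-!
The automorphisms of a division octonion algebra are products of automorphisms fixing a
quaternion subalgebra.
-/

namespace Vale.Agent.P011.D4

open Vale.Agent.P011.MPQ

namespace Oct

variable {F : Type} [Field F] {a b c : Fˣ}

theorem dot_eq_zero_iff_bil [NeZero (2 : F)] {x y : Oct a b c} : dot x y = 0 ↔ bil x y = 0 := by
  rw [bil_eq_dot, mul_eq_zero, or_iff_right (NeZero.ne 2)]

theorem star_iff_dot [NeZero (2 : F)] {x : Oct a b c} : star x = -x ↔ dot x 1 = 0 := by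
  rw [star_eq_neg_iff, dot_eq_zero_iff_bil]

/-- An automorphism fixing `z` and `u` and moving `l` to `l'`. -/
theorem exists_move [NeZero (2 : F)] (hdiv : Division a b c) {z u l l' : Oct a b c}
    (hz : star z = -z) (hz0 : z ≠ 0) (hu : star u = -u) (hu0 : u ≠ 0) (hzu : dot z u = 0)
    (hl : star l = -l) (hl' : star l' = -l') (hn : norm l' = norm l)
    (h1 : dot z (l' - l) = 0) (h2 : dot u (l' - l) = 0) (h3 : dot (z * u) (l' - l) = 0) :
    ∃ g : AutC a b c, g.1 z = z ∧ g.1 u = u ∧ g.1 l = l' := by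
  have hz1 := star_iff_dot.1 hz
  have hu1 := star_iff_dot.1 hu
  have hl1 := star_iff_dot.1 hl
  have hl1' := star_iff_dot.1 hl'
  have hnz : norm z ≠ 0 := fun h => hz0 (hdiv z h)
  have hnu : norm u ≠ 0 := fun h => hu0 (hdiv u h)
  have hnzu : norm (z * u) ≠ 0 := by
    rw [norm_mul]
    exact mul_ne_zero hnz hnu
  have hb : Basic z u (Units.mk0 (-norm z) (neg_ne_zero.2 hnz))
      (Units.mk0 (-norm u) (neg_ne_zero.2 hnu)) :=
    ⟨star_eq_neg_iff.1 hz, star_eq_neg_iff.1 hu, dot_eq_zero_iff_bil.1 hzu, by simp, by simp⟩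
  have hzu1 : dot (z * u) 1 = 0 := dot_eq_zero_iff_bil.2 hb.ij_one
  have hzzu : dot (z * u) z = 0 := by
    rw [dot_mul_left, hz, neg_mul, hb.i_i, ← neg_smul, dot_smul_right, hu1, mul_zero]
  have hzuu : dot (z * u) u = 0 := by
    rw [dot_mul_left', hu, mul_neg, hb.j_j, ← neg_smul, dot_smul_right, hz1, mul_zero]
  have huz : dot u z = 0 := by rw [dot_comm, hzu]
  have key : ∀ x : Oct a b c, dot x 1 = 0 → ∃ α β γ : F,
      α = dot x z / norm z ∧ β = dot x u / norm u ∧ γ = dot x (z * u) / norm (z * u) ∧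
      dot (x - (α • z + β • u + γ • (z * u))) 1 = 0 ∧
      dot (x - (α • z + β • u + γ • (z * u))) z = 0 ∧
      dot (x - (α • z + β • u + γ • (z * u))) u = 0 ∧
      dot (x - (α • z + β • u + γ • (z * u))) (z * u) = 0 := by
    intro x hx
    refine ⟨_, _, _, rfl, rfl, rfl, ?_, ?_, ?_, ?_⟩
    · simp only [dot_sub_left, dot_add_left, dot_smul_left, hx, hz1, hu1, hzu1]
      ring
    · simp only [dot_sub_left, dot_add_left, dot_smul_left, ← norm_eq_dot, huz, hzzu]
      field_simp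
      ring
    · simp only [dot_sub_left, dot_add_left, dot_smul_left, ← norm_eq_dot, hzu, hzuu]
      field_simp
      ring
    · simp only [dot_sub_left, dot_add_left, dot_smul_left, ← norm_eq_dot, dot_comm z (z * u),
        dot_comm u (z * u), hzzu, hzuu]
      field_simp
      ring
  obtain ⟨α, β, γ, hα, hβ, hγ, hm1, hmz, hmu, hmzu⟩ := key l hl1
  obtain ⟨α', β', γ', hα', hβ', hγ', hm1', hmz', hmu', hmzu'⟩ := key l' hl1'
  have e1 : α' = α := by
    rw [hα, hα']
    congr 1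
    rw [dot_sub_right, dot_comm z, dot_comm z] at h1
    exact sub_eq_zero.1 h1
  have e2 : β' = β := by
    rw [hβ, hβ']
    congr 1
    rw [dot_sub_right, dot_comm u, dot_comm u] at h2
    exact sub_eq_zero.1 h2
  have e3 : γ' = γ := by
    rw [hγ, hγ']
    congr 1
    rw [dot_sub_right, dot_comm (z * u), dot_comm (z * u)] at h3
    exact sub_eq_zero.1 h3
  subst e1 e2 e3
  set q := α' • z + β' • u + γ' • (z * u) with hq
  have hmq : ∀ m : Oct a b c, dot m z = 0 → dot m u = 0 → dot m (z * u) = 0 → dot m q = 0 := by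
    intro m h1 h2 h3
    rw [hq, dot_add_right, dot_add_right, dot_smul_right, dot_smul_right, dot_smul_right, h1, h2,
      h3]
    ring
  have hnn : norm (l' - q) = norm (l - q) := by
    have f : ∀ x : Oct a b c, dot (x - q) q = 0 → norm x = norm (x - q) + norm q := by
      intro x hx
      have hx' : x = (x - q) + q := by abel
      conv_lhs => rw [hx']
      rw [norm_add, bil_eq_dot, hx]
      ring
    have f1 := f l (hmq _ hmz hmu hmzu)
    have f2 := f l' (hmq _ hmz' hmu' hmzu')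
    linear_combination hn - f2 + f1
  have hqfix : ∀ g : AutC a b c, g.1 z = z → g.1 u = u → g.1 q = q := by
    intro g hgz hgu
    rw [hq, map_add, map_add, map_smul, map_smul, map_smul, g.2, hgz, hgu]
  by_cases hm0 : l - q = 0
  · have hm0' : l' - q = 0 := by
      apply hdiv
      rw [hnn, hm0, norm_zero]
    refine ⟨1, rfl, rfl, ?_⟩
    rw [sub_eq_zero] at hm0 hm0'
    rw [hm0', ← hm0]
    rfl
  · have hm0' : l' - q ≠ 0 := by
      intro h
      apply hm0
      apply hdiv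
      rw [← hnn, h, norm_zero]
    have hnm : norm (l - q) ≠ 0 := fun h => hm0 (hdiv _ h)
    have hs : star (l - q) = -(l - q) := star_iff_dot.2 hm1
    have hs' : star (l' - q) = -(l' - q) := star_iff_dot.2 hm1'
    have ht : Trip (Units.mk0 (-norm z) (neg_ne_zero.2 hnz)) (Units.mk0 (-norm u)
        (neg_ne_zero.2 hnu)) (Units.mk0 (-norm (l - q)) (neg_ne_zero.2 hnm)) z u (l - q) :=
      ⟨hz, hu, hs, norm_eq_of_sq hz, norm_eq_of_sq hu, norm_eq_of_sq hs, hzu,
        by rw [dot_comm, hmz], by rw [dot_comm, hmu], by rw [dot_comm, hmzu]⟩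
    have ht' : Trip (Units.mk0 (-norm z) (neg_ne_zero.2 hnz)) (Units.mk0 (-norm u)
        (neg_ne_zero.2 hnu)) (Units.mk0 (-norm (l - q)) (neg_ne_zero.2 hnm)) z u (l' - q) :=
      ⟨hz, hu, hs', norm_eq_of_sq hz, norm_eq_of_sq hu, by
        rw [norm_eq_of_sq hs', hnn, Units.val_mk0], hzu,
        by rw [dot_comm, hmz'], by rw [dot_comm, hmu'], by rw [dot_comm, hmzu']⟩
    obtain ⟨g, hgz, hgu, hgm⟩ := exists_aut ht ht'
    refine ⟨g, hgz, hgu, ?_⟩
    have h5 := hqfix g hgz hgu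
    rw [map_sub, h5] at hgm
    exact sub_left_injective hgm

/-- A subgroup containing all automorphisms which fix two orthogonal pure elements is
everything. -/
theorem top_of_fix [NeZero (2 : F)] (hdiv : Division a b c) (N : Subgroup (AutC a b c))
    (h : ∀ (i j : Oct a b c), star i = -i → i ≠ 0 → star j = -j → j ≠ 0 → dot i j = 0 →
      ∀ g : AutC a b c, g.1 i = i → g.1 j = j → g ∈ N) : N = ⊤ := by
  rw [eq_top_iff]
  intro g _
  have hstd := trip_std (a := a) (b := b) (c := c)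
  have hi0 : (gi : Oct a b c) ≠ 0 := by
    intro h
    have := congrArg (fun x : Oct a b c => x.fst.imI) h
    simp [gi] at this
  have hj0 : (gj : Oct a b c) ≠ 0 := by
    intro h
    have := congrArg (fun x : Oct a b c => x.fst.imJ) h
    simp [gj] at this
  -- first step
  obtain ⟨φ, hφN, hφ⟩ : ∃ φ ∈ N, φ.1 gi = g.1 gi := by
    obtain ⟨z, hz0, hz⟩ := exists_perp (![1, g.1 gi - gi, 0, 0, 0, 0, 0] : Fin 7 → Oct a b c)
    have hz1 : dot z 1 = 0 := hz 0
    have hz2 : dot z (g.1 gi - gi) = 0 := hz 1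
    obtain ⟨u, hu0, hu⟩ := exists_perp
      (![1, z, g.1 gi - gi, z * (g.1 gi - gi), 0, 0, 0] : Fin 7 → Oct a b c)
    have hu1 : dot u 1 = 0 := hu 0
    have hu2 : dot u z = 0 := hu 1
    have hu3 : dot u (g.1 gi - gi) = 0 := hu 2
    have hu4 : dot u (z * (g.1 gi - gi)) = 0 := hu 3
    have hz' := star_iff_dot.2 hz1
    have hu' := star_iff_dot.2 hu1
    have hzu : dot z u = 0 := by rw [dot_comm, hu2]
    obtain ⟨φ, h1, h2, h3⟩ := exists_move hdiv hz' hz0 hu' hu0 hzu hstd.si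
      (by rw [← aut_star, hstd.si, map_neg]) (aut_norm g gi) hz2 hu3
      (by rw [dot_mul_left, hz', neg_mul, dot_neg_right, hu4, neg_zero])
    exact ⟨φ, h z u hz' hz0 hu' hu0 hzu φ h1 h2, h3⟩
  have hg1 : (φ⁻¹ * g).1 gi = gi := by
    change φ⁻¹.1 (g.1 gi) = gi
    rw [← hφ]
    change (φ⁻¹ * φ).1 gi = gi
    rw [inv_mul_cancel]
    rfl
  -- second step
  obtain ⟨ψ, hψN, hψi, hψ⟩ : ∃ ψ ∈ N, ψ.1 gi = gi ∧ ψ.1 gj = (φ⁻¹ * g).1 gj := by
    obtain ⟨z, hz0, hz⟩ := exists_perp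
      (![1, gi, (φ⁻¹ * g).1 gj - gj, gi * ((φ⁻¹ * g).1 gj - gj), 0, 0, 0] : Fin 7 → Oct a b c)
    have hz1 : dot z 1 = 0 := hz 0
    have hz2 : dot z gi = 0 := hz 1
    have hz3 : dot z ((φ⁻¹ * g).1 gj - gj) = 0 := hz 2
    have hz4 : dot z (gi * ((φ⁻¹ * g).1 gj - gj)) = 0 := hz 3
    have hz' := star_iff_dot.2 hz1
    have hzi : dot gi z = 0 := by rw [dot_comm, hz2]
    obtain ⟨ψ, h1, h2, h3⟩ := exists_move hdiv hstd.si hi0 hz' hz0 hzi hstd.sj
      (by rw [← aut_star, hstd.sj, map_neg]) (aut_norm (φ⁻¹ * g) gj)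
      (by
        rw [dot_sub_right, hstd.ij, sub_zero]
        nth_rewrite 1 [← hg1]
        rw [aut_dot, hstd.ij]) hz3
      (by rw [dot_mul_left, hstd.si, neg_mul, dot_neg_right, hz4, neg_zero])
    exact ⟨ψ, h gi z hstd.si hi0 hz' hz0 hzi ψ h1 h2, h1, h3⟩
  -- third step
  have h1 : (ψ⁻¹ * (φ⁻¹ * g)).1 gi = gi := by
    change ψ⁻¹.1 ((φ⁻¹ * g).1 gi) = gi
    rw [hg1]
    nth_rewrite 1 [← hψi]
    change (ψ⁻¹ * ψ).1 gi = gi
    rw [inv_mul_cancel]
    rfl
  have h2 : (ψ⁻¹ * (φ⁻¹ * g)).1 gj = gj := by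
    change ψ⁻¹.1 ((φ⁻¹ * g).1 gj) = gj
    rw [← hψ]
    change (ψ⁻¹ * ψ).1 gj = gj
    rw [inv_mul_cancel]
    rfl
  have h3 := h gi gj hstd.si hi0 hstd.sj hj0 hstd.ij _ h1 h2
  have h4 := mul_mem hφN (mul_mem hψN h3)
  rwa [mul_inv_cancel_left, mul_inv_cancel_left] at h4

end Oct

end Vale.Agent.P011.D4
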