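import Vale.Agent.P011.D4.R1

/-!
Octonions: the bilinear form, projections to quaternion subalgebras, moves.
-/

open NumberField IsDedekindDomain Topology

namespace Vale.Agent.P011.D4.B

open Vale.Agent.P011.MPQ Vale.Agent.P011.D4 Vale.Agent.P011.D4.Oct

variable {F : Type} [Field F] {a b c a' b' c' : Fˣ}

theorem dot_coord (x y : Oct a b c) : dot x y =
    (x.fst.re * y.fst.re - a * (x.fst.imI * y.fst.imI) - b * (x.fst.imJ * y.fst.imJ) +
      a * b * (x.fst.imK * y.fst.imK)) -
    c * (x.snd.re * y.snd.re - a * (x.snd.imI * y.snd.imI) - b * (x.snd.imJ * y.snd.imJ) +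
      a * b * (x.snd.imK * y.snd.imK)) := by
  simp [dot]
  ring

theorem norm_coord (x : Oct a b c) : norm x =
    (x.fst.re ^ 2 - a * x.fst.imI ^ 2 - b * x.fst.imJ ^ 2 + a * b * x.fst.imK ^ 2) -
    c * (x.snd.re ^ 2 - a * x.snd.imI ^ 2 - b * x.snd.imJ ^ 2 + a * b * x.snd.imK ^ 2) := rfl

theorem dot_self (x : Oct a b c) : dot x x = norm x := by
  rw [dot_coord, norm_coord]
  ring

theorem dot_comm (x y : Oct a b c) : dot x y = dot y x := by
  rw [dot_coord, dot_coord]
  ring

theorem dot_add_left (x y z : Oct a b c) : dot (x + y) z = dot x z + dot y z := by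
  simp only [dot_coord, fst_add, snd_add, QuaternionAlgebra.re_add, QuaternionAlgebra.imI_add,
    QuaternionAlgebra.imJ_add, QuaternionAlgebra.imK_add]
  ring

theorem dot_smul_left (t : F) (x z : Oct a b c) : dot (t • x) z = t * dot x z := by
  simp only [dot_coord, fst_smul, snd_smul, QuaternionAlgebra.re_smul, QuaternionAlgebra.imI_smul,
    QuaternionAlgebra.imJ_smul, QuaternionAlgebra.imK_smul, smul_eq_mul]
  ring

theorem dot_neg_left (x z : Oct a b c) : dot (-x) z = -dot x z := by
  have := dot_smul_left (-1) x z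
  rwa [neg_one_smul, neg_one_mul] at this

theorem dot_sub_left (x y z : Oct a b c) : dot (x - y) z = dot x z - dot y z := by
  rw [sub_eq_add_neg, dot_add_left, dot_neg_left, sub_eq_add_neg]

theorem dot_add_right (x y z : Oct a b c) : dot x (y + z) = dot x y + dot x z := by
  rw [dot_comm, dot_add_left, dot_comm y, dot_comm z]

theorem dot_smul_right (t : F) (x z : Oct a b c) : dot x (t • z) = t * dot x z := by
  rw [dot_comm, dot_smul_left, dot_comm z]

theorem dot_neg_right (x z : Oct a b c) : dot x (-z) = -dot x z := by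
  rw [dot_comm, dot_neg_left, dot_comm z]

theorem dot_sub_right (x y z : Oct a b c) : dot x (y - z) = dot x y - dot x z := by
  rw [dot_comm, dot_sub_left, dot_comm y, dot_comm z]

theorem dot_zero_left (z : Oct a b c) : dot (0 : Oct a b c) z = 0 := by
  rw [dot_coord]; simp

theorem dot_zero_right (z : Oct a b c) : dot z (0 : Oct a b c) = 0 := by
  rw [dot_comm, dot_zero_left]

theorem norm_add (x y : Oct a b c) : norm (x + y) = norm x + norm y + 2 * dot x y := by
  rw [← dot_self, dot_add_left, dot_add_right, dot_add_right, dot_self, dot_self, dot_comm y x]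
  ring

theorem norm_sub (x y : Oct a b c) : norm (x - y) = norm x + norm y - 2 * dot x y := by
  rw [← dot_self, dot_sub_left, dot_sub_right, dot_sub_right, dot_self, dot_self, dot_comm y x]
  ring

theorem norm_smul (t : F) (x : Oct a b c) : norm (t • x) = t ^ 2 * norm x := by
  rw [← dot_self, dot_smul_left, dot_smul_right, dot_self]
  ring

theorem norm_neg (x : Oct a b c) : norm (-x) = norm x := by
  rw [← dot_self, dot_neg_left, dot_neg_right, dot_self, neg_neg]

theorem norm_one : norm (1 : Oct a b c) = 1 := by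
  rw [norm_coord]; simp

set_option maxHeartbeats 1000000 in
theorem dot_mul_left (x y z : Oct a b c) : dot (x * y) z = dot y (star x * z) := by
  simp only [dot_coord, fst_mul, snd_mul, fst_star, snd_star, QuaternionAlgebra.re_add,
    QuaternionAlgebra.imI_add, QuaternionAlgebra.imJ_add, QuaternionAlgebra.imK_add,
    QuaternionAlgebra.re_mul, QuaternionAlgebra.imI_mul, QuaternionAlgebra.imJ_mul,
    QuaternionAlgebra.imK_mul, QuaternionAlgebra.re_smul, QuaternionAlgebra.imI_smul,
    QuaternionAlgebra.imJ_smul, QuaternionAlgebra.imK_smul, smul_eq_mul,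
    QuaternionAlgebra.re_star, QuaternionAlgebra.imI_star, QuaternionAlgebra.imJ_star,
    QuaternionAlgebra.imK_star, QuaternionAlgebra.re_neg, QuaternionAlgebra.imI_neg,
    QuaternionAlgebra.imJ_neg, QuaternionAlgebra.imK_neg]
  ring

set_option maxHeartbeats 1000000 in
theorem dot_mul_right (x y z : Oct a b c) : dot (x * y) z = dot x (z * star y) := by
  simp only [dot_coord, fst_mul, snd_mul, fst_star, snd_star, QuaternionAlgebra.re_add,
    QuaternionAlgebra.imI_add, QuaternionAlgebra.imJ_add, QuaternionAlgebra.imK_add,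
    QuaternionAlgebra.re_mul, QuaternionAlgebra.imI_mul, QuaternionAlgebra.imJ_mul,
    QuaternionAlgebra.imK_mul, QuaternionAlgebra.re_smul, QuaternionAlgebra.imI_smul,
    QuaternionAlgebra.imJ_smul, QuaternionAlgebra.imK_smul, smul_eq_mul,
    QuaternionAlgebra.re_star, QuaternionAlgebra.imI_star, QuaternionAlgebra.imJ_star,
    QuaternionAlgebra.imK_star, QuaternionAlgebra.re_neg, QuaternionAlgebra.imI_neg,
    QuaternionAlgebra.imJ_neg, QuaternionAlgebra.imK_neg]
  ring

theorem smul_mul' (t : F) (x y : Oct a b c) : (t • x) * y = t • (x * y) := by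
  (apply Oct.ext <;> ext) <;>
  simp only [fst_mul, snd_mul, fst_star, snd_star, fst_add, snd_add, fst_sub, snd_sub, fst_neg,
    snd_neg, fst_smul, snd_smul, fst_one, snd_one, QuaternionAlgebra.re_add,
    QuaternionAlgebra.imI_add, QuaternionAlgebra.imJ_add, QuaternionAlgebra.imK_add,
    QuaternionAlgebra.re_sub,
    QuaternionAlgebra.imI_sub, QuaternionAlgebra.imJ_sub, QuaternionAlgebra.imK_sub,
    QuaternionAlgebra.re_mul, QuaternionAlgebra.imI_mul, QuaternionAlgebra.imJ_mul,
    QuaternionAlgebra.imK_mul, QuaternionAlgebra.re_smul, QuaternionAlgebra.imI_smul,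
    QuaternionAlgebra.imJ_smul, QuaternionAlgebra.imK_smul, smul_eq_mul,
    QuaternionAlgebra.re_star, QuaternionAlgebra.imI_star, QuaternionAlgebra.imJ_star,
    QuaternionAlgebra.imK_star, QuaternionAlgebra.re_neg, QuaternionAlgebra.imI_neg,
    QuaternionAlgebra.imJ_neg, QuaternionAlgebra.imK_neg, QuaternionAlgebra.re_one,
    QuaternionAlgebra.imI_one, QuaternionAlgebra.imJ_one, QuaternionAlgebra.imK_one, norm_coord,
    dot_coord, QuaternionAlgebra.re_zero, QuaternionAlgebra.imI_zero, QuaternionAlgebra.imJ_zero,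
    QuaternionAlgebra.imK_zero, fst_zero, snd_zero] <;>
  ring

theorem mul_smul' (t : F) (x y : Oct a b c) : x * (t • y) = t • (x * y) := by
  (apply Oct.ext <;> ext) <;>
  simp only [fst_mul, snd_mul, fst_star, snd_star, fst_add, snd_add, fst_sub, snd_sub, fst_neg,
    snd_neg, fst_smul, snd_smul, fst_one, snd_one, QuaternionAlgebra.re_add,
    QuaternionAlgebra.imI_add, QuaternionAlgebra.imJ_add, QuaternionAlgebra.imK_add,
    QuaternionAlgebra.re_sub,
    QuaternionAlgebra.imI_sub, QuaternionAlgebra.imJ_sub, QuaternionAlgebra.imK_sub,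
    QuaternionAlgebra.re_mul, QuaternionAlgebra.imI_mul, QuaternionAlgebra.imJ_mul,
    QuaternionAlgebra.imK_mul, QuaternionAlgebra.re_smul, QuaternionAlgebra.imI_smul,
    QuaternionAlgebra.imJ_smul, QuaternionAlgebra.imK_smul, smul_eq_mul,
    QuaternionAlgebra.re_star, QuaternionAlgebra.imI_star, QuaternionAlgebra.imJ_star,
    QuaternionAlgebra.imK_star, QuaternionAlgebra.re_neg, QuaternionAlgebra.imI_neg,
    QuaternionAlgebra.imJ_neg, QuaternionAlgebra.imK_neg, QuaternionAlgebra.re_one,
    QuaternionAlgebra.imI_one, QuaternionAlgebra.imJ_one, QuaternionAlgebra.imK_one, norm_coord,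
    dot_coord, QuaternionAlgebra.re_zero, QuaternionAlgebra.imI_zero, QuaternionAlgebra.imJ_zero,
    QuaternionAlgebra.imK_zero, fst_zero, snd_zero] <;>
  ring

theorem star_smul' (t : F) (x : Oct a b c) : star (t • x) = t • star x := by
  (apply Oct.ext <;> ext) <;>
  simp only [fst_mul, snd_mul, fst_star, snd_star, fst_add, snd_add, fst_sub, snd_sub, fst_neg,
    snd_neg, fst_smul, snd_smul, fst_one, snd_one, QuaternionAlgebra.re_add,
    QuaternionAlgebra.imI_add, QuaternionAlgebra.imJ_add, QuaternionAlgebra.imK_add,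
    QuaternionAlgebra.re_sub,
    QuaternionAlgebra.imI_sub, QuaternionAlgebra.imJ_sub, QuaternionAlgebra.imK_sub,
    QuaternionAlgebra.re_mul, QuaternionAlgebra.imI_mul, QuaternionAlgebra.imJ_mul,
    QuaternionAlgebra.imK_mul, QuaternionAlgebra.re_smul, QuaternionAlgebra.imI_smul,
    QuaternionAlgebra.imJ_smul, QuaternionAlgebra.imK_smul, smul_eq_mul,
    QuaternionAlgebra.re_star, QuaternionAlgebra.imI_star, QuaternionAlgebra.imJ_star,
    QuaternionAlgebra.imK_star, QuaternionAlgebra.re_neg, QuaternionAlgebra.imI_neg,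
    QuaternionAlgebra.imJ_neg, QuaternionAlgebra.imK_neg, QuaternionAlgebra.re_one,
    QuaternionAlgebra.imI_one, QuaternionAlgebra.imJ_one, QuaternionAlgebra.imK_one, norm_coord,
    dot_coord, QuaternionAlgebra.re_zero, QuaternionAlgebra.imI_zero, QuaternionAlgebra.imJ_zero,
    QuaternionAlgebra.imK_zero, fst_zero, snd_zero] <;>
  ring

theorem mul_star (x : Oct a b c) : x * star x = norm x • (1 : Oct a b c) := by
  (apply Oct.ext <;> ext) <;>
  simp only [fst_mul, snd_mul, fst_star, snd_star, fst_add, snd_add, fst_sub, snd_sub, fst_neg,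
    snd_neg, fst_smul, snd_smul, fst_one, snd_one, QuaternionAlgebra.re_add,
    QuaternionAlgebra.imI_add, QuaternionAlgebra.imJ_add, QuaternionAlgebra.imK_add,
    QuaternionAlgebra.re_sub,
    QuaternionAlgebra.imI_sub, QuaternionAlgebra.imJ_sub, QuaternionAlgebra.imK_sub,
    QuaternionAlgebra.re_mul, QuaternionAlgebra.imI_mul, QuaternionAlgebra.imJ_mul,
    QuaternionAlgebra.imK_mul, QuaternionAlgebra.re_smul, QuaternionAlgebra.imI_smul,
    QuaternionAlgebra.imJ_smul, QuaternionAlgebra.imK_smul, smul_eq_mul,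
    QuaternionAlgebra.re_star, QuaternionAlgebra.imI_star, QuaternionAlgebra.imJ_star,
    QuaternionAlgebra.imK_star, QuaternionAlgebra.re_neg, QuaternionAlgebra.imI_neg,
    QuaternionAlgebra.imJ_neg, QuaternionAlgebra.imK_neg, QuaternionAlgebra.re_one,
    QuaternionAlgebra.imI_one, QuaternionAlgebra.imJ_one, QuaternionAlgebra.imK_one, norm_coord,
    dot_coord, QuaternionAlgebra.re_zero, QuaternionAlgebra.imI_zero, QuaternionAlgebra.imJ_zero,
    QuaternionAlgebra.imK_zero, fst_zero, snd_zero] <;>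
  ring

theorem star_mul_self' (x : Oct a b c) : star x * x = norm x • (1 : Oct a b c) := by
  (apply Oct.ext <;> ext) <;>
  simp only [fst_mul, snd_mul, fst_star, snd_star, fst_add, snd_add, fst_sub, snd_sub, fst_neg,
    snd_neg, fst_smul, snd_smul, fst_one, snd_one, QuaternionAlgebra.re_add,
    QuaternionAlgebra.imI_add, QuaternionAlgebra.imJ_add, QuaternionAlgebra.imK_add,
    QuaternionAlgebra.re_sub,
    QuaternionAlgebra.imI_sub, QuaternionAlgebra.imJ_sub, QuaternionAlgebra.imK_sub,
    QuaternionAlgebra.re_mul, QuaternionAlgebra.imI_mul, QuaternionAlgebra.imJ_mul,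
    QuaternionAlgebra.imK_mul, QuaternionAlgebra.re_smul, QuaternionAlgebra.imI_smul,
    QuaternionAlgebra.imJ_smul, QuaternionAlgebra.imK_smul, smul_eq_mul,
    QuaternionAlgebra.re_star, QuaternionAlgebra.imI_star, QuaternionAlgebra.imJ_star,
    QuaternionAlgebra.imK_star, QuaternionAlgebra.re_neg, QuaternionAlgebra.imI_neg,
    QuaternionAlgebra.imJ_neg, QuaternionAlgebra.imK_neg, QuaternionAlgebra.re_one,
    QuaternionAlgebra.imI_one, QuaternionAlgebra.imJ_one, QuaternionAlgebra.imK_one, norm_coord,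
    dot_coord, QuaternionAlgebra.re_zero, QuaternionAlgebra.imI_zero, QuaternionAlgebra.imJ_zero,
    QuaternionAlgebra.imK_zero, fst_zero, snd_zero] <;>
  ring

theorem mul_mul_star (x y : Oct a b c) : (x * y) * star y = norm y • x := by
  (apply Oct.ext <;> ext) <;>
  simp only [fst_mul, snd_mul, fst_star, snd_star, fst_add, snd_add, fst_sub, snd_sub, fst_neg,
    snd_neg, fst_smul, snd_smul, fst_one, snd_one, QuaternionAlgebra.re_add,
    QuaternionAlgebra.imI_add, QuaternionAlgebra.imJ_add, QuaternionAlgebra.imK_add,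
    QuaternionAlgebra.re_sub,
    QuaternionAlgebra.imI_sub, QuaternionAlgebra.imJ_sub, QuaternionAlgebra.imK_sub,
    QuaternionAlgebra.re_mul, QuaternionAlgebra.imI_mul, QuaternionAlgebra.imJ_mul,
    QuaternionAlgebra.imK_mul, QuaternionAlgebra.re_smul, QuaternionAlgebra.imI_smul,
    QuaternionAlgebra.imJ_smul, QuaternionAlgebra.imK_smul, smul_eq_mul,
    QuaternionAlgebra.re_star, QuaternionAlgebra.imI_star, QuaternionAlgebra.imJ_star,
    QuaternionAlgebra.imK_star, QuaternionAlgebra.re_neg, QuaternionAlgebra.imI_neg,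
    QuaternionAlgebra.imJ_neg, QuaternionAlgebra.imK_neg, QuaternionAlgebra.re_one,
    QuaternionAlgebra.imI_one, QuaternionAlgebra.imJ_one, QuaternionAlgebra.imK_one, norm_coord,
    dot_coord, QuaternionAlgebra.re_zero, QuaternionAlgebra.imI_zero, QuaternionAlgebra.imJ_zero,
    QuaternionAlgebra.imK_zero, fst_zero, snd_zero] <;>
  ring

theorem mul_star_mul (x y : Oct a b c) : (x * star y) * y = norm y • x := by
  (apply Oct.ext <;> ext) <;>
  simp only [fst_mul, snd_mul, fst_star, snd_star, fst_add, snd_add, fst_sub, snd_sub, fst_neg,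
    snd_neg, fst_smul, snd_smul, fst_one, snd_one, QuaternionAlgebra.re_add,
    QuaternionAlgebra.imI_add, QuaternionAlgebra.imJ_add, QuaternionAlgebra.imK_add,
    QuaternionAlgebra.re_sub,
    QuaternionAlgebra.imI_sub, QuaternionAlgebra.imJ_sub, QuaternionAlgebra.imK_sub,
    QuaternionAlgebra.re_mul, QuaternionAlgebra.imI_mul, QuaternionAlgebra.imJ_mul,
    QuaternionAlgebra.imK_mul, QuaternionAlgebra.re_smul, QuaternionAlgebra.imI_smul,
    QuaternionAlgebra.imJ_smul, QuaternionAlgebra.imK_smul, smul_eq_mul,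
    QuaternionAlgebra.re_star, QuaternionAlgebra.imI_star, QuaternionAlgebra.imJ_star,
    QuaternionAlgebra.imK_star, QuaternionAlgebra.re_neg, QuaternionAlgebra.imI_neg,
    QuaternionAlgebra.imJ_neg, QuaternionAlgebra.imK_neg, QuaternionAlgebra.re_one,
    QuaternionAlgebra.imI_one, QuaternionAlgebra.imJ_one, QuaternionAlgebra.imK_one, norm_coord,
    dot_coord, QuaternionAlgebra.re_zero, QuaternionAlgebra.imI_zero, QuaternionAlgebra.imJ_zero,
    QuaternionAlgebra.imK_zero, fst_zero, snd_zero] <;>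
  ring

theorem star_mul_mul (x y : Oct a b c) : star x * (x * y) = norm x • y := by
  (apply Oct.ext <;> ext) <;>
  simp only [fst_mul, snd_mul, fst_star, snd_star, fst_add, snd_add, fst_sub, snd_sub, fst_neg,
    snd_neg, fst_smul, snd_smul, fst_one, snd_one, QuaternionAlgebra.re_add,
    QuaternionAlgebra.imI_add, QuaternionAlgebra.imJ_add, QuaternionAlgebra.imK_add,
    QuaternionAlgebra.re_sub,
    QuaternionAlgebra.imI_sub, QuaternionAlgebra.imJ_sub, QuaternionAlgebra.imK_sub,
    QuaternionAlgebra.re_mul, QuaternionAlgebra.imI_mul, QuaternionAlgebra.imJ_mul,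
    QuaternionAlgebra.imK_mul, QuaternionAlgebra.re_smul, QuaternionAlgebra.imI_smul,
    QuaternionAlgebra.imJ_smul, QuaternionAlgebra.imK_smul, smul_eq_mul,
    QuaternionAlgebra.re_star, QuaternionAlgebra.imI_star, QuaternionAlgebra.imJ_star,
    QuaternionAlgebra.imK_star, QuaternionAlgebra.re_neg, QuaternionAlgebra.imI_neg,
    QuaternionAlgebra.imJ_neg, QuaternionAlgebra.imK_neg, QuaternionAlgebra.re_one,
    QuaternionAlgebra.imI_one, QuaternionAlgebra.imJ_one, QuaternionAlgebra.imK_one, norm_coord,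
    dot_coord, QuaternionAlgebra.re_zero, QuaternionAlgebra.imI_zero, QuaternionAlgebra.imJ_zero,
    QuaternionAlgebra.imK_zero, fst_zero, snd_zero] <;>
  ring

theorem mul_star_mul' (x y : Oct a b c) : x * (star x * y) = norm x • y := by
  (apply Oct.ext <;> ext) <;>
  simp only [fst_mul, snd_mul, fst_star, snd_star, fst_add, snd_add, fst_sub, snd_sub, fst_neg,
    snd_neg, fst_smul, snd_smul, fst_one, snd_one, QuaternionAlgebra.re_add,
    QuaternionAlgebra.imI_add, QuaternionAlgebra.imJ_add, QuaternionAlgebra.imK_add,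
    QuaternionAlgebra.re_sub,
    QuaternionAlgebra.imI_sub, QuaternionAlgebra.imJ_sub, QuaternionAlgebra.imK_sub,
    QuaternionAlgebra.re_mul, QuaternionAlgebra.imI_mul, QuaternionAlgebra.imJ_mul,
    QuaternionAlgebra.imK_mul, QuaternionAlgebra.re_smul, QuaternionAlgebra.imI_smul,
    QuaternionAlgebra.imJ_smul, QuaternionAlgebra.imK_smul, smul_eq_mul,
    QuaternionAlgebra.re_star, QuaternionAlgebra.imI_star, QuaternionAlgebra.imJ_star,
    QuaternionAlgebra.imK_star, QuaternionAlgebra.re_neg, QuaternionAlgebra.imI_neg,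
    QuaternionAlgebra.imJ_neg, QuaternionAlgebra.imK_neg, QuaternionAlgebra.re_one,
    QuaternionAlgebra.imI_one, QuaternionAlgebra.imJ_one, QuaternionAlgebra.imK_one, norm_coord,
    dot_coord, QuaternionAlgebra.re_zero, QuaternionAlgebra.imI_zero, QuaternionAlgebra.imJ_zero,
    QuaternionAlgebra.imK_zero, fst_zero, snd_zero] <;>
  ring

theorem add_star (x : Oct a b c) : x + star x = (2 * dot x 1) • (1 : Oct a b c) := by
  (apply Oct.ext <;> ext) <;>
  simp only [fst_mul, snd_mul, fst_star, snd_star, fst_add, snd_add, fst_sub, snd_sub, fst_neg,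
    snd_neg, fst_smul, snd_smul, fst_one, snd_one, QuaternionAlgebra.re_add,
    QuaternionAlgebra.imI_add, QuaternionAlgebra.imJ_add, QuaternionAlgebra.imK_add,
    QuaternionAlgebra.re_sub,
    QuaternionAlgebra.imI_sub, QuaternionAlgebra.imJ_sub, QuaternionAlgebra.imK_sub,
    QuaternionAlgebra.re_mul, QuaternionAlgebra.imI_mul, QuaternionAlgebra.imJ_mul,
    QuaternionAlgebra.imK_mul, QuaternionAlgebra.re_smul, QuaternionAlgebra.imI_smul,
    QuaternionAlgebra.imJ_smul, QuaternionAlgebra.imK_smul, smul_eq_mul,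
    QuaternionAlgebra.re_star, QuaternionAlgebra.imI_star, QuaternionAlgebra.imJ_star,
    QuaternionAlgebra.imK_star, QuaternionAlgebra.re_neg, QuaternionAlgebra.imI_neg,
    QuaternionAlgebra.imJ_neg, QuaternionAlgebra.imK_neg, QuaternionAlgebra.re_one,
    QuaternionAlgebra.imI_one, QuaternionAlgebra.imJ_one, QuaternionAlgebra.imK_one, norm_coord,
    dot_coord, QuaternionAlgebra.re_zero, QuaternionAlgebra.imI_zero, QuaternionAlgebra.imJ_zero,
    QuaternionAlgebra.imK_zero, fst_zero, snd_zero] <;>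
  ring

theorem star_eq (x : Oct a b c) : star x = (2 * dot x 1) • (1 : Oct a b c) - x := by
  rw [← add_star]; abel

theorem star_of_dot {x : Oct a b c} (h : dot x 1 = 0) : star x = -x := by
  rw [star_eq, h, mul_zero, zero_smul, zero_sub]

theorem dot_one_of_star (h2 : (2 : F) ≠ 0) {x : Oct a b c} (h : star x = -x) : dot x 1 = 0 := by
  have h1 := add_star x
  rw [h, add_neg_cancel] at h1
  have h3 : (2 * dot x 1 : F) = 0 := by
    have := congrArg (fun z : Oct a b c => z.fst.re) h1
    simpa using this.symm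
  exact (mul_eq_zero.mp h3).resolve_left h2

theorem mul_self_of_star {x : Oct a b c} (h : star x = -x) : x * x = (-norm x) • (1 : Oct a b c) := by
  have := mul_star x
  rw [h, mul_neg] at this
  rw [neg_smul, ← this, neg_neg]

theorem norm_of_sq {x : Oct a b c} (h : star x = -x) {t : F} (ht : x * x = t • (1 : Oct a b c)) :
    norm x = -t := by
  have h1 := mul_self_of_star h
  rw [ht] at h1
  have h3 := congrArg (fun z : Oct a b c => z.fst.re) h1
  have : t = -norm x := by simpa using h3
  rw [this, neg_neg]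

theorem anti {x y : Oct a b c} (hx : star x = -x) (hy : star y = -y) (h : dot x y = 0) :
    x * y = -(y * x) := by
  have h1 : star (x * star y) = -(x * star y) := by
    apply star_of_dot
    rw [dot_mul_right, star_star, one_mul, h]
  rw [star_mul, star_star, hx, hy, mul_neg, mul_neg, neg_neg] at h1
  exact h1.symm

/-- The orthogonal complement of the quaternion algebra generated by `z` and `u`. -/
structure Perp (z u x : Oct a b c) : Prop where
  p1 : dot x 1 = 0
  pz : dot x z = 0
  pu : dot x u = 0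
  pzu : dot x (z * u) = 0

/-- The projection to the quaternion algebra generated by `z` and `u`. -/
noncomputable def proj (z u w : Oct a b c) : Oct a b c :=
  dot w 1 • (1 : Oct a b c) + (dot w z / norm z) • z + (dot w u / norm u) • u +
    (dot w (z * u) / norm (z * u)) • (z * u)

theorem Perp.add {z u x y : Oct a b c} (hx : Perp z u x) (hy : Perp z u y) : Perp z u (x + y) :=
  ⟨by rw [dot_add_left, hx.p1, hy.p1, add_zero], by rw [dot_add_left, hx.pz, hy.pz, add_zero],
    by rw [dot_add_left, hx.pu, hy.pu, add_zero], by rw [dot_add_left, hx.pzu, hy.pzu, add_zero]⟩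

theorem Perp.star {z u x : Oct a b c} (hx : Perp z u x) : star x = -x := star_of_dot hx.p1

/-- A basic pair. -/
structure Pair (z u : Oct a b c) : Prop where
  sz : star z = -z
  su : star u = -u
  nz : norm z ≠ 0
  nu : norm u ≠ 0
  zu : dot z u = 0

theorem Pair.dot_one {z u : Oct a b c} (h2 : (2 : F) ≠ 0) (h : Pair z u) :
    dot z 1 = 0 ∧ dot u 1 = 0 ∧ dot (z * u) 1 = 0 ∧ dot (z * u) z = 0 ∧ dot (z * u) u = 0 := by
  have h1 := dot_one_of_star h2 h.sz
  have h3 := dot_one_of_star h2 h.su
  refine ⟨h1, h3, ?_, ?_, ?_⟩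
  · rw [dot_mul_right, one_mul, h.su, dot_neg_right, h.zu, neg_zero]
  · rw [dot_mul_left, star_mul_self', dot_smul_right, h3, mul_zero]
  · rw [dot_mul_right, mul_star, dot_smul_right, h1, mul_zero]

theorem Pair.mul_norm {z u : Oct a b c} (h : Pair z u) : norm (z * u) ≠ 0 := by
  rw [Oct.norm_mul]; exact mul_ne_zero h.nz h.nu

theorem perp_sub_proj {z u : Oct a b c} (h2 : (2 : F) ≠ 0) (h : Pair z u) (w : Oct a b c) :
    Perp z u (w - proj z u w) := by
  obtain ⟨e1, e2, e3, e4, e5⟩ := h.dot_one h2
  have e1' := dot_comm z 1 ▸ e1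
  have e2' := dot_comm u 1 ▸ e2
  have e3' := dot_comm (z * u) 1 ▸ e3
  have e4' := dot_comm (z * u) z ▸ e4
  have e5' := dot_comm (z * u) u ▸ e5
  have e6' := dot_comm z u ▸ h.zu
  have h0 := h.mul_norm
  have n1 : dot (1 : Oct a b c) 1 = 1 := by rw [dot_self, norm_one]
  constructor <;>
  simp only [dot_sub_left, proj, dot_add_left, dot_smul_left, e1, e2, e3, e4, e5, e1', e2', e3',
    e4', e5', e6', h.zu, dot_self, norm_one, mul_zero, add_zero, zero_add, mul_one, sub_self,
    div_mul_cancel₀ _ h.nz, div_mul_cancel₀ _ h.nu, div_mul_cancel₀ _ h0]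

end Vale.Agent.P011.D4.B
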