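import Vale.Agent.P011.D4.TopS
import Vale.Agent.P011.Arith.Schilling
import Vale.Agent.P011.MPQ.Appr

/-!
The norm theorem for quaternion algebras with closeness at a finite set of places, and weak
approximation for the norm-one group.
-/

open NumberField IsDedekindDomain Topology Filter

namespace Vale.Agent.P011.D4

open Vale.Agent.P011.MPQ Vale.Agent.P011.Arith

section abv

variable {k : Type} [Field k] [CharZero k] (A : AbsoluteValue k ℝ)

/-- Newton's iteration for square roots with respect to an absolute value. -/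
theorem exists_root {ε : ℝ} (hε : 0 < ε) : ∃ δ : ℝ, 0 < δ ∧ ∀ t : k, A (t - 1) < δ →
    ∀ η : ℝ, 0 < η → ∃ u : k, A (u - 1) < ε ∧ A (u ^ 2 - t) < η := by
  obtain ⟨c, hc⟩ : ∃ c, c = A 2 := ⟨_, rfl⟩
  have hc0 : 0 < c := by rw [hc]; exact A.pos two_ne_zero
  refine ⟨min (c / 8) (min (ε * c / 4) (c ^ 2 / 8)), by positivity, fun t ht η hη => ?_⟩
  obtain ⟨h1, h2⟩ := lt_min_iff.mp ht
  obtain ⟨h2, h3⟩ := lt_min_iff.mp h2
  obtain ⟨e, he⟩ : ∃ e, e = A (t - 1) := ⟨_, rfl⟩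
  rw [← he] at h1 h2 h3
  have he0 : 0 ≤ e := by rw [he]; exact A.nonneg _
  have key : ∀ n : ℕ, ∃ u : k, A (u - 1) ≤ (1 - (1 / 2) ^ n) * (4 * e / c) ∧
      A (u ^ 2 - t) ≤ e * (1 / 2) ^ n := by
    intro n
    induction n with
    | zero =>
      refine ⟨1, ?_, ?_⟩
      · rw [sub_self, map_zero, pow_zero, sub_self, zero_mul]
      · rw [one_pow, pow_zero, mul_one, he, A.map_sub]
    | succ n ih =>
      obtain ⟨u, hu1, hu2⟩ := ih
      obtain ⟨r, hr⟩ : ∃ r : ℝ, r = (1 / 2) ^ n := ⟨_, rfl⟩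
      have hr0 : 0 < r := by rw [hr]; positivity
      have hr1 : r ≤ 1 := by rw [hr]; exact pow_le_one₀ (by norm_num) (by norm_num)
      rw [← hr] at hu1 hu2
      rw [pow_succ, ← hr]
      have h4 : 4 * e / c ≤ 1 / 2 := by
        rw [div_le_iff₀ hc0]
        linarith
      have h5 : A (u - 1) ≤ 1 / 2 := by
        have h40 : 0 ≤ 4 * e / c := by positivity
        nlinarith
      have h6 : 1 / 2 ≤ A u := by
        have h7 := A.add_le u (-(u - 1))
        have e1 : u + -(u - 1) = 1 := by ring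
        rw [e1, A.map_neg, map_one] at h7
        linarith
      have hu0 : u ≠ 0 := by
        rintro rfl
        rw [map_zero] at h6
        linarith
      obtain ⟨h, hh⟩ : ∃ h : k, h = (u ^ 2 - t) / (2 * u) := ⟨_, rfl⟩
      have hAh : A h ≤ 2 * (e * r) / c := by
        rw [hh, map_div₀, map_mul, ← hc]
        have h7 : 0 < c * A u := by positivity
        rw [div_le_div_iff₀ h7 hc0]
        have h8 : A (u ^ 2 - t) * c ≤ e * r * c := mul_le_mul_of_nonneg_right hu2 hc0.le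
        have h9 : e * r * c * 1 ≤ e * r * c * (2 * A u) := by
          apply mul_le_mul_of_nonneg_left (by linarith) (by positivity)
        linarith
      refine ⟨u - h, ?_, ?_⟩
      · have h7 := A.add_le (u - 1) (-h)
        rw [A.map_neg] at h7
        have e1 : u - h - 1 = u - 1 + -h := by ring
        rw [e1]
        have e2 : (1 - r * (1 / 2)) * (4 * e / c) = (1 - r) * (4 * e / c) + 2 * (e * r) / c := by
          field_simp
          ring
        rw [e2]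
        linarith
      · have e1 : (u - h) ^ 2 - t = h ^ 2 := by
          rw [hh]
          field_simp
          ring
        rw [e1, map_pow]
        have h7 : A h ^ 2 ≤ (2 * (e * r) / c) ^ 2 := pow_le_pow_left₀ (A.nonneg _) hAh 2
        refine h7.trans ?_
        rw [div_pow, div_le_iff₀ (by positivity)]
        have h8 : e * r ≤ c ^ 2 / 8 := by nlinarith
        have h9 : 0 ≤ e * r := by positivity
        nlinarith
  obtain ⟨n, hn⟩ : ∃ n : ℕ, e * (1 / 2) ^ n < η := by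
    obtain ⟨n, hn⟩ := exists_pow_lt_of_lt_one (y := (1 / 2 : ℝ)) (x := η / (e + 1))
      (by positivity) (by norm_num)
    refine ⟨n, ?_⟩
    rw [lt_div_iff₀ (by positivity)] at hn
    have : 0 < (1 / 2 : ℝ) ^ n := by positivity
    nlinarith
  obtain ⟨u, hu1, hu2⟩ := key n
  refine ⟨u, ?_, hu2.trans_lt hn⟩
  refine hu1.trans_lt ?_
  have h4 : 4 * e / c < ε := by
    rw [div_lt_iff₀ hc0]
    linarith
  have h5 : (0 : ℝ) < (1 / 2) ^ n := by positivity
  have h6 : 0 ≤ 4 * e / c := by positivity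
  nlinarith

omit [CharZero k] in
/-- The size of the reflection factor. -/
theorem exists_small (t T : k) (ht : t ≠ 0) (hD : T ^ 2 - 4 * t ≠ 0) {M ε : ℝ} (hM : 0 < M)
    (hε : 0 < ε) : ∃ η : ℝ, 0 < η ∧ ∀ f : k, A f ≤ 2 → A (f ^ 2 - t) < η →
      t - f * T + f ^ 2 ≠ 0 ∧ A ((t - f ^ 2) / (t - f * T + f ^ 2)) * M < ε := by
  obtain ⟨m, hm⟩ : ∃ m, m = A (t * (T ^ 2 - 4 * t)) := ⟨_, rfl⟩
  have hm0 : 0 < m := by rw [hm]; exact A.pos (mul_ne_zero ht hD)
  obtain ⟨C, hC⟩ : ∃ C, C = A T * 2 + A (2 * t) + 1 := ⟨_, rfl⟩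
  have hC0 : 0 < C := by
    have := A.nonneg T
    have := A.nonneg (2 * t)
    rw [hC]; linarith
  have hB : 0 ≤ A T := A.nonneg T
  refine ⟨min (m / (2 * (A T ^ 2 + 1))) (min (m / (4 * C)) (ε * m / (4 * C * M))), by positivity,
    fun f hf hft => ?_⟩
  obtain ⟨h1, h2⟩ := lt_min_iff.mp hft
  obtain ⟨h2, h3⟩ := lt_min_iff.mp h2
  obtain ⟨η, hη⟩ : ∃ η, η = A (f ^ 2 - t) := ⟨_, rfl⟩
  have hη0 : 0 ≤ η := by rw [hη]; exact A.nonneg _
  rw [← hη] at h1 h2 h3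
  rw [lt_div_iff₀ (by positivity)] at h1 h2 h3
  have e1 : (T * f - 2 * t) * (T * f + 2 * t) = t * (T ^ 2 - 4 * t) + T ^ 2 * (f ^ 2 - t) := by
    ring
  have h4 : m / 2 ≤ A (T * f - 2 * t) * A (T * f + 2 * t) := by
    rw [← map_mul, e1]
    have h5 := A.add_le (t * (T ^ 2 - 4 * t) + T ^ 2 * (f ^ 2 - t)) (-(T ^ 2 * (f ^ 2 - t)))
    have e2 : t * (T ^ 2 - 4 * t) + T ^ 2 * (f ^ 2 - t) + -(T ^ 2 * (f ^ 2 - t)) =
      t * (T ^ 2 - 4 * t) := by ring
    rw [e2, ← hm, A.map_neg, map_mul A (T ^ 2), map_pow, ← hη] at h5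
    nlinarith
  have h5 : A (T * f + 2 * t) ≤ C := by
    have h6 := A.add_le (T * f) (2 * t)
    rw [map_mul A T] at h6
    rw [hC]
    nlinarith
  have h6 : m / 2 ≤ A (T * f - 2 * t) * C :=
    h4.trans (mul_le_mul_of_nonneg_left h5 (A.nonneg _))
  have h7 : m / (4 * C) ≤ A (t - f * T + f ^ 2) := by
    have h8 := A.add_le (t - f * T + f ^ 2) (-(f ^ 2 - t))
    have e2 : t - f * T + f ^ 2 + -(f ^ 2 - t) = -(T * f - 2 * t) := by ring
    rw [e2, A.map_neg, A.map_neg, ← hη] at h8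
    rw [div_le_iff₀ (by positivity)]
    nlinarith
  have h8 : 0 < A (t - f * T + f ^ 2) := lt_of_lt_of_le (by positivity) h7
  refine ⟨(A.ne_zero_iff).mp h8.ne', ?_⟩
  rw [map_div₀, div_mul_eq_mul_div, div_lt_iff₀ h8, A.map_sub t, ← hη]
  rw [div_le_iff₀ (by positivity)] at h7
  have h9 : η * (4 * C * M) < ε * (A (t - f * T + f ^ 2) * (4 * C)) :=
    h3.trans_le (mul_le_mul_of_nonneg_left h7 hε.le)
  have h10 : η * M * (4 * C) < ε * A (t - f * T + f ^ 2) * (4 * C) := by linarith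
  exact lt_of_mul_lt_mul_right h10 (by positivity)

end abv

variable {k : Type} [Field k] [NumberField k] {S : Set (Pl k)}

/-- The norm theorem for quaternion algebras. -/
theorem exists_nrd {a b : kˣ} (t : kˣ) (h : ∀ φ : k →+* ℝ, φ a < 0 → φ b < 0 → 0 < φ t) :
    ∃ q : Qt a b, nrd q = t := by
  obtain ⟨x, y, z, w, e⟩ := Sch.quaternion_norm a b t h
  exact ⟨⟨x, y, z, w⟩, e.symm⟩

/-- The norm theorem with an element that is not a scalar. -/
theorem exists_nrd' {a b : kˣ} (hab : Aniso a b) (t : kˣ)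
    (h : ∀ φ : k →+* ℝ, φ a < 0 → φ b < 0 → 0 < φ t) :
    ∃ q : Qt a b, nrd q = t ∧ (2 * q.re) ^ 2 - 4 * (t : k) ≠ 0 := by
  obtain ⟨q, hq⟩ := exists_nrd t h
  by_cases h1 : (2 * q.re) ^ 2 - 4 * (t : k) = 0
  · have ha : (1 : k) - a ≠ 0 := by
      intro h0
      have h2 := hab ⟨1, 1, 0, 0⟩ (by simp only [nrd]; linear_combination h0)
      have h3 := congrArg QuaternionAlgebra.re h2
      exact one_ne_zero h3
    have ht : (t : k) = q.re ^ 2 := by linear_combination -(1 / 4 : k) * h1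
    have hre : q.re ≠ 0 := fun h0 => t.ne_zero (by rw [ht, h0]; ring)
    refine ⟨⟨q.re * (1 + a) / (1 - a), 2 * q.re / (1 - a), 0, 0⟩, ?_, ?_⟩
    · simp only [nrd]
      rw [ht]
      field_simp
      ring
    · change (2 * (q.re * (1 + a) / (1 - a))) ^ 2 - 4 * (t : k) ≠ 0
      have e1 : (2 * (q.re * (1 + a) / (1 - a))) ^ 2 - 4 * (t : k) =
          16 * q.re ^ 2 * a / (1 - a) ^ 2 := by
        rw [ht]
        field_simp
        ring
      rw [e1]
      exact div_ne_zero (mul_ne_zero (mul_ne_zero (by norm_num) (pow_ne_zero 2 hre)) a.ne_zero)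
        (pow_ne_zero 2 ha)
  · exact ⟨q, hq, h1⟩

/-- The norm theorem with closeness. -/
theorem nt_abs (hS : S.Finite) {ε : ℝ} (hε : 0 < ε) : ∃ δ : ℝ, 0 < δ ∧ ∀ (a b : kˣ), Aniso a b →
    ∀ t : k, (∀ p ∈ S, plAbv p (t - 1) < δ) → (∀ φ : k →+* ℝ, φ a < 0 → φ b < 0 → 0 < φ t) →
    ∀ ε' : ℝ, 0 < ε' → ∃ q : Qt a b, nrd q = t ∧ ∀ p ∈ S, plAbv p (q.re - 1) < ε ∧
      plAbv p q.imI < ε' ∧ plAbv p q.imJ < ε' ∧ plAbv p q.imK < ε' := by
  have hfin : Finite S := hS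
  obtain ⟨ε₁, hε₁, hε₁1, hε₁2⟩ : ∃ ε₁ : ℝ, 0 < ε₁ ∧ ε₁ ≤ ε / 4 ∧ ε₁ ≤ 1 / 4 :=
    ⟨min (ε / 4) (1 / 4), by positivity, min_le_left _ _, min_le_right _ _⟩
  choose δ hδ hroot using fun p : Pl k => exists_root (plAbv p) hε₁
  obtain ⟨δ₀, hδ₀, hδ₀1⟩ : ∃ δ₀ : ℝ, 0 < δ₀ ∧ ∀ p ∈ S, δ₀ ≤ δ p := by
    by_cases hne : Nonempty S
    · obtain ⟨p0, hp0⟩ := Finite.exists_min (fun p : S => δ p)
      exact ⟨δ p0, hδ _, fun p hp => hp0 ⟨p, hp⟩⟩
    · exact ⟨1, one_pos, fun p hp => absurd ⟨⟨p, hp⟩⟩ hne⟩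
  refine ⟨min δ₀ 1, by positivity, fun a b hab t htS hpos ε' hε' => ?_⟩
  by_cases ht0 : t = 0
  · refine ⟨0, by rw [ht0]; simp [nrd], fun p hp => ?_⟩
    have h1 := (htS p hp).trans_le (min_le_right _ _)
    rw [ht0, zero_sub, (plAbv p).map_neg, map_one] at h1
    exact absurd h1 (lt_irrefl _)
  obtain ⟨q, hq, hq4⟩ := exists_nrd' hab (Units.mk0 t ht0) hpos
  rw [Units.val_mk0] at hq hq4
  obtain ⟨x, y, z, w⟩ := q
  simp only [nrd] at hq hq4
  obtain ⟨ε₂, hε₂, hε₂1, hε₂2⟩ : ∃ ε₂ : ℝ, 0 < ε₂ ∧ ε₂ ≤ ε / 4 ∧ ε₂ ≤ ε' :=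
    ⟨min (ε / 4) ε', by positivity, min_le_left _ _, min_le_right _ _⟩
  let M : Pl k → ℝ := fun p => plAbv p x + 2 + plAbv p y + plAbv p z + plAbv p w
  have hM : ∀ p, 0 < M p := fun p => by
    have := (plAbv p).nonneg x
    have := (plAbv p).nonneg y
    have := (plAbv p).nonneg z
    have := (plAbv p).nonneg w
    change 0 < plAbv p x + 2 + plAbv p y + plAbv p z + plAbv p w
    linarith
  choose η hη hsmall using fun p : Pl k =>
    exists_small (plAbv p) t (2 * x) ht0 hq4 (hM p) hε₂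
  have hu : ∀ p : Pl k, ∃ u : k, p ∈ S → plAbv p (u - 1) < ε₁ ∧ plAbv p (u ^ 2 - t) < η p / 2 := by
    intro p
    by_cases hp : p ∈ S
    · obtain ⟨u, hu⟩ := hroot p t ((htS p hp).trans_le ((min_le_left _ _).trans (hδ₀1 p hp)))
        (η p / 2) (by have := hη p; positivity)
      exact ⟨u, fun _ => hu⟩
    · exact ⟨0, fun h => absurd h hp⟩
  choose u hu using hu
  obtain ⟨f, hf⟩ := approx S hS u (fun p => min ε₁ (η p / 8)) (fun p => by
    have := hη p
    positivity)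
  obtain ⟨lam, hlam⟩ : ∃ lam : k, lam = (t - f ^ 2) / (t - f * (2 * x) + f ^ 2) := ⟨_, rfl⟩
  have hfp : ∀ p ∈ S, plAbv p (f - 1) < 2 * ε₁ ∧ t - f * (2 * x) + f ^ 2 ≠ 0 ∧
      plAbv p lam * M p < ε₂ := by
    intro p hp
    obtain ⟨h1, h2⟩ := lt_min_iff.mp (hf p hp)
    obtain ⟨h3, h4⟩ := hu p hp
    have h5 : plAbv p (f - 1) < 2 * ε₁ := by
      have h6 := (plAbv p).add_le (f - u p) (u p - 1)
      rw [sub_add_sub_cancel] at h6
      linarith
    have h7 : plAbv p f ≤ 2 := by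
      have h6 := (plAbv p).add_le (f - 1) 1
      rw [sub_add_cancel, map_one] at h6
      linarith
    have h8 : plAbv p (u p) ≤ 2 := by
      have h6 := (plAbv p).add_le (u p - 1) 1
      rw [sub_add_cancel, map_one] at h6
      linarith
    have h9 : plAbv p (f ^ 2 - t) < η p := by
      have e1 : f ^ 2 - t = (f - u p) * (f + u p) + (u p ^ 2 - t) := by ring
      have h10 := (plAbv p).add_le ((f - u p) * (f + u p)) (u p ^ 2 - t)
      rw [← e1, map_mul] at h10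
      have h11 := (plAbv p).add_le f (u p)
      have h12 := (plAbv p).nonneg (f - u p)
      nlinarith
    obtain ⟨h10, h11⟩ := hsmall p f h7 h9
    exact ⟨h5, h10, by rw [hlam]; exact h11⟩
  by_cases hne : S.Nonempty
  · obtain ⟨p0, hp0⟩ := hne
    have hN : t - f * (2 * x) + f ^ 2 ≠ 0 := (hfp p0 hp0).2.1
    have hl : lam * (t - f * (2 * x) + f ^ 2) = t - f ^ 2 := by
      rw [hlam]
      exact div_mul_cancel₀ _ hN
    refine ⟨⟨f - lam * (x - f), -(lam * y), -(lam * z), -(lam * w)⟩, ?_, fun p hp => ?_⟩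
    · simp only [nrd]
      linear_combination lam ^ 2 * hq + (lam + 1) * hl
    · obtain ⟨h1, -, h3⟩ := hfp p hp
      change plAbv p (f - lam * (x - f) - 1) < ε ∧ plAbv p (-(lam * y)) < ε' ∧
        plAbv p (-(lam * z)) < ε' ∧ plAbv p (-(lam * w)) < ε'
      have hx := (plAbv p).nonneg x
      have hy := (plAbv p).nonneg y
      have hz := (plAbv p).nonneg z
      have hw := (plAbv p).nonneg w
      have hl0 := (plAbv p).nonneg lam
      have h3' : plAbv p lam * (plAbv p x + 2 + plAbv p y + plAbv p z + plAbv p w) < ε₂ := h3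
      have h7 : plAbv p f ≤ 2 := by
        have h6 := (plAbv p).add_le (f - 1) 1
        rw [sub_add_cancel, map_one] at h6
        linarith
      refine ⟨?_, ?_, ?_, ?_⟩
      · have e1 : f - lam * (x - f) - 1 = (f - 1) + -(lam * (x - f)) := by ring
        have h4 := (plAbv p).add_le (f - 1) (-(lam * (x - f)))
        rw [← e1, (plAbv p).map_neg, map_mul] at h4
        have h5 : plAbv p (x - f) ≤ plAbv p x + 2 := by
          have h6 := (plAbv p).add_le x (-f)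
          rw [← sub_eq_add_neg, (plAbv p).map_neg] at h6
          linarith
        nlinarith [mul_nonneg hl0 hy, mul_nonneg hl0 hz, mul_nonneg hl0 hw,
          mul_le_mul_of_nonneg_left h5 hl0]
      · rw [(plAbv p).map_neg, map_mul]
        nlinarith [mul_nonneg hl0 hx, mul_nonneg hl0 hz, mul_nonneg hl0 hw]
      · rw [(plAbv p).map_neg, map_mul]
        nlinarith [mul_nonneg hl0 hx, mul_nonneg hl0 hy, mul_nonneg hl0 hw]
      · rw [(plAbv p).map_neg, map_mul]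
        nlinarith [mul_nonneg hl0 hx, mul_nonneg hl0 hy, mul_nonneg hl0 hz]
  · exact ⟨⟨x, y, z, w⟩, hq, fun p hp => absurd ⟨p, hp⟩ hne⟩

/-- R5: the norm theorem in topological form. -/
theorem nt (hS : S.Finite) (hr : ∀ φ, (Sum.inr φ : Pl k) ∈ S) : @NT k _ (topS S) := by
  intro W hW
  obtain ⟨ε, hε, hW⟩ := (nhds_topS hS 1 W).mp hW
  obtain ⟨δ, hδ, h⟩ := nt_abs hS hε
  refine ⟨{t | ∀ p ∈ S, plAbv p (t - 1) < min δ 1}, (nhds_topS hS 1 _).mpr
    ⟨min δ 1, by positivity, fun y hy => hy⟩, fun t ht a b hab W' hW' => ?_⟩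
  obtain ⟨ε', hε', hW'⟩ := (nhds_topS hS 0 W').mp hW'
  obtain ⟨q, hq, hqS⟩ := h a b hab t (fun p hp => (ht p hp).trans_le (min_le_left _ _))
    (fun φ _ _ => by
      have h1 := (ht (Sum.inr φ) (hr φ)).trans_le (min_le_right _ _)
      rw [plAbv_inr, map_sub, map_one, abs_lt] at h1
      linarith) ε' hε'
  exact ⟨q, hq, hW _ fun p hp => (hqS p hp).1,
    hW' _ fun p hp => by rw [sub_zero]; exact (hqS p hp).2.1,
    hW' _ fun p hp => by rw [sub_zero]; exact (hqS p hp).2.2.1,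
    hW' _ fun p hp => by rw [sub_zero]; exact (hqS p hp).2.2.2⟩

/-- The square of a quaternion divided by its norm. -/
def sqn (a b : kˣ) (u : Fin 4 → k) : Qt a b :=
  ⟨(u 0 ^ 2 + a * u 1 ^ 2 + b * u 2 ^ 2 - a * b * u 3 ^ 2) *
      (u 0 ^ 2 - a * u 1 ^ 2 - b * u 2 ^ 2 + a * b * u 3 ^ 2)⁻¹,
    (2 * u 0 * u 1) * (u 0 ^ 2 - a * u 1 ^ 2 - b * u 2 ^ 2 + a * b * u 3 ^ 2)⁻¹,
    (2 * u 0 * u 2) * (u 0 ^ 2 - a * u 1 ^ 2 - b * u 2 ^ 2 + a * b * u 3 ^ 2)⁻¹,
    (2 * u 0 * u 3) * (u 0 ^ 2 - a * u 1 ^ 2 - b * u 2 ^ 2 + a * b * u 3 ^ 2)⁻¹⟩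

omit [NumberField k] in
theorem nrd_sqn (a b : kˣ) (u : Fin 4 → k)
    (h : u 0 ^ 2 - a * u 1 ^ 2 - b * u 2 ^ 2 + a * b * u 3 ^ 2 ≠ 0) : nrd (sqn a b u) = 1 := by
  obtain ⟨n, hn⟩ : ∃ n, n = u 0 ^ 2 - a * u 1 ^ 2 - b * u 2 ^ 2 + a * b * u 3 ^ 2 := ⟨_, rfl⟩
  simp only [nrd, sqn]
  rw [← hn] at h ⊢
  field_simp
  rw [hn]
  ring

omit [NumberField k] in
/-- Every quaternion of norm one is the square of a quaternion divided by its norm. -/
theorem exists_sqn {a b : kˣ} (h2 : (2 : k) ≠ 0) (hab : Aniso a b) (x : Qt a b)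
    (hx : nrd x = 1) : ∃ u : Fin 4 → k,
      u 0 ^ 2 - a * u 1 ^ 2 - b * u 2 ^ 2 + a * b * u 3 ^ 2 ≠ 0 ∧ sqn a b u = x := by
  obtain ⟨x0, x1, x2, x3⟩ := x
  simp only [nrd] at hx
  by_cases h : (1 + x0) * 2 = 0
  · have h0 : x0 = -1 := by
      have := (mul_eq_zero.mp h).resolve_right h2
      linear_combination this
    subst h0
    have h3 : (⟨0, x1, x2, x3⟩ : Qt a b) = 0 := hab _ (by simp only [nrd]; linear_combination hx)
    have e1 : x1 = 0 := congrArg QuaternionAlgebra.imI h3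
    have e2 : x2 = 0 := congrArg QuaternionAlgebra.imJ h3
    have e3 : x3 = 0 := congrArg QuaternionAlgebra.imK h3
    subst e1 e2 e3
    refine ⟨![0, 1, 0, 0], ?_, ?_⟩
    · simp
    · have := a.ne_zero
      ext <;> simp [sqn]
  · refine ⟨![1 + x0, x1, x2, x3], ?_, ?_⟩
    · simp only [Matrix.cons_val]
      intro h4
      apply h
      linear_combination h4 - hx
    · have e : (1 + x0) ^ 2 - a * x1 ^ 2 - b * x2 ^ 2 + a * b * x3 ^ 2 = (1 + x0) * 2 := by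
        linear_combination hx
      simp only [sqn, Matrix.cons_val]
      rw [e]
      ext
      · change ((1 + x0) ^ 2 + a * x1 ^ 2 + b * x2 ^ 2 - a * b * x3 ^ 2) * ((1 + x0) * 2)⁻¹ = x0
        rw [← div_eq_mul_inv, div_eq_iff h]
        linear_combination -hx
      · change 2 * (1 + x0) * x1 * ((1 + x0) * 2)⁻¹ = x1
        rw [← div_eq_mul_inv, div_eq_iff h]
        ring
      · change 2 * (1 + x0) * x2 * ((1 + x0) * 2)⁻¹ = x2
        rw [← div_eq_mul_inv, div_eq_iff h]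
        ring
      · change 2 * (1 + x0) * x3 * ((1 + x0) * 2)⁻¹ = x3
        rw [← div_eq_mul_inv, div_eq_iff h]
        ring

/-- Continuity of the parametrisation. -/
theorem sqn_near (A : AbsoluteValue k ℝ) (a b : kˣ) (z : Fin 4 → k)
    (h : z 0 ^ 2 - a * z 1 ^ 2 - b * z 2 ^ 2 + a * b * z 3 ^ 2 ≠ 0) {ε : ℝ} (hε : 0 < ε) :
    ∃ δ : ℝ, 0 < δ ∧ ∀ u : Fin 4 → k, (∀ i, A (u i - z i) < δ) →
      u 0 ^ 2 - a * u 1 ^ 2 - b * u 2 ^ 2 + a * b * u 3 ^ 2 ≠ 0 ∧
      QIn {x | A x < ε} (sqn a b u - sqn a b z) := by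
  have c (i : Fin 4) : CA A z fun u => u i := CA.coord i
  have hden : CA A z fun u => u 0 ^ 2 - a * u 1 ^ 2 - b * u 2 ^ 2 + a * b * u 3 ^ 2 :=
    ((((c 0).pow 2).sub ((CA.const (a : k)).mul ((c 1).pow 2))).sub
      ((CA.const (b : k)).mul ((c 2).pow 2))).add
      ((CA.const ((a : k) * b)).mul ((c 3).pow 2))
  have hnum : CA A z fun u => u 0 ^ 2 + a * u 1 ^ 2 + b * u 2 ^ 2 - a * b * u 3 ^ 2 :=
    ((((c 0).pow 2).add ((CA.const (a : k)).mul ((c 1).pow 2))).add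
      ((CA.const (b : k)).mul ((c 2).pow 2))).sub
      ((CA.const ((a : k) * b)).mul ((c 3).pow 2))
  have hinv := hden.inv h
  have h0 := hnum.mul hinv
  have hi (i : Fin 4) : CA A z fun u => (2 * u 0 * u i) *
      (u 0 ^ 2 - a * u 1 ^ 2 - b * u 2 ^ 2 + a * b * u 3 ^ 2)⁻¹ :=
    (((CA.const (2 : k)).mul (c 0)).mul (c i)).mul hinv
  obtain ⟨d0, hd0, k0⟩ := h0 ε hε
  obtain ⟨d1, hd1, k1⟩ := hi 1 ε hε
  obtain ⟨d2, hd2, k2⟩ := hi 2 ε hε
  obtain ⟨d3, hd3, k3⟩ := hi 3 ε hε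
  obtain ⟨d4, hd4, k4⟩ := hden.gt (A.pos h)
  refine ⟨min d0 (min d1 (min d2 (min d3 d4))), by positivity, fun u hu => ?_⟩
  have m0 : ∀ i, A (u i - z i) < d0 := fun i => (hu i).trans_le (min_le_left _ _)
  have m1 : ∀ i, A (u i - z i) < d1 := fun i =>
    (hu i).trans_le ((min_le_right _ _).trans (min_le_left _ _))
  have m2 : ∀ i, A (u i - z i) < d2 := fun i =>
    (hu i).trans_le ((min_le_right _ _).trans ((min_le_right _ _).trans (min_le_left _ _)))
  have m3 : ∀ i, A (u i - z i) < d3 := fun i =>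
    (hu i).trans_le ((min_le_right _ _).trans ((min_le_right _ _).trans
      ((min_le_right _ _).trans (min_le_left _ _))))
  have m4 : ∀ i, A (u i - z i) < d4 := fun i =>
    (hu i).trans_le ((min_le_right _ _).trans ((min_le_right _ _).trans
      ((min_le_right _ _).trans (min_le_right _ _))))
  exact ⟨(A.ne_zero_iff).mp (k4 u m4).ne', k0 u m0, k1 u m1, k2 u m2, k3 u m3⟩

omit [NumberField k] in
/-- A quaternion of norm one as an element of the norm-one group. -/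
theorem exists_SL1 {a b : kˣ} {x : Qt a b} (hx : nrd x = 1) :
    ∃ t : SL1 a b, ((t : (Qt a b)ˣ) : Qt a b) = x := by
  have h1 : x * cj x = 1 := by rw [mul_cj, hx, map_one]
  have h2 : cj x * x = 1 := by rw [cj_mul_self, hx, map_one]
  exact ⟨⟨⟨x, cj x, h1, h2⟩, hx⟩, rfl⟩

/-- R5: weak approximation for the norm-one group. -/
theorem wa_SL1 (hS : S.Finite) {a b : kˣ} (hab : Aniso a b) (z : Pl k → SL1 a b) {ε : ℝ}
    (hε : 0 < ε) : ∃ t : SL1 a b, ∀ p ∈ S,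
      QIn {x | plAbv p x < ε}
        (((t : (Qt a b)ˣ) : Qt a b) - (((z p : SL1 a b) : (Qt a b)ˣ) : Qt a b)) := by
  choose u hu0 hu using fun p => exists_sqn two_ne_zero hab
    (((z p : SL1 a b) : (Qt a b)ˣ) : Qt a b) (z p).2
  choose δ hδ hnear using fun p => sqn_near (plAbv p) a b (u p) (hu0 p) hε
  choose f hf using fun i : Fin 4 => approx S hS (fun p => u p i) δ hδ
  by_cases hne : S.Nonempty
  · obtain ⟨p0, hp0⟩ := hne
    obtain ⟨t, ht⟩ := exists_SL1 (nrd_sqn a b f (hnear p0 f fun i => hf i p0 hp0).1)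
    refine ⟨t, fun p hp => ?_⟩
    rw [ht, ← hu p]
    exact (hnear p f fun i => hf i p hp).2
  · exact ⟨1, fun p hp => absurd ⟨p, hp⟩ hne⟩

end Vale.Agent.P011.D4
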