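import Vale.Agent.P011.D4.TopS
import Vale.Agent.P011.MPQ.Final
import Vale.Agent.P011.Two.NearPow

/-!
Norm-one quaternions close to one at the ramified places lie in normal subgroups of finite index.
-/

open NumberField IsDedekindDomain Topology

namespace Vale.Agent.P011.D4

open Vale.Agent.P011.MPQ Vale.Agent.P011.Arith

variable {k : Type} [Field k] [NumberField k]

/-- A normal subgroup of finite index contains the elements whose trace is close to two at the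
ramified places. -/
theorem sl_near {a b : kˣ} (hab : Aniso a b) {e : ℕ} (he : 0 < e) (N : Subgroup (SL1 a b))
    (hN : N.Normal) (hi : N.index ≠ 0) (hexp : ∀ g : SL1 a b, g ^ e ∈ N) (g : SL1 a b)
    (hg : ∀ w : HeightOneSpectrum (𝓞 k), Ram a b w →
      w.valuation k (2 - 2 * ((g : (Qt a b)ˣ) : Qt a b).re) < w.valuation k (4 * (e : k) ^ 4)) :
    g ∈ N := by
  refine mpq a b hab N hN hi e he hexp g fun w hw ε hε => ?_
  obtain ⟨h, hh⟩ := Two.near_pow hab e he g w hw (hg w hw) ε hε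
  exact ⟨h ^ e, Subgroup.subset_closure ⟨h, rfl⟩, hh⟩

/-- The neighbourhood for `sl_near`. -/
theorem exists_nhds_trace {e : ℕ} (he : 0 < e) {S : Set (Pl k)} (hS : S.Finite) :
    ∃ W ∈ @nhds k (topS S) 0, ∀ x ∈ W, ∀ w : HeightOneSpectrum (𝓞 k), (Sum.inl w : Pl k) ∈ S →
      w.valuation k (2 * x) < w.valuation k (4 * (e : k) ^ 4) := by
  have hfin : Finite S := hS
  have he0 : (2 : k) * (e : k) ^ 4 ≠ 0 :=
    mul_ne_zero two_ne_zero (pow_ne_zero _ (Nat.cast_ne_zero.mpr he.ne'))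
  obtain ⟨ε, hε, hmin⟩ : ∃ ε : ℝ, 0 < ε ∧ ∀ p ∈ S, ε ≤ plAbv p ((2 : k) * (e : k) ^ 4) := by
    by_cases hne : Nonempty S
    · obtain ⟨p0, hp0⟩ := Finite.exists_min (fun p : S => plAbv (p : Pl k) ((2 : k) * (e : k) ^ 4))
      exact ⟨_, (plAbv (p0 : Pl k)).pos he0, fun p hp => hp0 ⟨p, hp⟩⟩
    · exact ⟨1, one_pos, fun p hp => absurd ⟨⟨p, hp⟩⟩ hne⟩
  refine ⟨{x | ∀ p ∈ S, plAbv p x < ε}, (nhds_topS hS 0 _).mpr ⟨ε, hε, fun y hy => ?_⟩,
    fun x hx w hw => ?_⟩
  · intro p hp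
    have := hy p hp
    rwa [sub_zero] at this
  · have h1 := (hx _ hw).trans_le (hmin _ hw)
    rw [plAbv_lt] at h1
    have h2 : (4 : k) * (e : k) ^ 4 = 2 * (2 * (e : k) ^ 4) := by ring
    rw [h2, map_mul, map_mul _ (2 : k) (2 * (e : k) ^ 4)]
    exact mul_lt_mul_of_pos_left h1 (zero_lt_iff.mpr ((Valuation.ne_zero_iff _).mpr two_ne_zero))

/-- Short elements close to one. -/
theorem sl_nhds {a b : kˣ} (hab : Aniso a b) {e : ℕ} (he : 0 < e) {S : Set (Pl k)}
    (hS : S.Finite) (hram : ∀ w, Ram a b w → (Sum.inl w : Pl k) ∈ S) :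
    ∃ W ∈ @nhds k (topS S) 0, ∀ (N : Subgroup (SL1 a b)), N.Normal → N.index ≠ 0 →
      (∀ g : SL1 a b, g ^ e ∈ N) → ∀ t : SL1 a b, QIn W (((t : (Qt a b)ˣ) : Qt a b) - 1) →
        t ∈ N := by
  obtain ⟨W, hW, h⟩ := exists_nhds_trace he hS
  refine ⟨W, hW, fun N hN hi hexp t ht => sl_near hab he N hN hi hexp t fun w hw => ?_⟩
  have h1 := h _ ht.1 w (hram w hw)
  have e1 : (2 : k) - 2 * ((t : (Qt a b)ˣ) : Qt a b).re =
      -(2 * (((t : (Qt a b)ˣ) : Qt a b) - 1).re) := by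
    rw [QuaternionAlgebra.re_sub, QuaternionAlgebra.re_one]
    ring
  rw [e1, Valuation.map_neg]
  exact h1

/-- Long elements close to one. -/
theorem long_near {a b : kˣ} (hab : Aniso a b) {e : ℕ} (he : 0 < e) {S : Set (Pl k)}
    (hS : S.Finite) (hram : ∀ w, Ram a b w → (Sum.inl w : Pl k) ∈ S) :
    ∃ W ∈ @nhds k (topS S) 0, ∀ (c : kˣ) (N : Subgroup (AutC a b c)), N.Normal → N.index ≠ 0 →
      (∀ g : AutC a b c, g ^ e ∈ N) → ∀ t : SL1 a b, QIn W (((t : (Qt a b)ˣ) : Qt a b) - 1) →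
        long a b c t ∈ N := by
  obtain ⟨W, hW, h⟩ := sl_nhds hab he hS hram
  refine ⟨W, hW, fun c N hN hi hexp t ht => ?_⟩
  have hN' := hN.comap (long a b c)
  refine h (N.comap (long a b c)) hN' ?_ (fun g => ?_) t ht
  · rw [Subgroup.index_comap]
    exact fun h0 => hi (Nat.eq_zero_of_zero_dvd (h0 ▸ N.relIndex_dvd_index_of_normal _))
  · change long a b c (g ^ e) ∈ N
    rw [map_pow]
    exact hexp _

/-- Short elements close to one (the subgroup contains the trace of the normal subgroup). -/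
theorem short_near {k L : Type} [Field k] [Field L] [NumberField L] [Algebra k L] {a b : kˣ}
    (hab : Aniso (up L a) (up L b)) {e : ℕ} (he : 0 < e)
    {S : Set (Pl L)} (hS : S.Finite) (hram : ∀ w, Ram (up L a) (up L b) w → (Sum.inl w : Pl L) ∈ S) :
    ∃ W ∈ @nhds L (topS S) 0, ∀ (N : Subgroup (SL1 (up L a) (up L b))), N.Normal → N.index ≠ 0 →
      (∀ g : SL1 (up L a) (up L b), g ^ e ∈ N) → ∀ t : SL1 (up L a) (up L b),
        QIn W (((t : (Qt (up L a) (up L b))ˣ) : Qt (up L a) (up L b)) - 1) → t ∈ N :=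
  sl_nhds hab he hS hram

end Vale.Agent.P011.D4
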