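import Vale.Agent.P011.D4.BStep
import Vale.Agent.P011.D4.NearM
import Vale.Agent.P011.D4.NTS

/-!
Automorphisms fixing a basic pair, and the transfer of the congruence theorem.
-/

open NumberField IsDedekindDomain Topology

namespace Vale.Agent.P011.D4.B

open Vale.Agent.P011.MPQ Vale.Agent.P011.D4 Vale.Agent.P011.D4.Oct Vale.Agent.P011.Arith

section alg

variable {F : Type} [Field F] {a b c a' b' c' : Fˣ}

theorem exists_SL1B {x : Qt a b} (hx : nrd x = 1) :
    ∃ t : SL1 a b, ((t : (Qt a b)ˣ) : Qt a b) = x := by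
  have h1 : x * star x = 1 := by
    ext <;> simp [nrd] at hx ⊢
    · linear_combination hx
    all_goals ring
  have h2 : star x * x = 1 := by
    ext <;> simp [nrd] at hx ⊢
    · linear_combination hx
    all_goals ring
  exact ⟨⟨⟨x, star x, h1, h2⟩, hx⟩, rfl⟩

/-- The action of a long element on `l`. -/
theorem long_gl (t : SL1 a b) : (long a b c t).1 gl = Y ((t : (Qt a b)ˣ) : Qt a b) := by
  apply Oct.ext
  · rfl
  · change ((t : (Qt a b)ˣ) : Qt a b) * 1 = _; exact mul_one _

theorem long_gi (t : SL1 a b) : (long a b c t).1 gi = gi := by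
  apply Oct.ext
  · rfl
  · change ((t : (Qt a b)ˣ) : Qt a b) * 0 = 0; exact mul_zero _

theorem long_gj (t : SL1 a b) : (long a b c t).1 gj = gj := by
  apply Oct.ext
  · rfl
  · change ((t : (Qt a b)ˣ) : Qt a b) * 0 = 0; exact mul_zero _

/-- Automorphisms fixing a basic pair come from the long group. -/
theorem exists_long (h2 : (2 : F) ≠ 0) {z u m : Oct a b c} (T : Trip a' b' c' z u m)
    (Φ : Oct a' b' c' ≃ₗ[F] Oct a b c) (h1 : ∀ x, Φ x = emb z u m x)
    (h3 : ∀ x y, Φ (x * y) = Φ x * Φ y) (h4 : ∀ x, norm (Φ x) = norm x) {g : AutC a b c}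
    (hz : g.1 z = z) (hu : g.1 u = u) : ∃ t : SL1 a' b', g = conjA Φ h3 (long a' b' c' t) ∧
      norm (g.1 m - m) / norm m = 2 - 2 * ((t : (Qt a' b')ˣ) : Qt a' b').re := by
  have hd : ∀ x y, dot (Φ x) (Φ y) = dot x y := fun x y => dot_of_norm h2 (map_add Φ) h4 x y
  have e1 : Φ 1 = 1 := by rw [h1, emb_one]
  have ei : Φ gi = z := by rw [h1, emb_gi]
  have ej : Φ gj = u := by rw [h1, emb_gj]
  have el : Φ gl = m := by rw [h1, emb_gl]
  have ha : (a' : F) ≠ 0 := a'.ne_zero
  have hb : (b' : F) ≠ 0 := b'.ne_zero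
  have hc : (c' : F) ≠ 0 := c'.ne_zero
  have hnm : norm m = -c' := norm_of_sq T.sl T.ll
  obtain ⟨X, hX⟩ := Φ.surjective (g.1 m)
  have x1 : dot X 1 = 0 := by
    rw [← hd, hX, e1, ← Oct.aut_one g, aut_dot h2 g]
    exact dot_one_of_star h2 T.sl
  have x2 : dot X gi = 0 := by
    rw [← hd, hX, ei]
    conv_lhs => rw [← hz, aut_dot h2 g, dot_comm]
    exact T.il
  have x3 : dot X gj = 0 := by
    rw [← hd, hX, ej]
    conv_lhs => rw [← hu, aut_dot h2 g, dot_comm]
    exact T.jl
  have x4 : dot X (gi * gj) = 0 := by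
    have e : g.1 (z * u) = z * u := by rw [g.2, hz, hu]
    rw [← hd, hX, h3, ei, ej]
    conv_lhs => rw [← e, aut_dot h2 g, dot_comm]
    exact T.ijl
  rw [dot_coord] at x1 x2 x3 x4
  have y1 : X.fst.re = 0 := by simpa using x1
  have y2 : X.fst.imI = 0 := by simpa [gi, ha] using x2
  have y3 : X.fst.imJ = 0 := by simpa [gj, hb] using x3
  have y4 : X.fst.imK = 0 := by simpa [gi, gj, ha, hb] using x4
  obtain ⟨s, hs⟩ : ∃ s, s = X.snd := ⟨_, rfl⟩
  have hXY : X = Y s := by
    apply Oct.ext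
    · ext
      · exact y1
      · exact y2
      · exact y3
      · exact y4
    · exact hs.symm
  have hns : nrd s = 1 := by
    have e : norm X = -c' := by rw [← h4, hX, Oct.aut_norm, hnm]
    rw [hXY, norm_Y] at e
    have : (-c' : F) * (nrd s - 1) = 0 := by linear_combination e
    have := (mul_eq_zero.mp this).resolve_left (neg_ne_zero.mpr hc)
    linear_combination this
  obtain ⟨t, ht⟩ := exists_SL1B hns
  refine ⟨t, ?_, ?_⟩
  · have f1 : (conjA Φ h3 (long a' b' c' t)).1 z = z := by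
      change Φ ((long a' b' c' t).1 (Φ.symm z)) = z
      rw [← ei, Φ.symm_apply_apply, long_gi]
    have f2 : (conjA Φ h3 (long a' b' c' t)).1 u = u := by
      change Φ ((long a' b' c' t).1 (Φ.symm u)) = u
      rw [← ej, Φ.symm_apply_apply, long_gj]
    have f3 : (conjA Φ h3 (long a' b' c' t)).1 m = g.1 m := by
      change Φ ((long a' b' c' t).1 (Φ.symm m)) = g.1 m
      rw [← hX, ← el, Φ.symm_apply_apply, long_gl, hXY, ht]
    apply Subtype.ext
    apply LinearEquiv.ext
    intro w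
    rw [eq_mv h2 T hz hu w, eq_mv h2 T f1 f2 w, f3]
  · have f : g.1 m - m = Φ (Y (s - 1)) := by
      rw [← hX, hXY, ← Y_sub, map_sub]
      congr 1
      rw [← el]; rfl
    rw [f, h4, norm_Y, hnm, mul_div_cancel_left₀ _ (neg_ne_zero.mpr hc), ht]
    simp only [nrd, QuaternionAlgebra.re_sub, QuaternionAlgebra.imI_sub, QuaternionAlgebra.imJ_sub,
      QuaternionAlgebra.imK_sub, QuaternionAlgebra.re_one, QuaternionAlgebra.imI_one,
      QuaternionAlgebra.imJ_one, QuaternionAlgebra.imK_one] at hns ⊢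
    linear_combination hns

end alg

variable {k : Type} [Field k] [NumberField k] {a b c a' b' c' : kˣ}

theorem comap_index {G H : Type} [Group G] [Group H] (f : G →* H) {N : Subgroup H}
    (hN : N.Normal) (hfin : N.index ≠ 0) : (N.comap f).index ≠ 0 := by
  rw [Subgroup.index_comap]
  exact fun h => hfin (by
    have := Subgroup.relIndex_dvd_index_of_normal N f.range
    rw [h] at this
    exact Nat.eq_zero_of_zero_dvd this)

/-- Transfer of the congruence theorem. -/
theorem hasL (hdiv : Division a b c) (N : Subgroup (AutC a b c)) (hN : N.Normal)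
    (hi : N.index ≠ 0) {e : ℕ} (he : 0 < e) (hexp : ∀ g : AutC a b c, g ^ e ∈ N) {V : Set k}
    (hV : ∀ x ∈ V, ∀ w : HeightOneSpectrum (𝓞 k), Ram a' b' w →
      w.valuation k x < w.valuation k (4 * (e : k) ^ 4)) : HasL N V a' b' := by
  intro c' z u m T g hz hu hg
  have h2 : (2 : k) ≠ 0 := two_ne_zero
  obtain ⟨Φ, h1, h3, -, h4⟩ := Oct.exists_emb T
  obtain ⟨t, ht, hre⟩ := exists_long h2 T Φ h1 h3 h4 hz hu
  rw [hre] at hg
  have hab := (Oct.aniso_of_trip hdiv T).1
  have hN' : (N.comap ((conjA Φ h3).comp (long a' b' c'))).Normal := hN.comap _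
  have := sl_near hab he (N.comap ((conjA Φ h3).comp (long a' b' c'))) hN' (comap_index _ hN hi)
    (fun x => by rw [Subgroup.mem_comap, map_pow]; exact hexp _) t (fun w hw => hV _ hg w hw)
  rw [Subgroup.mem_comap] at this
  rw [ht]
  exact this

end Vale.Agent.P011.D4.B
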