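import Vale.Agent.P011.D4.BFix

/-!
Facts on the topology of the number field given by a finite set of places.
-/

open NumberField IsDedekindDomain Topology

namespace Vale.Agent.P011.D4.B

open Vale.Agent.P011.MPQ Vale.Agent.P011.D4 Vale.Agent.P011.D4.Oct Vale.Agent.P011.Arith

variable {k : Type} [Field k] [NumberField k] {a b c : kˣ} {S : Set (Pl k)}

/-- Neighbourhoods of quaternions. -/
theorem exists_eps (hS : S.Finite) {A : Set (Qt a b)} {x₀ : Qt a b}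
    (hA : A ∈ @nhds (Qt a b) (@qTop k _ a b (topS S)) x₀) : ∃ ε : ℝ, 0 < ε ∧ ∀ x : Qt a b,
      (∀ p ∈ S, QIn {y | plAbv p y < ε} (x - x₀)) → x ∈ A := by
  let _ := topS S
  have h1 : A ∈ 𝓝 x₀ := hA
  rw [nhds_induced, Filter.mem_comap] at h1
  obtain ⟨B, hB, hBA⟩ := h1
  have h2 : B ∈ 𝓝 (x₀.re, (x₀.imI, (x₀.imJ, x₀.imK))) := hB
  rw [mem_nhds_prod_iff] at h2
  obtain ⟨U1, hU1, U2, hU2, h2⟩ := h2
  rw [mem_nhds_prod_iff] at hU2
  obtain ⟨U3, hU3, U4, hU4, h3⟩ := hU2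
  rw [mem_nhds_prod_iff] at hU4
  obtain ⟨U5, hU5, U6, hU6, h4⟩ := hU4
  obtain ⟨ε1, hε1, g1⟩ := (nhds_topS hS _ _).mp hU1
  obtain ⟨ε2, hε2, g2⟩ := (nhds_topS hS _ _).mp hU3
  obtain ⟨ε3, hε3, g3⟩ := (nhds_topS hS _ _).mp hU5
  obtain ⟨ε4, hε4, g4⟩ := (nhds_topS hS _ _).mp hU6
  refine ⟨min (min ε1 ε2) (min ε3 ε4), by positivity, fun x hx => hBA ?_⟩
  change (x.re, (x.imI, (x.imJ, x.imK))) ∈ B
  refine h2 ⟨g1 _ fun p hp => ?_, h3 ⟨g2 _ fun p hp => ?_, h4 ⟨g3 _ fun p hp => ?_,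
    g4 _ fun p hp => ?_⟩⟩⟩
  · exact (hx p hp).1.trans_le ((min_le_left _ _).trans (min_le_left _ _))
  · exact (hx p hp).2.1.trans_le ((min_le_left _ _).trans (min_le_right _ _))
  · exact (hx p hp).2.2.1.trans_le ((min_le_right _ _).trans (min_le_left _ _))
  · exact (hx p hp).2.2.2.trans_le ((min_le_right _ _).trans (min_le_right _ _))

theorem exists_min_pos (hS : S.Finite) (f : Pl k → ℝ) (hf : ∀ p, 0 < f p) :
    ∃ ε : ℝ, 0 < ε ∧ ∀ p ∈ S, ε ≤ f p := by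
  have hfin : Finite S := hS
  by_cases hne : Nonempty S
  · obtain ⟨p0, hp0⟩ := Finite.exists_min (fun p : S => f p)
    exact ⟨f p0, hf _, fun p hp => hp0 ⟨p, hp⟩⟩
  · exact ⟨1, one_pos, fun p hp => absurd ⟨⟨p, hp⟩⟩ hne⟩

/-- Small elements form a neighbourhood. -/
theorem small_mem (hS : S.Finite) {t : k} (ht : t ≠ 0) :
    {x : k | ∀ w : HeightOneSpectrum (𝓞 k), (Sum.inl w : Pl k) ∈ S →
      w.valuation k x < w.valuation k t} ∈ @nhds k (topS S) 0 := by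
  rw [nhds_topS hS]
  obtain ⟨ε, hε, h⟩ := exists_min_pos hS (fun p => plAbv p t) (fun p => (plAbv p).pos ht)
  refine ⟨ε, hε, fun y hy w hw => ?_⟩
  have h1 := (hy _ hw).trans_le (h _ hw)
  rw [sub_zero] at h1
  exact (plAbv_lt w _ _).mp h1

/-- The topology is separated. -/
theorem t1_topS (hS : S.Finite) (hne : S.Nonempty) : @T1Space k (topS S) := by
  let _ := topS S
  refine ⟨fun x => ?_⟩
  rw [← isOpen_compl_iff, isOpen_iff_mem_nhds]
  intro y hy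
  rw [nhds_topS hS]
  obtain ⟨p, hp⟩ := hne
  refine ⟨plAbv p (x - y), (plAbv p).pos (sub_ne_zero.mpr (Ne.symm hy)), fun z hz hzx => ?_⟩
  rw [Set.mem_singleton_iff] at hzx
  rw [hzx] at hz
  exact lt_irrefl _ (hz p hp)

/-- Nonzero small elements. -/
theorem exists_small_ne (hS : S.Finite) (hne : S.Nonempty) {U : Set k}
    (hU : U ∈ @nhds k (topS S) 0) : ∃ s ∈ U, s ≠ 0 := by
  obtain ⟨ε, hε, h⟩ := (nhds_topS hS _ _).mp hU
  have hz : ∀ p : Pl k, ∃ z : k, z ≠ 0 ∧ plAbv p z < ε / 2 := by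
    intro p
    obtain ⟨x, hx0, hx1⟩ := plAbv_nontrivial p
    obtain ⟨y, hy0, hy1⟩ : ∃ y : k, y ≠ 0 ∧ plAbv p y < 1 := by
      rcases lt_or_gt_of_ne hx1 with h | h
      · exact ⟨x, hx0, h⟩
      · refine ⟨x⁻¹, inv_ne_zero hx0, ?_⟩
        rw [map_inv₀]
        exact inv_lt_one_of_one_lt₀ h
    obtain ⟨n, hn⟩ := exists_pow_lt_of_lt_one (half_pos hε) hy1
    exact ⟨y ^ n, pow_ne_zero _ hy0, by rwa [map_pow]⟩
  choose z hz0 hz1 using hz
  obtain ⟨f, hf⟩ := approx S hS z (fun p => plAbv p (z p)) (fun p => (plAbv p).pos (hz0 p))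
  refine ⟨f, h f fun p hp => ?_, ?_⟩
  · have h1 := hf p hp
    have h2 := (plAbv p).add_le (f - z p) (z p)
    rw [sub_add_cancel] at h2
    have h3 := hz1 p
    rw [sub_zero]
    linarith
  · rintro rfl
    obtain ⟨p, hp⟩ := hne
    have h1 := hf p hp
    rw [zero_sub, (plAbv p).map_neg] at h1
    exact lt_irrefl _ h1

/-- Elements of norm one of a quadratic extension close to one. -/
theorem exists_pq (hS : S.Finite) (hne : S.Nonempty) (a : kˣ) {V : Set k}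
    (hV : V ∈ @nhds k (topS S) 0) : ∃ p q : k, p ^ 2 - a * q ^ 2 = 1 ∧ 2 - 2 * p ∈ V ∧ p ≠ 1 := by
  let _ := topS S
  have i1 : IsTopologicalRing k := topS_ring
  have i2 : ContinuousInv₀ k := topS_inv
  have i3 : T1Space k := t1_topS hS hne
  have ha : (a : k) ≠ 0 := a.ne_zero
  have c1 : ContinuousAt (fun s : k => 1 - s ^ 2 * (a : k)) 0 := by fun_prop
  have c2 : ContinuousAt (fun s : k => -4 * s ^ 2 * a * (1 - s ^ 2 * (a : k))⁻¹) 0 := by
    have h1 := c1.inv₀ (by simp)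
    have h2 : ContinuousAt (fun s : k => -4 * s ^ 2 * (a : k)) 0 := by fun_prop
    exact h2.mul h1
  have e1 : ∀ᶠ s : k in 𝓝 0, (1 - s ^ 2 * (a : k)) ≠ 0 := c1.eventually_ne (by simp)
  have e2 : ∀ᶠ s : k in 𝓝 0, -4 * s ^ 2 * a * (1 - s ^ 2 * (a : k))⁻¹ ∈ V := by
    refine c2.eventually_mem ?_
    simpa using hV
  obtain ⟨s, ⟨hs1, hs2⟩, hs0⟩ := exists_small_ne hS hne (U := {s | _ ∧ _}) (e1.and e2)
  refine ⟨(1 + s ^ 2 * a) / (1 - s ^ 2 * a), 2 * s / (1 - s ^ 2 * a), ?_, ?_, ?_⟩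
  · field_simp
    ring
  · convert hs2 using 1
    field_simp
    ring
  · intro h
    rw [div_eq_iff hs1] at h
    have : (2 : k) * (s ^ 2 * a) = 0 := by linear_combination h
    exact (mul_ne_zero two_ne_zero (mul_ne_zero (pow_ne_zero 2 hs0) ha)) this

/-- A division octonion algebra forces a real place. -/
theorem exists_real (hdiv : Division a b c) : Nonempty (k →+* ℝ) := by
  by_contra hne
  obtain ⟨q, hq⟩ := exists_nrd (a := a) (b := b) c (fun φ => absurd ⟨φ⟩ hne)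
  have h1 := hdiv ⟨q, 1⟩ (by
    rw [Oct.norm]
    simp only
    rw [hq, nrd_one]
    ring)
  have h2 := congrArg (fun x : Oct a b c => x.snd.re) h1
  simp at h2

end Vale.Agent.P011.D4.B
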