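import Vale.Agent.P011.D4.BAlg

/-!
Octonions: moves.
-/

open NumberField IsDedekindDomain Topology

namespace Vale.Agent.P011.D4.B

open Vale.Agent.P011.MPQ Vale.Agent.P011.D4 Vale.Agent.P011.D4.Oct

variable {F : Type} [Field F] {a b c a' b' c' : Fˣ}

theorem trip_of {z u m : Oct a b c} (h : Pair z u) (hm : Perp z u m)
    (ha : (a' : F) = -norm z) (hb : (b' : F) = -norm u) (hc : (c' : F) = -norm m) :
    Trip a' b' c' z u m :=
  ⟨h.sz, h.su, hm.star, by rw [ha]; exact mul_self_of_star h.sz,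
    by rw [hb]; exact mul_self_of_star h.su, by rw [hc]; exact mul_self_of_star hm.star, h.zu,
    by rw [dot_comm]; exact hm.pz, by rw [dot_comm]; exact hm.pu, by rw [dot_comm]; exact hm.pzu⟩

theorem emb_gi (i j l : Oct a b c) : emb i j l (gi : Oct a' b' c') = i := by
  simp [emb, qemb, gi]

theorem emb_gj (i j l : Oct a b c) : emb i j l (gj : Oct a' b' c') = j := by
  simp [emb, qemb, gj]

theorem emb_gl (i j l : Oct a b c) : emb i j l (gl : Oct a' b' c') = l := by
  simp [emb, qemb, gl]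

theorem emb_one (i j l : Oct a b c) : emb i j l (1 : Oct a' b' c') = 1 := by
  simp [emb, qemb]

/-- Two basic triples with the same squares are conjugate. -/
theorem exists_aut (h2 : (2 : F) ≠ 0) {i j l i' j' l' : Oct a b c} (h : Trip a' b' c' i j l)
    (h' : Trip a' b' c' i' j' l') : ∃ g : AutC a b c, ∀ x : Oct a' b' c',
      g.1 (emb i j l x) = emb i' j' l' x := by
  have : NeZero (2 : F) := ⟨h2⟩
  obtain ⟨Φ, h1, h5, -, -⟩ := Oct.exists_emb h
  obtain ⟨Ψ, h3, h4, -, -⟩ := Oct.exists_emb h'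
  refine ⟨⟨Φ.symm.trans Ψ, fun x y => ?_⟩, fun x => ?_⟩
  · have h : Φ.symm (x * y) = Φ.symm x * Φ.symm y := by
      apply Φ.injective
      rw [h5, Φ.apply_symm_apply, Φ.apply_symm_apply, Φ.apply_symm_apply]
    change Ψ (Φ.symm (x * y)) = Ψ (Φ.symm x) * Ψ (Φ.symm y)
    rw [h, h4]
  · change Ψ (Φ.symm (emb i j l x)) = _
    rw [← h1, Φ.symm_apply_apply, h3]

theorem dot_of_norm (h2 : (2 : F) ≠ 0) {f : Oct a' b' c' → Oct a b c}
    (hf : ∀ x y, f (x + y) = f x + f y) (hn : ∀ x, norm (f x) = norm x) (x y : Oct a' b' c') :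
    dot (f x) (f y) = dot x y := by
  have h := hn (x + y)
  rw [hf, norm_add, norm_add, hn, hn] at h
  exact mul_left_cancel₀ h2 (add_left_cancel h)

theorem aut_dot (h2 : (2 : F) ≠ 0) (g : AutC a b c) (x y : Oct a b c) :
    dot (g.1 x) (g.1 y) = dot x y :=
  dot_of_norm h2 (map_add g.1) (Oct.aut_norm g) x y

/-- The projection in terms of the embedding. -/
theorem proj_emb (h2 : (2 : F) ≠ 0) {z u m : Oct a b c} (h : Trip a' b' c' z u m)
    (x : Oct a' b' c') : proj z u (emb z u m x) = qemb z u x.fst := by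
  have : NeZero (2 : F) := ⟨h2⟩
  obtain ⟨Φ, h1, h3, -, h4⟩ := Oct.exists_emb h
  have hd : ∀ x y, dot (Φ x) (Φ y) = dot x y := fun x y => dot_of_norm h2 (map_add Φ) h4 x y
  have e1 : Φ 1 = 1 := by rw [h1, emb_one]
  have ei : Φ gi = z := by rw [h1, emb_gi]
  have ej : Φ gj = u := by rw [h1, emb_gj]
  have ha : (a' : F) ≠ 0 := a'.ne_zero
  have hb : (b' : F) ≠ 0 := b'.ne_zero
  rw [← h1, proj]
  conv_lhs => rw [← e1, ← ei, ← ej, ← h3]
  rw [hd, hd, hd, hd, h4, h4, h4, h3, e1, ei, ej]
  have c1 : dot x 1 = x.fst.re := by rw [dot_coord]; simp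
  have c2 : dot x gi / norm (gi : Oct a' b' c') = x.fst.imI := by
    rw [dot_coord, norm_coord]; simp [gi]
  have c3 : dot x gj / norm (gj : Oct a' b' c') = x.fst.imJ := by
    rw [dot_coord, norm_coord]; simp [gj]
  have c4 : dot x (gi * gj) / Oct.norm ((gi : Oct a' b' c') * gj) = x.fst.imK := by
    rw [dot_coord, norm_coord]; simp [gi, gj]
  rw [c1, c2, c3, c4, qemb]

/-- The move carrying `m` to `m'`. -/
noncomputable def mv (z u m m' w : Oct a b c) : Oct a b c :=
  proj z u w + (norm m)⁻¹ • (((w - proj z u w) * star m) * m')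

theorem move_apply (h2 : (2 : F) ≠ 0) {z u m m' : Oct a b c} (h : Trip a' b' c' z u m)
    {g : AutC a b c} (hg : ∀ x : Oct a' b' c', g.1 (emb z u m x) = emb z u m' x)
    (w : Oct a b c) : g.1 w = mv z u m m' w := by
  have : NeZero (2 : F) := ⟨h2⟩
  obtain ⟨Φ, h1, h3, -, h4⟩ := Oct.exists_emb h
  obtain ⟨x, rfl⟩ := Φ.surjective w
  have hm0 : norm m ≠ 0 := by
    rw [norm_of_sq h.sl h.ll]
    exact neg_ne_zero.mpr c'.ne_zero
  rw [h1, hg, mv, proj_emb h2 h, emb, emb, add_sub_cancel_left, mul_mul_star, smul_mul', smul_smul,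
    inv_mul_cancel₀ hm0, one_smul]

/-- Existence of a move. -/
theorem exists_move (h2 : (2 : F) ≠ 0) {z u m m' : Oct a b c} (h : Trip a' b' c' z u m)
    (h' : Trip a' b' c' z u m') : ∃ g : AutC a b c, (∀ w, g.1 w = mv z u m m' w) ∧ g.1 z = z ∧
      g.1 u = u ∧ g.1 m = m' := by
  obtain ⟨g, hg⟩ := exists_aut h2 h h'
  refine ⟨g, move_apply h2 h hg, ?_, ?_, ?_⟩
  · have := hg gi; rwa [emb_gi, emb_gi] at this
  · have := hg gj; rwa [emb_gj, emb_gj] at this
  · have := hg gl; rwa [emb_gl, emb_gl] at this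

/-- Automorphisms fixing `z` and `u` are moves. -/
theorem eq_mv (h2 : (2 : F) ≠ 0) {z u m : Oct a b c} (h : Trip a' b' c' z u m) {g : AutC a b c}
    (hz : g.1 z = z) (hu : g.1 u = u) (w : Oct a b c) : g.1 w = mv z u m (g.1 m) w := by
  apply move_apply h2 h
  intro x
  have hq : ∀ q : Qt a' b', g.1 (qemb z u q) = qemb z u q := by
    intro q
    rw [qemb, map_add, map_add, map_add, map_smul, map_smul, map_smul, map_smul, Oct.aut_one,
      g.2, hz, hu]
  rw [emb, map_add, g.2, hq, hq, emb]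

theorem proj_perp {z u w : Oct a b c} (h : Perp z u w) : proj z u w = 0 := by
  rw [proj, h.p1, h.pz, h.pu, h.pzu]
  simp

theorem proj_add (z u x y : Oct a b c) : proj z u (x + y) = proj z u x + proj z u y := by
  simp only [proj, dot_add_left, add_smul, add_div]
  abel

theorem proj_sub (z u x y : Oct a b c) : proj z u (x - y) = proj z u x - proj z u y := by
  simp only [proj, dot_sub_left, sub_smul, sub_div]
  abel

/-- An element of the orthogonal complement and an element of the span are orthogonal. -/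
theorem dot_proj {z u w x : Oct a b c} (h : Perp z u w) : dot w (proj z u x) = 0 := by
  rw [proj, dot_add_right, dot_add_right, dot_add_right, dot_smul_right, dot_smul_right,
    dot_smul_right, dot_smul_right, h.p1, h.pz, h.pu, h.pzu]
  ring

theorem norm_proj (h2 : (2 : F) ≠ 0) {z u : Oct a b c} (h : Pair z u) (w : Oct a b c) :
    norm w = norm (proj z u w) + norm (w - proj z u w) := by
  have h1 : w = proj z u w + (w - proj z u w) := by abel
  conv_lhs => rw [h1, norm_add, dot_comm, dot_proj (perp_sub_proj h2 h w), mul_zero, add_zero]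

/-- The basic move: two vectors with the same norm whose difference is orthogonal to the
quaternion algebra are conjugate under an automorphism fixing it. -/
theorem exists_move_of (h2 : (2 : F) ≠ 0) (hdiv : Division a b c) {z u x y : Oct a b c}
    (h : Pair z u) (hn : norm x = norm y) (hp : Perp z u (y - x)) (hne : y ≠ x) :
    ∃ m, m = x - proj z u x ∧ norm m ≠ 0 ∧ ∃ a' b' c' : Fˣ, (a' : F) = -norm z ∧
      (b' : F) = -norm u ∧ Trip a' b' c' z u m ∧ ∃ g : AutC a b c,
        (∀ w, g.1 w = mv z u m (m + (y - x)) w) ∧ g.1 z = z ∧ g.1 u = u ∧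
          g.1 m = m + (y - x) ∧ g.1 x = y := by
  have hpr : proj z u y = proj z u x := by
    have := proj_perp hp
    rw [proj_sub, sub_eq_zero] at this
    exact this
  obtain ⟨m, hm⟩ : ∃ m, m = x - proj z u x := ⟨_, rfl⟩
  have hmp : Perp z u m := by rw [hm]; exact perp_sub_proj h2 h x
  have hm' : m + (y - x) = y - proj z u y := by rw [hm, hpr]; abel
  have hmp' : Perp z u (m + (y - x)) := hmp.add hp
  have hnm : norm (m + (y - x)) = norm m := by
    rw [hm', hm]
    have e1 := norm_proj h2 h x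
    have e2 := norm_proj h2 h y
    rw [hpr] at e2 ⊢
    rw [e1, e2] at hn
    exact (add_left_cancel hn).symm
  have hm0 : norm m ≠ 0 := by
    intro h0
    have h1 : m = 0 := hdiv _ h0
    rw [h1, zero_add, norm_coord, ← norm_coord] at hnm
    have h3 : y - x = 0 := hdiv _ (by rw [hnm, ← h1]; exact h0)
    exact hne (sub_eq_zero.mp h3)
  refine ⟨m, hm, hm0, Units.mk0 (-norm z) (neg_ne_zero.mpr h.nz),
    Units.mk0 (-norm u) (neg_ne_zero.mpr h.nu), Units.mk0 (-norm m) (neg_ne_zero.mpr hm0), rfl,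
    rfl, trip_of h hmp rfl rfl rfl, ?_⟩
  obtain ⟨g, h3, h4, h5, h6⟩ := exists_move h2 (trip_of (a' := Units.mk0 (-norm z) (neg_ne_zero.mpr h.nz))
    (b' := Units.mk0 (-norm u) (neg_ne_zero.mpr h.nu))
    (c' := Units.mk0 (-norm m) (neg_ne_zero.mpr hm0)) h hmp rfl rfl rfl)
    (trip_of h hmp' rfl rfl (by rw [hnm]; rfl))
  refine ⟨g, h3, h4, h5, h6, ?_⟩
  have e1 : x = proj z u x + m := by rw [hm]; abel
  have e2 : g.1 (proj z u x) = proj z u x := by
    rw [proj, map_add, map_add, map_add, map_smul, map_smul, map_smul, map_smul, Oct.aut_one,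
      g.2, h4, h5]
  calc g.1 x = g.1 (proj z u x + m) := by rw [← e1]
    _ = proj z u x + (m + (y - x)) := by rw [map_add, e2, h6]
    _ = y := by rw [hm]; abel

end Vale.Agent.P011.D4.B
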