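import Vale.Agent.P011.D4.BTop

/-!
Long elements close to one are products of three elements of other long subgroups.
-/

open NumberField IsDedekindDomain Topology

namespace Vale.Agent.P011.D4.B

open Vale.Agent.P011.MPQ Vale.Agent.P011.D4 Vale.Agent.P011.D4.Oct

variable {F : Type} [Field F] {a b c a' b' c' : Fˣ}

/-- The vector `t * l`. -/
def Y (t : Qt a b) : Oct a b c := ⟨0, t⟩

theorem Y_sub (s t : Qt a b) : (Y s : Oct a b c) - Y t = Y (s - t) := by
  ext1 <;> simp [Y]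

theorem norm_Y (t : Qt a b) : norm (Y t : Oct a b c) = -c * nrd t := by
  simp [Oct.norm, Y, nrd]

theorem star_Y (t : Qt a b) : star (Y t : Oct a b c) = -Y t := by
  ext1 <;> simp [Y]

theorem gi_Y (t : Qt a b) : (gi : Oct a b c) * Y t = Y (t * ⟨0, 1, 0, 0⟩) := by
  ext1 <;> simp [Y, gi]

theorem pair_gi_Y {t : Qt a b} (ht : norm (Y t : Oct a b c) ≠ 0) : Pair (gi : Oct a b c) (Y t) :=
  ⟨(Oct.trip_std).si, star_Y t, by
    rw [norm_of_sq (Oct.trip_std (a := a) (b := b) (c := c)).si Oct.trip_std.ii]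
    exact neg_ne_zero.mpr a.ne_zero, ht, by rw [dot_coord]; simp [gi, Y]⟩

/-- The data of the exact solution: if `norm v` is close to `norm u0` then `u0` can be multiplied
by a quaternion such that its norm becomes exactly `norm v`. -/
theorem exists_exact (h2 : (2 : F) ≠ 0) {z d u0 : Oct a b c} (h : Trip a' b' c' z d u0)
    (q : Qt a' b') :
    norm (qemb z d q * u0) = nrd q * norm u0 ∧ Perp z d (qemb z d q * u0) := by
  have : NeZero (2 : F) := ⟨h2⟩
  obtain ⟨Φ, h1, h3, -, h4⟩ := Oct.exists_emb h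
  have hd : ∀ x y, dot (Φ x) (Φ y) = dot x y := fun x y => dot_of_norm h2 (map_add Φ) h4 x y
  have e1 : Φ 1 = 1 := by rw [h1, emb_one]
  have ei : Φ gi = z := by rw [h1, emb_gi]
  have ej : Φ gj = d := by rw [h1, emb_gj]
  have eu : Φ (Y q) = qemb z d q * u0 := by
    rw [h1, emb, Y]
    simp [qemb]
  have el : Φ gl = u0 := by rw [h1, emb_gl]
  refine ⟨?_, ?_, ?_, ?_, ?_⟩
  · rw [← eu, h4, norm_Y, ← el, h4, mul_comm]
    congr 1
    rw [norm_coord]; simp [gl]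
  · rw [← eu, ← e1, hd, dot_coord]; simp [Y]
  · rw [← eu, ← ei, hd, dot_coord]; simp [Y, gi]
  · rw [← eu, ← ej, hd, dot_coord]; simp [Y, gj]
  · rw [← eu, ← ei, ← ej, ← h3, hd, dot_coord]; simp [Y, gi, gj]

/-- The property of a subgroup: it contains the automorphisms fixing a basic pair with squares
`a'`, `b'` which are close to one. -/
def HasL (N : Subgroup (AutC a b c)) (V : Set F) (a' b' : Fˣ) : Prop :=
  ∀ (c' : Fˣ) (z u m : Oct a b c), Trip a' b' c' z u m → ∀ g : AutC a b c, g.1 z = z → g.1 u = u →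
    norm (g.1 m - m) / norm m ∈ V → g ∈ N

theorem perp_comm {z u w : Oct a b c} (h2 : (2 : F) ≠ 0) (h : Pair z u) (hw : Perp z u w) :
    Perp z w u := by
  refine ⟨dot_one_of_star h2 h.su, by rw [dot_comm]; exact h.zu, by rw [dot_comm]; exact hw.pu, ?_⟩
  rw [dot_comm, dot_mul_left, h.sz, neg_mul, dot_neg_right, hw.pzu, neg_zero]

theorem trip_swap : Trip a c b (gi : Oct a b c) gl gj := by
  have h := Oct.trip_std (a := a) (b := b) (c := c)
  refine ⟨h.si, h.sl, h.sj, h.ii, h.ll, h.jj, h.il, h.ij, by rw [dot_comm]; exact h.jl, ?_⟩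
  rw [dot_coord]; simp [gi, gl, gj]

/-- The algebraic end of the near step. -/
theorem final_alg (h2 : (2 : F) ≠ 0) (hdiv : Division a b c) (N : Subgroup (AutC a b c))
    {c1 : Fˣ} {V : Set F} (hL1 : HasL N V a c1) (hL2 : HasL N V a c) {y1 : Oct a b c}
    (hny1 : norm y1 = -c) {P : AutC a b c} (hPN : P ∈ N) (hP1 : P.1 gi = gi) (hP3 : P.1 gl = y1)
    {t : SL1 a b} {x : Qt a b} (hx : x = ((t : (Qt a b)ˣ) : Qt a b)) {u : Oct a b c}
    (Pu : Pair gi u) (hun : norm u = -c1) (hp : Perp gi u (Y x - y1)) (hD : (Y x : Oct a b c) ≠ y1)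
    (hG1 : norm ((Y x : Oct a b c) - y1) / norm (y1 - proj gi u y1) ∈ V)
    (hG2 : norm ((gj : Oct a b c) - mv gi u (y1 - proj gi u y1)
      ((y1 - proj gi u y1) + ((Y x : Oct a b c) - y1)) (P.1 gj)) / norm (gj : Oct a b c) ∈ V) :
    long a b c t ∈ N := by
  have hg := Oct.trip_std (a := a) (b := b) (c := c)
  have hgi : norm (gi : Oct a b c) = -a := norm_of_sq hg.si hg.ii
  have hnt : nrd x = 1 := by rw [hx]; exact t.2
  have hnY : norm (Y x : Oct a b c) = -c := by rw [norm_Y, hnt, mul_one]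
  obtain ⟨m, hm, hm0, α, β, γ, hα, hβ, T4, φ, hφ, hφ1, hφ2, hφ3, hφ4⟩ := exists_move_of h2 hdiv
    (x := y1) (y := Y x) Pu (by rw [hny1, hnY]) hp hD
  have hαa : α = a := Units.ext (by rw [hα, hgi, neg_neg])
  have hβc : β = c1 := Units.ext (by rw [hβ, hun, neg_neg])
  rw [hαa, hβc] at T4
  have hφN : φ ∈ N := by
    refine hL1 γ gi u m T4 φ hφ1 hφ2 ?_
    rw [hφ3, add_sub_cancel_left, hm]
    exact hG1
  obtain ⟨g, hgd⟩ : ∃ g, g = long a b c t := ⟨_, rfl⟩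
  have hgi' : g.1 gi = gi := by
    rw [hgd]; apply Oct.ext
    · rfl
    · change ((t : (Qt a b)ˣ) : Qt a b) * 0 = 0; exact mul_zero _
  have hgj' : g.1 gj = gj := by
    rw [hgd]; apply Oct.ext
    · rfl
    · change ((t : (Qt a b)ˣ) : Qt a b) * 0 = 0; exact mul_zero _
  have hgl' : g.1 gl = Y x := by
    rw [hgd, hx]; apply Oct.ext
    · rfl
    · change ((t : (Qt a b)ˣ) : Qt a b) * 1 = _; exact mul_one _
  rw [← hgd]
  have hinv : ∀ (f : AutC a b c) (x : Oct a b c), f⁻¹.1 (f.1 x) = x := fun f x => by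
    have : (f⁻¹ * f).1 x = x := by rw [inv_mul_cancel]; rfl
    exact this
  obtain ⟨g', hg'⟩ : ∃ g', g' = P⁻¹ * (φ⁻¹ * g) := ⟨_, rfl⟩
  have hgg : g = φ * (P * g') := by rw [hg']; group
  have hg'a : ∀ x, g'.1 x = P⁻¹.1 (φ⁻¹.1 (g.1 x)) := fun x => by rw [hg']; rfl
  have e1 : g'.1 gi = gi := by
    rw [hg'a, hgi']
    conv_lhs => rw [← hφ1, hinv, ← hP1, hinv]
  have e2 : g'.1 gl = gl := by
    rw [hg'a, hgl', ← hφ4, hinv, ← hP3, hinv]
  have hg'N : g' ∈ N := by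
    refine hL2 b gi gl gj trip_swap g' e1 e2 ?_
    have e3 : Oct.norm (g'.1 gj - gj) = Oct.norm ((gj : Oct a b c) - φ.1 (P.1 gj)) := by
      rw [← Oct.aut_norm P, ← Oct.aut_norm φ, map_sub, map_sub]
      congr 2
      have : φ.1 (P.1 (g'.1 gj)) = g.1 gj := by rw [hgg]; rfl
      rw [this, hgj']
    rw [e3, hφ, hm]
    exact hG2
  rw [hgg]
  exact N.mul_mem hφN (N.mul_mem hPN hg'N)

variable [TopologicalSpace F] [IsTopologicalRing F] [ContinuousInv₀ F]

omit [IsTopologicalRing F] [ContinuousInv₀ F] in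
theorem cont_Y : Continuous (Y : Qt a b → Oct a b c) := by
  refine cont_o ?_ ?_
  · exact continuous_const
  · exact continuous_id

theorem contAt_proj {X : Type*} [TopologicalSpace X] {f g : X → Oct a b c} {x₀ : X}
    (hf : ContinuousAt f x₀) (hg : ContinuousAt g x₀) {z : Oct a b c} (hz : norm z ≠ 0)
    (h0 : norm (f x₀) ≠ 0) : ContinuousAt (fun x => proj z (f x) (g x)) x₀ := by
  have h1 : norm (z * f x₀) ≠ 0 := by rw [Oct.norm_mul]; exact mul_ne_zero hz h0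
  have c1 : ContinuousAt (fun x => norm (f x)) x₀ := by fun_prop
  have c2 : ContinuousAt (fun x => norm (z * f x)) x₀ := by fun_prop
  have c3 := c1.inv₀ h0
  have c4 := c2.inv₀ h1
  unfold proj
  simp only [div_eq_mul_inv]
  fun_prop

theorem contAt_mv {X : Type*} [TopologicalSpace X] {f m m' : X → Oct a b c} {x₀ : X}
    (hf : ContinuousAt f x₀) (hm : ContinuousAt m x₀) (hm' : ContinuousAt m' x₀) {z : Oct a b c}
    (hz : norm z ≠ 0) (h0 : norm (f x₀) ≠ 0) (h1 : norm (m x₀) ≠ 0) (w : Oct a b c) :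
    ContinuousAt (fun x => mv z (f x) (m x) (m' x) w) x₀ := by
  have c1 : ContinuousAt (fun x => norm (m x)) x₀ := by fun_prop
  have c2 := c1.inv₀ h1
  have c3 := contAt_proj hf (continuousAt_const (y := w)) hz h0
  unfold mv
  fun_prop

variable [T1Space F]

/-- The exact solution of the norm equation. -/
theorem exists_u (h2 : (2 : F) ≠ 0) (hNT : NT F) (hdiv : Division a b c) {j1 : Oct a b c}
    (hj : Pair gi j1) {κ : Qt a b} {y1 : Oct a b c} (hy1 : y1 = Y κ)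
    (hD1 : norm ((Y 1 : Oct a b c) - y1) ≠ 0) (hperp : Perp gi ((Y 1 : Oct a b c) - y1) j1)
    {B : Set (Oct a b c)} (hB : B ∈ 𝓝 j1) : ∀ᶠ t : Qt a b in 𝓝 1,
      (Y t : Oct a b c) ≠ y1 ∧ ∃ u ∈ B, Pair gi u ∧ norm u = norm j1 ∧ Perp gi u (Y t - y1) := by
  have hg := Oct.trip_std (a := a) (b := b) (c := c)
  have hgi : norm (gi : Oct a b c) = -a := norm_of_sq hg.si hg.ii
  have hgi0 : norm (gi : Oct a b c) ≠ 0 := by rw [hgi]; exact neg_ne_zero.mpr a.ne_zero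
  have hj0 : norm j1 ≠ 0 := hj.nu
  have hYsub : ∀ t : Qt a b, (Y t : Oct a b c) - y1 = Y (t - κ) := fun t => by
    rw [hy1, Y_sub]
  have cD : ContinuousAt (fun t : Qt a b => (Y t : Oct a b c) - y1) 1 :=
    cont_Y.continuousAt.sub continuousAt_const
  have cU : ContinuousAt (fun t : Qt a b => j1 - proj gi ((Y t : Oct a b c) - y1) j1) 1 :=
    continuousAt_const.sub (contAt_proj cD continuousAt_const hgi0 hD1)
  have hU1 : j1 - proj gi ((Y 1 : Oct a b c) - y1) j1 = j1 := by rw [proj_perp hperp, sub_zero]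
  have cH : ContinuousAt (fun x : F × (Qt a b × Oct a b c) =>
      x.1 • (j1 - proj gi ((Y x.2.1 : Oct a b c) - y1) j1) + x.2.2) (1, (1, 0)) := by
    have h1 : ContinuousAt (fun x : F × (Qt a b × Oct a b c) =>
        j1 - proj gi ((Y x.2.1 : Oct a b c) - y1) j1) (1, (1, 0)) :=
      ContinuousAt.comp' (f := fun x : F × (Qt a b × Oct a b c) => x.2.1)
        (x := ((1 : F), ((1 : Qt a b), (0 : Oct a b c)))) cU (by fun_prop)
    fun_prop
  have hH : ∀ᶠ x : F × (Qt a b × Oct a b c) in 𝓝 (1, (1, 0)),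
      x.1 • (j1 - proj gi ((Y x.2.1 : Oct a b c) - y1) j1) + x.2.2 ∈ B := by
    apply cH.eventually
    simp only [hU1, one_smul, add_zero]
    exact hB
  rw [nhds_prod_eq, Filter.eventually_prod_iff] at hH
  obtain ⟨pW, hpW, pH, hpH, hH⟩ := hH
  rw [nhds_prod_eq, Filter.eventually_prod_iff] at hpH
  obtain ⟨pA2, hpA2, pO, hpO, hpH⟩ := hpH
  obtain ⟨VN, hVN, hNT⟩ := hNT {x | pW x} hpW
  have cN : ContinuousAt (fun t : Qt a b =>
      norm (j1 - proj gi ((Y t : Oct a b c) - y1) j1)) 1 := cont_norm.continuousAt.comp' cU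
  have cS : ContinuousAt (fun t : Qt a b =>
      norm j1 / norm (j1 - proj gi ((Y t : Oct a b c) - y1) j1)) 1 :=
    continuousAt_const.div cN (by rw [hU1]; exact hj0)
  have eS : ∀ᶠ t : Qt a b in 𝓝 1,
      norm j1 / norm (j1 - proj gi ((Y t : Oct a b c) - y1) j1) ∈ VN := by
    apply cS.eventually
    simp only [hU1, div_self hj0]
    exact hVN
  have eU : ∀ᶠ t : Qt a b in 𝓝 1, norm (j1 - proj gi ((Y t : Oct a b c) - y1) j1) ≠ 0 :=
    cN.eventually_ne (by rw [hU1]; exact hj0)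
  have eD : ∀ᶠ t : Qt a b in 𝓝 1, norm ((Y t : Oct a b c) - y1) ≠ 0 := by
    have h3 : ContinuousAt (fun t : Qt a b => norm ((Y t : Oct a b c) - y1)) 1 :=
      cont_norm.continuousAt.comp' cD
    exact h3.eventually_ne hD1
  filter_upwards [hpA2, eS, eU, eD] with x hA2 hS hU hD
  refine ⟨fun h => hD (by rw [h, sub_self, ← dot_self, dot_zero_left]), ?_⟩
  obtain ⟨D, hDd⟩ : ∃ D : Oct a b c, D = (Y x : Oct a b c) - y1 := ⟨_, rfl⟩
  obtain ⟨U, hUd⟩ : ∃ U : Oct a b c, U = j1 - proj gi D j1 := ⟨_, rfl⟩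
  rw [← hDd] at hS hU hD ⊢
  rw [← hUd] at hS hU
  have hDY : D = Y (x - κ) := by rw [hDd, hYsub]
  have PD : Pair (gi : Oct a b c) D := by rw [hDY]; exact pair_gi_Y (by rw [← hDY]; exact hD)
  have PU : Perp gi D U := by rw [hUd]; exact perp_sub_proj h2 PD j1
  obtain ⟨a2, ha2⟩ : ∃ a2 : Fˣ, (a2 : F) = -norm D := ⟨Units.mk0 _ (neg_ne_zero.mpr hD), rfl⟩
  obtain ⟨c2, hc2⟩ : ∃ c2 : Fˣ, (c2 : F) = -norm U := ⟨Units.mk0 _ (neg_ne_zero.mpr hU), rfl⟩
  have T3 : Trip a a2 c2 gi D U := trip_of PD PU (by rw [hgi, neg_neg]) ha2 hc2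
  have : NeZero (2 : F) := ⟨h2⟩
  have hAn : Aniso a a2 := (Oct.aniso_of_trip hdiv T3).1
  have cE : ContinuousAt (fun y : F × (F × F) =>
      (y.1 • gi + y.2.1 • D + y.2.2 • (gi * D)) * U) (0, (0, 0)) := by fun_prop
  have hE : ∀ᶠ y : F × (F × F) in 𝓝 (0, (0, 0)),
      pO ((y.1 • gi + y.2.1 • D + y.2.2 • (gi * D)) * U) := by
    apply cE.eventually
    simpa using hpO
  rw [nhds_prod_eq, Filter.eventually_prod_iff] at hE
  obtain ⟨pX, hpX, pYZ, hpYZ, hE⟩ := hE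
  rw [nhds_prod_eq, Filter.eventually_prod_iff] at hpYZ
  obtain ⟨pY, hpY, pZ, hpZ, hpYZ⟩ := hpYZ
  obtain ⟨r, hr1, hr2, hr3, hr4, hr5⟩ := hNT _ hS a a2 hAn {x | (pX x ∧ pY x) ∧ pZ x}
    ((hpX.and hpY).and hpZ)
  obtain ⟨hu1, hu2⟩ := exists_exact h2 T3 r
  have hun : norm (qemb gi D r * U) = norm j1 := by rw [hu1, hr1, div_mul_cancel₀ _ hU]
  refine ⟨qemb gi D r * U, ?_, ⟨hg.si, hu2.star, hgi0, by rw [hun]; exact hj0, by
    rw [dot_comm]; exact hu2.pz⟩, hun, perp_comm h2 PD hu2⟩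
  have e : qemb gi D r * U = r.re • (j1 - proj gi ((Y x : Oct a b c) - y1) j1) +
      (r.imI • gi + r.imJ • D + r.imK • (gi * D)) * U := by
    rw [← hDd, ← hUd, qemb, add_assoc, add_assoc, add_mul, smul_mul', one_mul, add_assoc]
  have f1 : pYZ (r.imJ, r.imK) := hpYZ (x := r.imJ) hr4.1.2 (y := r.imK) hr5.2
  have f2 : pO ((r.imI • gi + r.imJ • D + r.imK • (gi * D)) * U) :=
    hE (x := r.imI) hr3.1.1 (y := (r.imJ, r.imK)) f1
  have f3 := hpH (x := x) hA2 (y := (r.imI • gi + r.imJ • D + r.imK • (gi * D)) * U) f2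
  have f4 := hH (x := r.re) hr2 (y := (x, (r.imI • gi + r.imJ • D + r.imK • (gi * D)) * U)) f3
  rw [e]
  exact f4

end Vale.Agent.P011.D4.B
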