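import Vale.Agent.P011.D4.BNear

/-!
Long elements close to one are products of three elements of other long subgroups.
-/

open NumberField IsDedekindDomain Topology

namespace Vale.Agent.P011.D4.B

open Vale.Agent.P011.MPQ Vale.Agent.P011.D4 Vale.Agent.P011.D4.Oct

variable {F : Type} [Field F] {a b c a' b' c' : Fˣ}

variable [TopologicalSpace F] [IsTopologicalRing F] [ContinuousInv₀ F] [T1Space F]

/-- Continuity of the two functions. -/
theorem near_cont {y1 j1 w1 : Oct a b c} (hd1' : norm ((Y 1 : Oct a b c) - y1) ≠ 0)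
    (hgi0 : norm (gi : Oct a b c) ≠ 0) (hj0 : norm j1 ≠ 0) (hy1p : Perp gi j1 y1)
    (hy10 : norm y1 ≠ 0) {V : Set F} (hV : IsOpen V)
    (vG1 : norm ((Y 1 : Oct a b c) - y1) / norm (y1 - proj gi j1 y1) ∈ V)
    (vG2 : norm ((gj : Oct a b c) - mv gi j1 (y1 - proj gi j1 y1)
        ((y1 - proj gi j1 y1) + ((Y 1 : Oct a b c) - y1)) w1) / norm (gj : Oct a b c) ∈ V) :
    ∀ᶠ x : Qt a b × Oct a b c in 𝓝 (1, j1),
      norm ((Y x.1 : Oct a b c) - y1) / norm (y1 - proj gi x.2 y1) ∈ V ∧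
      norm ((gj : Oct a b c) - mv gi x.2 (y1 - proj gi x.2 y1)
        ((y1 - proj gi x.2 y1) + ((Y x.1 : Oct a b c) - y1)) w1) / norm (gj : Oct a b c) ∈ V := by
  -- continuity
  have cD : ContinuousAt (fun t : Qt a b => (Y t : Oct a b c) - y1) 1 :=
    cont_Y.continuousAt.sub continuousAt_const
  have cM : ContinuousAt (fun x : Qt a b × Oct a b c => y1 - proj gi x.2 y1) (1, j1) :=
    continuousAt_const.sub (contAt_proj continuousAt_snd continuousAt_const hgi0 hj0)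
  have hM1 : y1 - proj gi j1 y1 = y1 := by rw [proj_perp hy1p, sub_zero]
  have cD' : ContinuousAt (fun x : Qt a b × Oct a b c => (Y x.1 : Oct a b c) - y1) (1, j1) :=
    ContinuousAt.comp (f := Prod.fst) (x := ((1 : Qt a b), j1)) cD continuousAt_fst
  have cG1 : ContinuousAt (fun x : Qt a b × Oct a b c =>
      norm ((Y x.1 : Oct a b c) - y1) / norm (y1 - proj gi x.2 y1)) (1, j1) := by
    have h1 : norm (y1 - proj gi j1 y1) ≠ 0 := by rw [hM1]; exact hy10
    have h3 : ContinuousAt (fun x : Qt a b × Oct a b c => norm (y1 - proj gi x.2 y1)) (1, j1) :=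
      cont_norm.continuousAt.comp' cM
    have h4 : ContinuousAt (fun x : Qt a b × Oct a b c => norm ((Y x.1 : Oct a b c) - y1)) (1, j1) :=
      cont_norm.continuousAt.comp' cD'
    exact h4.div h3 h1
  have cG2 : ContinuousAt (fun x : Qt a b × Oct a b c =>
      norm ((gj : Oct a b c) - mv gi x.2 (y1 - proj gi x.2 y1)
        ((y1 - proj gi x.2 y1) + ((Y x.1 : Oct a b c) - y1)) w1) / norm (gj : Oct a b c))
      (1, j1) := by
    have h1 : norm (y1 - proj gi j1 y1) ≠ 0 := by rw [hM1]; exact hy10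
    have h3 := contAt_mv (z := gi) (continuousAt_snd (p := ((1 : Qt a b), j1))) cM (cM.add cD')
      hgi0 hj0 h1 w1
    have h4 : ContinuousAt (fun x : Qt a b × Oct a b c =>
      norm ((gj : Oct a b c) - mv gi x.2 (y1 - proj gi x.2 y1)
        ((y1 - proj gi x.2 y1) + ((Y x.1 : Oct a b c) - y1)) w1)) (1, j1) :=
      cont_norm.continuousAt.comp' (continuousAt_const.sub h3)
    exact h4.div_const _
  have hG1 : ∀ᶠ x : Qt a b × Oct a b c in 𝓝 (1, j1),
      norm ((Y x.1 : Oct a b c) - y1) / norm (y1 - proj gi x.2 y1) ∈ V := by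
    refine cG1.eventually_mem ?_
    dsimp only
    exact hV.mem_nhds vG1
  have hG2 : ∀ᶠ x : Qt a b × Oct a b c in 𝓝 (1, j1),
      norm ((gj : Oct a b c) - mv gi x.2 (y1 - proj gi x.2 y1)
        ((y1 - proj gi x.2 y1) + ((Y x.1 : Oct a b c) - y1)) w1) / norm (gj : Oct a b c) ∈ V := by
    refine cG2.eventually_mem ?_
    dsimp only
    exact hV.mem_nhds vG2
  exact hG1.and hG2

/-- The near step. -/
theorem near_step (h2 : (2 : F) ≠ 0) (hNT : NT F) (hdiv : Division a b c)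
    (N : Subgroup (AutC a b c)) {c1 : Fˣ} {j1 : Oct a b c} (hj : Pair gi j1)
    (hj1 : norm j1 = -c1) (hl : Perp gi j1 (gl : Oct a b c)) {V : Set F} (hV : IsOpen V)
    (hV0 : (0 : F) ∈ V) (hL1 : HasL N V a c1) (hL2 : HasL N V a c) {p q : F}
    (hpq : p ^ 2 - a * q ^ 2 = 1) (hp : 2 - 2 * p ∈ V) (hp1 : p ≠ 1) :
    ∃ A ∈ 𝓝 (1 : Qt a b), ∀ t : SL1 a b, ((t : (Qt a b)ˣ) : Qt a b) ∈ A → long a b c t ∈ N := by
  have hg := Oct.trip_std (a := a) (b := b) (c := c)
  have hc0 : (c : F) ≠ 0 := c.ne_zero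
  have hgi : norm (gi : Oct a b c) = -a := norm_of_sq hg.si hg.ii
  have hgi0 : norm (gi : Oct a b c) ≠ 0 := by rw [hgi]; exact neg_ne_zero.mpr a.ne_zero
  have hgl : norm (gl : Oct a b c) = -c := norm_of_sq hg.sl hg.ll
  -- the vector `y1`
  obtain ⟨y1, hy1⟩ : ∃ y1 : Oct a b c, y1 = Y ⟨p, q, 0, 0⟩ := ⟨_, rfl⟩
  have hny1 : norm y1 = -c := by
    rw [hy1, norm_Y]; simp only [nrd]; linear_combination (-c : F) * hpq
  have hy1' : y1 = p • gl + q • ((gi : Oct a b c) * gl) := by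
    rw [hy1]
    apply Oct.ext
    · simp [Y, gi, gl]
    · ext <;> simp [Y, gi, gl]
  have hy1p : Perp gi j1 y1 := by
    have e1 : dot (gi * gl) j1 = 0 := by
      rw [dot_mul_left, hg.si, neg_mul, dot_neg_right, hl.pzu, neg_zero]
    refine ⟨by rw [hy1, dot_coord]; simp [Y], by rw [hy1, dot_coord]; simp [Y, gi], ?_, ?_⟩
    · rw [hy1', dot_add_left, dot_smul_left, dot_smul_left, hl.pu, e1]; ring
    · rw [hy1', dot_add_left, dot_smul_left, dot_smul_left, hl.pzu, dot_mul_left, star_mul_mul,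
        dot_smul_right, hl.pu]; ring
  have T1 : Trip a c1 c gi j1 gl := trip_of hj hl (by rw [hgi, neg_neg]) (by rw [hj1, neg_neg])
    (by rw [hgl, neg_neg])
  have T2 : Trip a c1 c gi j1 y1 := trip_of hj hy1p (by rw [hgi, neg_neg]) (by rw [hj1, neg_neg])
    (by rw [hny1, neg_neg])
  obtain ⟨P, -, hP1, hP2, hP3⟩ := exists_move h2 T1 T2
  have hd1 : norm ((Y 1 : Oct a b c) - y1) = -c * (2 - 2 * p) := by
    rw [hy1, Y_sub, norm_Y]
    simp only [nrd, QuaternionAlgebra.re_sub, QuaternionAlgebra.imI_sub, QuaternionAlgebra.imJ_sub,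
      QuaternionAlgebra.imK_sub, QuaternionAlgebra.re_one, QuaternionAlgebra.imI_one,
      QuaternionAlgebra.imJ_one, QuaternionAlgebra.imK_one]
    linear_combination (-c : F) * hpq
  have hd1' : norm ((Y 1 : Oct a b c) - y1) ≠ 0 := by
    rw [hd1]
    refine mul_ne_zero (neg_ne_zero.mpr hc0) ?_
    intro h
    apply hp1
    have : (2 : F) * (1 - p) = 0 := by linear_combination h
    have := (mul_eq_zero.mp this).resolve_left h2
    linear_combination -this
  have hPN : P ∈ N := by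
    refine hL1 c gi j1 gl T1 P hP1 hP2 ?_
    have e : norm (y1 - (gl : Oct a b c)) = -c * (2 - 2 * p) := by
      rw [← hd1, ← norm_neg, neg_sub]; rfl
    rw [hP3, e, hgl, mul_div_cancel_left₀ _ (neg_ne_zero.mpr hc0)]
    exact hp
  obtain ⟨w1, hw1⟩ : ∃ w1, w1 = P.1 gj := ⟨_, rfl⟩
  have hj0 : norm j1 ≠ 0 := hj.nu
  have hperp : Perp gi ((Y 1 : Oct a b c) - y1) j1 := by
    have e1 : dot j1 (gi * gl) = 0 := by
      rw [dot_comm, dot_mul_left, hg.si, neg_mul, dot_neg_right, hl.pzu, neg_zero]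
    have e2 : dot j1 (gi * y1) = 0 := by
      rw [dot_comm, dot_mul_left, hg.si, neg_mul, dot_neg_right, hy1p.pzu, neg_zero]
    refine ⟨dot_one_of_star h2 hj.su, by rw [dot_comm]; exact hj.zu, ?_, ?_⟩
    · rw [dot_sub_right, dot_comm j1 y1, hy1p.pu, dot_comm]
      change dot gl j1 - 0 = 0
      rw [hl.pu, sub_zero]
    · rw [mul_sub, dot_sub_right, e2]
      change dot j1 (gi * gl) - 0 = 0
      rw [e1, sub_zero]
  have hy10 : norm y1 ≠ 0 := by rw [hny1]; exact neg_ne_zero.mpr hc0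
  have hM1 : y1 - proj gi j1 y1 = y1 := by rw [proj_perp hy1p, sub_zero]
  have vG1 : norm ((Y 1 : Oct a b c) - y1) / norm (y1 - proj gi j1 y1) ∈ V := by
    rw [hM1, hd1, hny1, mul_div_cancel_left₀ _ (neg_ne_zero.mpr hc0)]
    exact hp
  have vG2 : norm ((gj : Oct a b c) - mv gi j1 (y1 - proj gi j1 y1)
        ((y1 - proj gi j1 y1) + ((Y 1 : Oct a b c) - y1)) w1) / norm (gj : Oct a b c) ∈ V := by
    have e1 : (y1 - proj gi j1 y1) + ((Y 1 : Oct a b c) - y1) = gl := by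
      rw [hM1]; change y1 + (gl - y1) = gl; abel
    have hinv : ∀ x, P⁻¹.1 (P.1 x) = x := fun x => by
      have : (P⁻¹ * P).1 x = x := by rw [inv_mul_cancel]; rfl
      exact this
    have e2 := eq_mv h2 T2 (g := P⁻¹) (by conv_lhs => rw [← hP1, hinv])
      (by conv_lhs => rw [← hP2, hinv]) w1
    have e3 : P⁻¹.1 y1 = gl := by rw [← hP3, hinv]
    rw [e3, hw1, hinv] at e2
    rw [e1, hM1, hw1, ← e2, sub_self, ← dot_self, dot_zero_left, zero_div]
    exact hV0
  have hG := near_cont hd1' hgi0 hj0 hy1p hy10 hV vG1 vG2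
  rw [nhds_prod_eq, Filter.eventually_prod_iff] at hG
  obtain ⟨pA, hpA, pB, hpB, hG⟩ := hG
  dsimp only at hG
  have hu := exists_u h2 hNT hdiv hj hy1 hd1' hperp (B := {u | pB u}) hpB
  refine ⟨_, hpA.and hu, ?_⟩
  intro t ht
  obtain ⟨ht1, ht2, u, hu1, hu2, hu3, hu4⟩ := ht
  obtain ⟨hG1, hG2⟩ := hG (x := ((t : (Qt a b)ˣ) : Qt a b)) ht1 (y := u) hu1
  rw [hw1] at hG2
  exact final_alg h2 hdiv N hL1 hL2 hny1 hPN hP1 hP3 rfl hu2 (by rw [hu3, hj1]) hu4 ht2 hG1 hG2

end Vale.Agent.P011.D4.B
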