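import Vale.Agent.P011.D4.BMove

/-!
The topology on octonions over a topological field.
-/

open NumberField IsDedekindDomain Topology

namespace Vale.Agent.P011.D4.B

open Vale.Agent.P011.MPQ Vale.Agent.P011.D4 Vale.Agent.P011.D4.Oct

variable {F : Type} [Field F] {a b c a' b' c' : Fˣ}

/-- The coordinates of a quaternion. -/
def qco (x : Qt a b) : F × F × F × F := (x.re, x.imI, x.imJ, x.imK)

/-- The coordinates of an octonion. -/
def oco (x : Oct a b c) : (F × F × F × F) × (F × F × F × F) := (qco x.fst, qco x.snd)

variable [TopologicalSpace F]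

/-- The topology of quaternions. -/
scoped instance qTop : TopologicalSpace (Qt a b) := TopologicalSpace.induced qco inferInstance

/-- The topology of octonions. -/
scoped instance oTop : TopologicalSpace (Oct a b c) := TopologicalSpace.induced oco inferInstance

theorem cont_qco : Continuous (qco : Qt a b → _) := continuous_induced_dom

theorem cont_oco : Continuous (oco : Oct a b c → _) := continuous_induced_dom

@[fun_prop] theorem cont_re : Continuous fun x : Qt a b => x.re := by
  have h : Continuous (qco : Qt a b → F × F × F × F) := cont_qco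
  exact continuous_fst.comp h
@[fun_prop] theorem cont_imI : Continuous fun x : Qt a b => x.imI := by
  have h : Continuous (qco : Qt a b → F × F × F × F) := cont_qco
  exact (continuous_fst.comp continuous_snd).comp h
@[fun_prop] theorem cont_imJ : Continuous fun x : Qt a b => x.imJ := by
  have h : Continuous (qco : Qt a b → F × F × F × F) := cont_qco
  exact (continuous_fst.comp (continuous_snd.comp continuous_snd)).comp h
@[fun_prop] theorem cont_imK : Continuous fun x : Qt a b => x.imK := by
  have h : Continuous (qco : Qt a b → F × F × F × F) := cont_qco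
  exact (continuous_snd.comp (continuous_snd.comp continuous_snd)).comp h

theorem cont_q {X : Type*} [TopologicalSpace X] {f : X → Qt a b} (h1 : Continuous fun x => (f x).re)
    (h2 : Continuous fun x => (f x).imI) (h3 : Continuous fun x => (f x).imJ)
    (h4 : Continuous fun x => (f x).imK) : Continuous f :=
  continuous_induced_rng.mpr (h1.prodMk (h2.prodMk (h3.prodMk h4)))

@[fun_prop] theorem cont_fst : Continuous fun x : Oct a b c => x.fst := by
  have h : Continuous (oco : Oct a b c → _ × _) := cont_oco
  exact continuous_induced_rng.mpr (continuous_fst.comp h)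
@[fun_prop] theorem cont_snd : Continuous fun x : Oct a b c => x.snd := by
  have h : Continuous (oco : Oct a b c → _ × _) := cont_oco
  exact continuous_induced_rng.mpr (continuous_snd.comp h)

theorem cont_o {X : Type*} [TopologicalSpace X] {f : X → Oct a b c}
    (h1 : Continuous fun x => (f x).fst) (h2 : Continuous fun x => (f x).snd) : Continuous f :=
  continuous_induced_rng.mpr ((cont_qco.comp h1).prodMk (cont_qco.comp h2))

variable [IsTopologicalRing F]

scoped instance : ContinuousAdd (Qt a b) := ⟨by
  refine cont_q ?_ ?_ ?_ ?_ <;> simp only [QuaternionAlgebra.re_add, QuaternionAlgebra.imI_add,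
    QuaternionAlgebra.imJ_add, QuaternionAlgebra.imK_add] <;> fun_prop⟩

scoped instance : ContinuousNeg (Qt a b) := ⟨by
  refine cont_q ?_ ?_ ?_ ?_ <;> simp only [QuaternionAlgebra.re_neg, QuaternionAlgebra.imI_neg,
    QuaternionAlgebra.imJ_neg, QuaternionAlgebra.imK_neg] <;> fun_prop⟩

scoped instance : ContinuousMul (Qt a b) := ⟨by
  refine cont_q ?_ ?_ ?_ ?_ <;> simp only [QuaternionAlgebra.re_mul, QuaternionAlgebra.imI_mul,
    QuaternionAlgebra.imJ_mul, QuaternionAlgebra.imK_mul] <;> fun_prop⟩

scoped instance : ContinuousStar (Qt a b) := ⟨by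
  refine cont_q ?_ ?_ ?_ ?_ <;> simp only [QuaternionAlgebra.re_star, QuaternionAlgebra.imI_star,
    QuaternionAlgebra.imJ_star, QuaternionAlgebra.imK_star] <;> fun_prop⟩

scoped instance : ContinuousSMul F (Qt a b) := ⟨by
  refine cont_q ?_ ?_ ?_ ?_ <;> simp only [QuaternionAlgebra.re_smul, QuaternionAlgebra.imI_smul,
    QuaternionAlgebra.imJ_smul, QuaternionAlgebra.imK_smul, smul_eq_mul] <;> fun_prop⟩

scoped instance : ContinuousAdd (Oct a b c) := ⟨by
  refine cont_o ?_ ?_ <;> simp only [fst_add, snd_add] <;> fun_prop⟩

scoped instance : ContinuousNeg (Oct a b c) := ⟨by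
  refine cont_o ?_ ?_ <;> simp only [fst_neg, snd_neg] <;> fun_prop⟩

scoped instance : IsTopologicalAddGroup (Oct a b c) where

scoped instance : ContinuousMul (Oct a b c) := ⟨by
  refine cont_o ?_ ?_ <;> simp only [fst_mul, snd_mul] <;> fun_prop⟩

scoped instance : ContinuousStar (Oct a b c) := ⟨by
  refine cont_o ?_ ?_ <;> simp only [fst_star, snd_star] <;> fun_prop⟩

scoped instance : ContinuousSMul F (Oct a b c) := ⟨by
  refine cont_o ?_ ?_ <;> simp only [fst_smul, snd_smul] <;> fun_prop⟩

@[fun_prop] theorem cont_nrd : Continuous fun x : Qt a b => nrd x := by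
  unfold nrd; fun_prop

@[fun_prop] theorem cont_norm : Continuous fun x : Oct a b c => Oct.norm x := by
  unfold Oct.norm; fun_prop

theorem cont_dot : Continuous fun p : Oct a b c × Oct a b c => dot p.1 p.2 := by
  unfold dot; fun_prop

@[fun_prop] theorem cont_dot' {X : Type*} [TopologicalSpace X] {f g : X → Oct a b c}
    (hf : Continuous f) (hg : Continuous g) : Continuous fun x => dot (f x) (g x) :=
  cont_dot.comp (hf.prodMk hg)

@[fun_prop] theorem contAt_dot {X : Type*} [TopologicalSpace X] {f g : X → Oct a b c} {x₀ : X}
    (hf : ContinuousAt f x₀) (hg : ContinuousAt g x₀) :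
    ContinuousAt (fun x => dot (f x) (g x)) x₀ :=
  ContinuousAt.comp (x := x₀) (f := fun x => (f x, g x))
    (g := fun p : Oct a b c × Oct a b c => dot p.1 p.2) cont_dot.continuousAt (hf.prodMk hg)

end Vale.Agent.P011.D4.B
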