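import Vale.Agent.P011.MPQ.Defs

/-!
Octonion algebras and the trialitarian groups attached to a cyclic cubic extension.
-/

open NumberField IsDedekindDomain

namespace Vale.Agent.P011.D4

open Vale.Agent.P011.MPQ

section oct

variable {F : Type} [Field F]

/-- The octonion algebra `Q + Q l`, with `Q` the quaternion algebra `(a, b)` and `l * l = c`. -/
@[ext]
structure Oct (a b c : Fˣ) : Type where
  /-- The first component. -/
  fst : Qt a b
  /-- The second component. -/
  snd : Qt a b

namespace Oct

variable {a b c : Fˣ}

instance : Zero (Oct a b c) := ⟨⟨0, 0⟩⟩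
instance : One (Oct a b c) := ⟨⟨1, 0⟩⟩
instance : Add (Oct a b c) := ⟨fun x y => ⟨x.fst + y.fst, x.snd + y.snd⟩⟩
instance : Neg (Oct a b c) := ⟨fun x => ⟨-x.fst, -x.snd⟩⟩
instance : Sub (Oct a b c) := ⟨fun x y => ⟨x.fst - y.fst, x.snd - y.snd⟩⟩
instance : SMul F (Oct a b c) := ⟨fun t x => ⟨t • x.fst, t • x.snd⟩⟩

/-- The product of octonions. -/
instance : Mul (Oct a b c) := ⟨fun x y =>
  ⟨x.fst * y.fst + (c : F) • (star y.snd * x.snd), y.snd * x.fst + x.snd * star y.fst⟩⟩

/-- The conjugate of an octonion. -/
instance : Star (Oct a b c) := ⟨fun x => ⟨star x.fst, -x.snd⟩⟩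

@[simp] theorem fst_zero : (0 : Oct a b c).fst = 0 := rfl
@[simp] theorem snd_zero : (0 : Oct a b c).snd = 0 := rfl
@[simp] theorem fst_one : (1 : Oct a b c).fst = 1 := rfl
@[simp] theorem snd_one : (1 : Oct a b c).snd = 0 := rfl
@[simp] theorem fst_add (x y : Oct a b c) : (x + y).fst = x.fst + y.fst := rfl
@[simp] theorem snd_add (x y : Oct a b c) : (x + y).snd = x.snd + y.snd := rfl
@[simp] theorem fst_neg (x : Oct a b c) : (-x).fst = -x.fst := rfl
@[simp] theorem snd_neg (x : Oct a b c) : (-x).snd = -x.snd := rfl
@[simp] theorem fst_sub (x y : Oct a b c) : (x - y).fst = x.fst - y.fst := rfl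
@[simp] theorem snd_sub (x y : Oct a b c) : (x - y).snd = x.snd - y.snd := rfl
@[simp] theorem fst_smul (t : F) (x : Oct a b c) : (t • x).fst = t • x.fst := rfl
@[simp] theorem snd_smul (t : F) (x : Oct a b c) : (t • x).snd = t • x.snd := rfl
@[simp] theorem fst_mul (x y : Oct a b c) :
    (x * y).fst = x.fst * y.fst + (c : F) • (star y.snd * x.snd) := rfl
@[simp] theorem snd_mul (x y : Oct a b c) :
    (x * y).snd = y.snd * x.fst + x.snd * star y.fst := rfl
@[simp] theorem fst_star (x : Oct a b c) : (star x).fst = star x.fst := rfl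
@[simp] theorem snd_star (x : Oct a b c) : (star x).snd = -x.snd := rfl

instance : AddCommGroup (Oct a b c) where
  add_assoc x y z := by ext1 <;> simp [add_assoc]
  zero_add x := by ext1 <;> simp
  add_zero x := by ext1 <;> simp
  add_comm x y := by ext1 <;> simp [add_comm]
  neg_add_cancel x := by ext1 <;> simp
  sub_eq_add_neg x y := by ext1 <;> simp [sub_eq_add_neg]
  nsmul := nsmulRec
  zsmul := zsmulRec

instance : Module F (Oct a b c) where
  one_smul x := by ext1 <;> simp
  mul_smul s t x := by ext1 <;> simp [mul_smul]
  smul_zero t := by ext1 <;> simp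
  smul_add t x y := by ext1 <;> simp
  add_smul s t x := by ext1 <;> simp [add_smul]
  zero_smul x := by ext1 <;> simp

instance : NonAssocRing (Oct a b c) where
  left_distrib x y z := by
    ext1
    · simp only [fst_mul, fst_add, snd_add, star_add, mul_add, add_mul, smul_add]; abel
    · simp only [snd_mul, fst_add, snd_add, star_add, mul_add, add_mul]; abel
  right_distrib x y z := by
    ext1
    · simp only [fst_mul, fst_add, snd_add, mul_add, add_mul, smul_add]; abel
    · simp only [snd_mul, fst_add, snd_add, mul_add, add_mul]; abel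
  zero_mul x := by ext1 <;> simp
  mul_zero x := by ext1 <;> simp
  one_mul x := by ext1 <;> simp
  mul_one x := by ext1 <;> simp

instance : StarRing (Oct a b c) where
  star_involutive x := by ext1 <;> simp
  star_add x y := by
    ext1
    · simp
    · simp only [snd_star, snd_add, neg_add]
  star_mul x y := by
    ext1
    · simp only [fst_star, fst_mul, star_add, star_mul, snd_star, star_neg, neg_mul_neg]
      congr 1
      rw [QuaternionAlgebra.star_smul, star_mul, star_star]
    · simp only [snd_star, snd_mul, fst_star, star_star]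
      rw [neg_mul, neg_mul, ← neg_add, add_comm]

/-- The norm form of the octonion algebra. -/
def norm (x : Oct a b c) : F := nrd x.fst - c * nrd x.snd

/-- The octonion algebra is a division algebra: its norm form is anisotropic. -/
def Division (a b c : Fˣ) : Prop := ∀ x : Oct a b c, norm x = 0 → x = 0

end Oct

end oct

section tri

variable {k L : Type} [Field k] [Field L] [Algebra k L]

/-- A unit of the ground field, as a unit of the extension. -/
abbrev up (L : Type) [Field L] [Algebra k L] (a : kˣ) : Lˣ :=
  Units.map (algebraMap k L : k →* L) a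

/-- The octonion algebra over the extension field. -/
abbrev OctL (L : Type) [Field L] [Algebra k L] (a b c : kˣ) : Type :=
  Oct (up L a) (up L b) (up L c)

/-- The action of an automorphism of the extension on the coefficients of a quaternion. -/
def qmap (σ : L ≃ₐ[k] L) {a b : kˣ} (x : Qt (up L a) (up L b)) : Qt (up L a) (up L b) :=
  ⟨σ x.re, σ x.imI, σ x.imJ, σ x.imK⟩

/-- The action of an automorphism of the extension on the coefficients of an octonion. -/
def omap (σ : L ≃ₐ[k] L) {a b c : kˣ} (x : OctL L a b c) : OctL L a b c :=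
  ⟨qmap σ x.fst, qmap σ x.snd⟩

/-- The product of the cyclic composition attached to the octonion algebra `(a, b, c)` and to
the automorphism `ρ` of order three. -/
def tri (ρ : L ≃ₐ[k] L) {a b c : kˣ} (x y : OctL L a b c) : OctL L a b c :=
  omap ρ (star x) * omap ρ (omap ρ (star y))

/-- The group of automorphisms of the cyclic composition: the rational points of a simply
connected group of type `³D₄`. -/
def Tri (ρ : L ≃ₐ[k] L) (a b c : kˣ) : Subgroup (OctL L a b c ≃ₗ[L] OctL L a b c) where
  carrier := {g | ∀ x y, g (tri ρ x y) = tri ρ (g x) (g y)}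
  mul_mem' := by
    intro g h hg hh x y
    rw [LinearEquiv.mul_apply, LinearEquiv.mul_apply, LinearEquiv.mul_apply, hh, hg]
  one_mem' := fun _ _ => rfl
  inv_mem' := by
    intro g hg x y
    apply g.injective
    have h1 : ∀ z, g (g⁻¹ z) = z := fun z => by
      rw [← LinearEquiv.mul_apply, mul_inv_cancel]; rfl
    rw [hg, h1, h1, h1]

end tri

end Vale.Agent.P011.D4
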