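import Vale.Agent.P011.D4.Defs
import Vale.Agent.P011.Arith.SUnit

/-!
Automorphisms of octonion algebras, basic triples, and the topology of a number field given by a
finite set of places.
-/

open NumberField IsDedekindDomain Topology

namespace Vale.Agent.P011.D4

open Vale.Agent.P011.MPQ Vale.Agent.P011.Arith

section oct

variable {F : Type} [Field F]

namespace Oct

variable {a b c : Fˣ}

/-- The bilinear form with `dot x x = norm x`. -/
def dot (x y : Oct a b c) : F := (x * star y).fst.re

/-- The standard generators. -/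
def gi : Oct a b c := ⟨⟨0, 1, 0, 0⟩, 0⟩
/-- The standard generators. -/
def gj : Oct a b c := ⟨⟨0, 0, 1, 0⟩, 0⟩
/-- The standard generators. -/
def gl : Oct a b c := ⟨0, 1⟩

/-- A basic triple with squares `a'`, `b'`, `c'`. -/
structure Trip (a' b' c' : Fˣ) (i j l : Oct a b c) : Prop where
  si : star i = -i
  sj : star j = -j
  sl : star l = -l
  ii : i * i = (a' : F) • (1 : Oct a b c)
  jj : j * j = (b' : F) • (1 : Oct a b c)
  ll : l * l = (c' : F) • (1 : Oct a b c)
  ij : dot i j = 0
  il : dot i l = 0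
  jl : dot j l = 0
  ijl : dot (i * j) l = 0

/-- The map from quaternions given by `i` and `j`. -/
def qemb {a' b' : Fˣ} (i j : Oct a b c) (x : Qt a' b') : Oct a b c :=
  x.re • 1 + x.imI • i + x.imJ • j + x.imK • (i * j)

/-- The map from octonions given by `i`, `j` and `l`. -/
def emb {a' b' c' : Fˣ} (i j l : Oct a b c) (x : Oct a' b' c') : Oct a b c :=
  qemb i j x.fst + qemb i j x.snd * l

end Oct

/-- The automorphism group of the octonion algebra. -/
def AutC (a b c : Fˣ) : Subgroup (Oct a b c ≃ₗ[F] Oct a b c) where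
  carrier := {g | ∀ x y, g (x * y) = g x * g y}
  mul_mem' := by
    intro g h hg hh x y
    rw [LinearEquiv.mul_apply, LinearEquiv.mul_apply, LinearEquiv.mul_apply, hh, hg]
  one_mem' := fun _ _ => rfl
  inv_mem' := by
    intro g hg x y
    apply g.injective
    have h1 : ∀ z, g (g⁻¹ z) = z := fun z => by
      rw [← LinearEquiv.mul_apply, mul_inv_cancel]; rfl
    rw [hg, h1, h1, h1]

/-- Transport of automorphisms along an isomorphism of octonion algebras. -/
def conjA {a b c a' b' c' : Fˣ} (Φ : Oct a' b' c' ≃ₗ[F] Oct a b c)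
    (hΦ : ∀ x y, Φ (x * y) = Φ x * Φ y) : AutC a' b' c' →* AutC a b c where
  toFun g := ⟨(Φ.symm.trans g.1).trans Φ, fun x y => by
    have h : Φ.symm (x * y) = Φ.symm x * Φ.symm y := by
      apply Φ.injective
      rw [hΦ, Φ.apply_symm_apply, Φ.apply_symm_apply, Φ.apply_symm_apply]
    change Φ (g.1 (Φ.symm (x * y))) = Φ (g.1 (Φ.symm x)) * Φ (g.1 (Φ.symm y))
    rw [h, g.2, hΦ]⟩
  map_one' := by
    apply Subtype.ext
    apply LinearEquiv.ext
    intro x
    exact Φ.apply_symm_apply x
  map_mul' g h := by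
    apply Subtype.ext
    apply LinearEquiv.ext
    intro x
    change Φ (g.1 (h.1 (Φ.symm x))) = Φ (g.1 (Φ.symm (Φ (h.1 (Φ.symm x)))))
    rw [Φ.symm_apply_apply]

/-- The long subgroup: left multiplication by a quaternion of norm one on the second
component. -/
def long (a b c : Fˣ) : SL1 a b →* AutC a b c where
  toFun t := ⟨
    { toFun := fun x => ⟨x.fst, ((t : (Qt a b)ˣ) : Qt a b) * x.snd⟩
      invFun := fun x => ⟨x.fst, ((t⁻¹ : (Qt a b)ˣ) : Qt a b) * x.snd⟩
      left_inv := fun x => by
        ext1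
        · rfl
        · change ((t⁻¹ : (Qt a b)ˣ) : Qt a b) * (((t : (Qt a b)ˣ) : Qt a b) * x.snd) = x.snd
          rw [← mul_assoc, Units.inv_mul, one_mul]
      right_inv := fun x => by
        ext1
        · rfl
        · change ((t : (Qt a b)ˣ) : Qt a b) * (((t⁻¹ : (Qt a b)ˣ) : Qt a b) * x.snd) = x.snd
          rw [← mul_assoc, Units.mul_inv, one_mul]
      map_add' := fun x y => by
        ext1
        · rfl
        · change ((t : (Qt a b)ˣ) : Qt a b) * (x.snd + y.snd) = _
          rw [mul_add]
          rfl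
      map_smul' := fun s x => by
        ext1
        · rfl
        · change ((t : (Qt a b)ˣ) : Qt a b) * (s • x.snd) = _
          rw [mul_smul_comm]
          rfl }, by
    intro x y
    have ht : star ((t : (Qt a b)ˣ) : Qt a b) * ((t : (Qt a b)ˣ) : Qt a b) = 1 := by
      have h1 : nrd ((t : (Qt a b)ˣ) : Qt a b) = 1 := t.2
      simp only [nrd] at h1
      ext
      · simp
        linear_combination h1
      · simp
        ring
      · simp
        ring
      · simp
        ring
    apply Oct.ext
    · change x.fst * y.fst + (c : F) • (star y.snd * x.snd) = x.fst * y.fst + (c : F) •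
        (star (((t : (Qt a b)ˣ) : Qt a b) * y.snd) * (((t : (Qt a b)ˣ) : Qt a b) * x.snd))
      rw [star_mul, mul_assoc, ← mul_assoc (star ((t : (Qt a b)ˣ) : Qt a b)), ht, one_mul]
    · change ((t : (Qt a b)ˣ) : Qt a b) * (y.snd * x.fst + x.snd * star y.fst) =
        ((t : (Qt a b)ˣ) : Qt a b) * y.snd * x.fst + ((t : (Qt a b)ˣ) : Qt a b) * x.snd * star y.fst
      rw [mul_add, mul_assoc, mul_assoc]⟩
  map_one' := by
    apply Subtype.ext
    apply LinearEquiv.ext
    intro x
    ext1
    · rfl
    · exact one_mul _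
  map_mul' s t := by
    apply Subtype.ext
    apply LinearEquiv.ext
    intro x
    ext1
    · rfl
    · exact mul_assoc _ _ _

/-- All coordinates of the quaternion lie in `W`. -/
def QIn {a b : Fˣ} (W : Set F) (x : Qt a b) : Prop := x.re ∈ W ∧ x.imI ∈ W ∧ x.imJ ∈ W ∧ x.imK ∈ W

/-- All coordinates of the octonion lie in `W`. -/
def OIn {a b c : Fˣ} (W : Set F) (x : Oct a b c) : Prop := QIn W x.fst ∧ QIn W x.snd

/-- The automorphism is close to the identity. -/
def Near {a b c : Fˣ} (W : Set F) (g : AutC a b c) : Prop :=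
  OIn W (g.1 Oct.gi - Oct.gi) ∧ OIn W (g.1 Oct.gj - Oct.gj) ∧ OIn W (g.1 Oct.gl - Oct.gl)

/-- The norm theorem for quaternions, with closeness, in topological form. -/
def NT (F : Type) [Field F] [TopologicalSpace F] : Prop :=
  ∀ W ∈ 𝓝 (1 : F), ∃ V ∈ 𝓝 (1 : F), ∀ t ∈ V, ∀ (a b : Fˣ), Aniso a b → ∀ W' ∈ 𝓝 (0 : F),
    ∃ q : Qt a b, nrd q = t ∧ q.re ∈ W ∧ q.imI ∈ W' ∧ q.imJ ∈ W' ∧ q.imK ∈ W'

end oct

/-- The topology of the number field given by a set of places. -/
@[instance_reducible]
noncomputable def topS {k : Type} [Field k] [NumberField k] (S : Set (Pl k)) : TopologicalSpace k :=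
  ⨅ p : S, TopologicalSpace.induced (fun x => fun y : k => plAbv p.1 (x - y)) inferInstance

end Vale.Agent.P011.D4
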