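import Vale.Agent.P011.D4.Up
import Vale.Agent.P011.D4.R1

/-!
The homomorphisms into the trialitarian groups, in the uniform set-up: extension of scalars, the
short subgroup, transport along basic triples.
-/

namespace Vale.Agent.P011.D4.Em

open Vale.Agent.P011.MPQ Vale.Agent.P011.D4 Vale.Agent.P011.D4.Oct

section mul

variable {F : Type} [Field F] {a b c : Fˣ}

/-- The basis of the octonion algebra. -/
def ob : Fin 8 → Oct a b c :=
  ![⟨⟨1, 0, 0, 0⟩, 0⟩, ⟨⟨0, 1, 0, 0⟩, 0⟩, ⟨⟨0, 0, 1, 0⟩, 0⟩, ⟨⟨0, 0, 0, 1⟩, 0⟩,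
    ⟨0, ⟨1, 0, 0, 0⟩⟩, ⟨0, ⟨0, 1, 0, 0⟩⟩, ⟨0, ⟨0, 0, 1, 0⟩⟩, ⟨0, ⟨0, 0, 0, 1⟩⟩]

/-- The coordinates of an octonion. -/
def oc (x : Oct a b c) : Fin 8 → F :=
  ![x.fst.re, x.fst.imI, x.fst.imJ, x.fst.imK, x.snd.re, x.snd.imI, x.snd.imJ, x.snd.imK]

theorem oc_add (x y : Oct a b c) (m : Fin 8) : oc (x + y) m = oc x m + oc y m := by
  fin_cases m <;> simp [oc]

theorem oc_smul (t : F) (x : Oct a b c) (m : Fin 8) : oc (t • x) m = t * oc x m := by
  fin_cases m <;> simp [oc]

theorem sum_oc (x : Oct a b c) : ∑ m, oc x m • (ob m : Oct a b c) = x := by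
  simp only [Fin.sum_univ_eight, oc, ob]
  ext <;> simp

end mul

variable {k L : Type} [Field k] [Field L] [Algebra k L]

section oup

variable {a b c : kˣ}

@[simp] theorem oup_fst (x : Oct a b c) : (oup L x).fst = qup L x.fst := rfl
@[simp] theorem oup_snd (x : Oct a b c) : (oup L x).snd = qup L x.snd := rfl

theorem oup_sum {ι : Type} (s : Finset ι) (f : ι → Oct a b c) :
    oup L (∑ m ∈ s, f m) = ∑ m ∈ s, oup L (f m) := by
  classical
  induction s using Finset.induction_on with
  | empty => simp [oup_zero]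
  | insert m s hm ih => rw [Finset.sum_insert hm, Finset.sum_insert hm, oup_add, ih]

theorem oc_oup (x : Oct a b c) (m : Fin 8) : oc (oup L x) m = algebraMap k L (oc x m) := by
  fin_cases m <;> simp [oc]

theorem oup_ob (m : Fin 8) : oup L (ob m : Oct a b c) = ob m := by
  fin_cases m <;> · ext <;> simp [ob]

/-- Induction along the extension of scalars. -/
theorem oup_induction {p : OctL L a b c → Prop} (h0 : ∀ x : Oct a b c, p (oup L x))
    (hadd : ∀ x y, p x → p y → p (x + y)) (hsmul : ∀ (t : L) x, p x → p (t • x))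
    (x : OctL L a b c) : p x := by
  rw [← sum_oc x]
  refine Finset.sum_induction _ p hadd ?_ fun m _ => ?_
  · rw [← oup_zero]
    exact h0 0
  · rw [← oup_ob]
    exact hsmul _ _ (h0 _)

end oup

section omap

variable (σ : L ≃ₐ[k] L) {a b c : kˣ}

@[simp] theorem omap_fst (x : OctL L a b c) : (omap σ x).fst = qmap σ x.fst := rfl
@[simp] theorem omap_snd (x : OctL L a b c) : (omap σ x).snd = qmap σ x.snd := rfl

theorem omap_sum {ι : Type} (s : Finset ι) (f : ι → OctL L a b c) :
    omap σ (∑ m ∈ s, f m) = ∑ m ∈ s, omap σ (f m) := by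
  classical
  induction s using Finset.induction_on with
  | empty => simp [omap_zero]
  | insert m s hm ih => rw [Finset.sum_insert hm, Finset.sum_insert hm, omap_add, ih]

theorem oc_omap (x : OctL L a b c) (m : Fin 8) : oc (omap σ x) m = σ (oc x m) := by
  fin_cases m <;> simp [oc]

end omap

section ext

variable {a b c a' b' c' : kˣ}

/-- The extension of scalars of a linear map between octonion algebras. -/
def extL (L : Type) [Field L] [Algebra k L] (f : Oct a b c →ₗ[k] Oct a' b' c') :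
    OctL L a b c →ₗ[L] OctL L a' b' c' where
  toFun x := ∑ m, oc x m • oup L (f (ob m))
  map_add' x y := by
    rw [← Finset.sum_add_distrib]
    exact Finset.sum_congr rfl fun m _ => by rw [oc_add, add_smul]
  map_smul' t x := by
    rw [RingHom.id_apply, Finset.smul_sum]
    exact Finset.sum_congr rfl fun m _ => by rw [oc_smul, mul_smul]

theorem extL_apply (f : Oct a b c →ₗ[k] Oct a' b' c') (x : OctL L a b c) :
    extL L f x = ∑ m, oc x m • oup L (f (ob m)) := rfl

theorem extL_oup (f : Oct a b c →ₗ[k] Oct a' b' c') (x : Oct a b c) :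
    extL L f (oup L x) = oup L (f x) := by
  conv_rhs => rw [← sum_oc x, map_sum, oup_sum]
  rw [extL_apply]
  refine Finset.sum_congr rfl fun m _ => ?_
  rw [oc_oup, map_smul, oup_smul]

theorem extL_unique {M : Type} [AddCommGroup M] [Module L M] {f g : OctL L a b c →ₗ[L] M}
    (h : ∀ x : Oct a b c, f (oup L x) = g (oup L x)) : f = g := by
  apply LinearMap.ext
  intro x
  induction x using oup_induction with
  | h0 x => exact h x
  | hadd x y hx hy => rw [map_add, map_add, hx, hy]
  | hsmul t x hx => rw [map_smul, map_smul, hx]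

theorem omap_extL (σ : L ≃ₐ[k] L) (f : Oct a b c →ₗ[k] Oct a' b' c') (x : OctL L a b c) :
    omap σ (extL L f x) = extL L f (omap σ x) := by
  rw [extL_apply, extL_apply, omap_sum]
  refine Finset.sum_congr rfl fun m _ => ?_
  rw [omap_smul, omap_oup, oc_omap]

theorem extL_mul {f : Oct a b c →ₗ[k] Oct a' b' c'} (hf : ∀ x y, f (x * y) = f x * f y)
    (x y : OctL L a b c) : extL L f (x * y) = extL L f x * extL L f y := by
  induction x using oup_induction with
  | h0 x =>
    induction y using oup_induction with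
    | h0 y => rw [← oup_mul, extL_oup, extL_oup, extL_oup, hf, oup_mul]
    | hadd y z hy hz => rw [mul_add, map_add, map_add, mul_add, hy, hz]
    | hsmul t y hy => rw [mul_smul_oct, map_smul, map_smul, mul_smul_oct, hy]
  | hadd x z hx hz => rw [add_mul, map_add, map_add, add_mul, hx, hz]
  | hsmul t x hx => rw [smul_mul_oct, map_smul, map_smul, smul_mul_oct, hx]

theorem extL_star {f : Oct a b c →ₗ[k] Oct a' b' c'} (hf : ∀ x, f (star x) = star (f x))
    (x : OctL L a b c) : extL L f (star x) = star (extL L f x) := by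
  induction x using oup_induction with
  | h0 x => rw [← oup_star, extL_oup, extL_oup, hf, oup_star]
  | hadd x z hx hz => rw [star_add, map_add, map_add, star_add, hx, hz]
  | hsmul t x hx => rw [star_smul_oct, map_smul, map_smul, star_smul_oct, hx]

theorem tri_extL (ρ : L ≃ₐ[k] L) {f : Oct a b c →ₗ[k] Oct a' b' c'}
    (hf : ∀ x y, f (x * y) = f x * f y) (hf' : ∀ x, f (star x) = star (f x))
    (x y : OctL L a b c) : extL L f (tri ρ x y) = tri ρ (extL L f x) (extL L f y) := by
  unfold tri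
  rw [extL_mul hf, ← omap_extL, ← omap_extL, ← omap_extL, extL_star hf', extL_star hf']

/-- The extension of scalars of a linear automorphism of the octonion algebra. -/
def extE (L : Type) [Field L] [Algebra k L] (f : Oct a b c ≃ₗ[k] Oct a' b' c') :
    OctL L a b c ≃ₗ[L] OctL L a' b' c' :=
  LinearEquiv.ofLinearMap (extL L (f : Oct a b c →ₗ[k] Oct a' b' c'))
    (extL L (f.symm : Oct a' b' c' →ₗ[k] Oct a b c))
    (extL_unique fun x => by
      rw [LinearMap.comp_apply, extL_oup, extL_oup, LinearMap.id_apply]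
      exact congrArg _ (f.apply_symm_apply x))
    (extL_unique fun x => by
      rw [LinearMap.comp_apply, extL_oup, extL_oup, LinearMap.id_apply]
      exact congrArg _ (f.symm_apply_apply x))

theorem extE_apply (f : Oct a b c ≃ₗ[k] Oct a' b' c') (x : OctL L a b c) :
    extE L f x = extL L (f : Oct a b c →ₗ[k] Oct a' b' c') x := rfl

theorem extE_oup (f : Oct a b c ≃ₗ[k] Oct a' b' c') (x : Oct a b c) :
    extE L f (oup L x) = oup L (f x) := extL_oup _ x

/-- Two linear automorphisms which agree on the octonions over the ground field are equal. -/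
theorem equiv_unique {f g : OctL L a b c ≃ₗ[L] OctL L a' b' c'}
    (h : ∀ x : Oct a b c, f (oup L x) = g (oup L x)) : f = g :=
  LinearEquiv.toLinearMap_injective (extL_unique h)

/-- The extension of automorphisms. -/
theorem exists_ext (ρ : L ≃ₐ[k] L) (I : Set (L ≃ₐ[k] L)) (a b c : kˣ) :
    ∃ e : AutC a b c →* TriU ρ I a b c, IsExtU ρ I e := by
  refine ⟨{ toFun := fun g => ⟨extE L g.1, ?_, ?_⟩, map_one' := ?_, map_mul' := ?_ },
    fun g x => extE_oup _ x⟩
  · intro x y
    exact tri_extL ρ g.2 (aut_star g) x y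
  · intro ι hι x
    change extL L _ (omap ι (star x)) = omap ι (star (extL L _ x))
    rw [← extL_star (aut_star g), omap_extL]
  · exact Subtype.ext (equiv_unique fun x => extE_oup _ x)
  · intro g h
    refine Subtype.ext (equiv_unique fun x => ?_)
    rw [extE_oup]
    change _ = extE L g.1 (extE L h.1 (oup L x))
    rw [extE_oup, extE_oup]
    rfl

end ext

section quat

variable {F : Type} [Field F] {a b : Fˣ}

theorem star_mul_self_nrd (x : Qt a b) : star x * x = (nrd x) • (1 : Qt a b) := by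
  ext
  · simp [nrd]
    ring
  · simp
    ring
  · simp
    ring
  · simp
    ring

theorem self_mul_star_nrd (x : Qt a b) : x * star x = (nrd x) • (1 : Qt a b) := by
  ext
  · simp [nrd]
    ring
  · simp
    ring
  · simp
    ring
  · simp
    ring

theorem SL1.star_mul (x : SL1 a b) :
    star ((x : (Qt a b)ˣ) : Qt a b) * ((x : (Qt a b)ˣ) : Qt a b) = 1 := by
  have h : nrd ((x : (Qt a b)ˣ) : Qt a b) = 1 := x.2
  rw [star_mul_self_nrd, h, one_smul]

theorem SL1.mul_star (x : SL1 a b) :
    ((x : (Qt a b)ˣ) : Qt a b) * star ((x : (Qt a b)ˣ) : Qt a b) = 1 := by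
  have h : nrd ((x : (Qt a b)ˣ) : Qt a b) = 1 := x.2
  rw [self_mul_star_nrd, h, one_smul]

end quat

section shortf

variable {k L : Type} [Field k] [Field L] [Algebra k L] (ρ : L ≃ₐ[k] L) {a b c : kˣ}

theorem shortFun_add (x : Qt (up L a) (up L b)) (y z : OctL L a b c) :
    shortFun ρ x (y + z) = shortFun ρ x y + shortFun ρ x z := by
  unfold shortFun
  ext1
  · simp only [Oct.fst_add, mul_add, add_mul]
  · simp only [Oct.snd_add, add_mul]

theorem shortFun_smul (x : Qt (up L a) (up L b)) (t : L) (y : OctL L a b c) :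
    shortFun ρ x (t • y) = t • shortFun ρ x y := by
  unfold shortFun
  ext1
  · simp only [Oct.fst_smul, mul_smul_comm, smul_mul_assoc]
  · simp only [Oct.snd_smul, smul_mul_assoc]

theorem shortFun_mul (x y : Qt (up L a) (up L b)) (z : OctL L a b c) :
    shortFun ρ (x * y) z = shortFun ρ x (shortFun ρ y z) := by
  unfold shortFun
  ext1
  · simp only [qmap_mul, star_mul, mul_assoc]
  · simp only [qmap_mul, star_mul, mul_assoc]

theorem shortFun_one (z : OctL L a b c) :
    shortFun ρ (1 : Qt (up L a) (up L b)) z = z := by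
  unfold shortFun
  ext1
  · simp only [qmap_one, star_one, mul_one, one_mul]
  · simp only [qmap_one, star_one, mul_one]

theorem qmap_cube (hρ : ∀ x, ρ (ρ (ρ x)) = x) (x : Qt (up L a) (up L b)) :
    qmap ρ (qmap ρ (qmap ρ x)) = x := by
  ext <;> simp [hρ]

theorem fst_tri (x y : OctL L a b c) : (tri ρ x y).fst =
    qmap ρ (star x.fst) * qmap ρ (qmap ρ (star y.fst)) +
      ((up L c : Lˣ) : L) • (star (qmap ρ (qmap ρ y.snd)) * qmap ρ x.snd) := by
  unfold tri
  rw [Oct.fst_mul]
  simp only [omap_fst, omap_snd, Oct.fst_star, Oct.snd_star, qmap_neg, star_neg, neg_mul_neg]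

theorem snd_tri (x y : OctL L a b c) : (tri ρ x y).snd =
    -(qmap ρ (qmap ρ y.snd) * qmap ρ (star x.fst) + qmap ρ x.snd * qmap ρ (qmap ρ y.fst)) := by
  unfold tri
  rw [Oct.snd_mul]
  simp only [omap_fst, omap_snd, Oct.fst_star, Oct.snd_star, qmap_neg, qmap_star, star_star,
    neg_mul, neg_add]

/-- The short elements preserve the product of the cyclic composition. -/
theorem shortFun_tri (hρ : ∀ x, ρ (ρ (ρ x)) = x) {x : Qt (up L a) (up L b)}
    (hx : star x * x = 1) (y z : OctL L a b c) :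
    shortFun ρ x (tri ρ y z) = tri ρ (shortFun ρ x y) (shortFun ρ x z) := by
  have h1 : star (qmap ρ x) * qmap ρ x = 1 := by
    rw [← qmap_star, ← qmap_mul, hx, qmap_one]
  have h2 : star (qmap ρ (qmap ρ x)) * qmap ρ (qmap ρ x) = 1 := by
    rw [← qmap_star, ← qmap_star, ← qmap_mul, ← qmap_mul, hx, qmap_one, qmap_one]
  have h3 := qmap_cube ρ hρ x
  have c1 : ∀ w, star (qmap ρ x) * (qmap ρ x * w) = w := fun w => by
    rw [← mul_assoc, h1, one_mul]
  have c2 : ∀ w, star (qmap ρ (qmap ρ x)) * (qmap ρ (qmap ρ x) * w) = w := fun w => by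
    rw [← mul_assoc, h2, one_mul]
  have c3 : ∀ w, star x * (x * w) = w := fun w => by
    rw [← mul_assoc, hx, one_mul]
  apply Oct.ext
  · rw [fst_tri]
    change x * (tri ρ y z).fst * star (qmap ρ (qmap ρ x)) = _
    rw [fst_tri]
    simp only [shortFun, qmap_mul, qmap_star, star_mul, star_star, h3, mul_assoc, c1, mul_add,
      add_mul, mul_smul_comm, smul_mul_assoc]
  · rw [snd_tri]
    change (tri ρ y z).snd * star (qmap ρ x) = _
    rw [snd_tri]
    simp only [shortFun, qmap_mul, qmap_star, star_mul, star_star, h3, mul_assoc, c2, c3, add_mul,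
      neg_mul]

end shortf

section uniform

variable {k E M : Type} [Field k] [Field E] [Field M] [Algebra k E] [Algebra k M] [Algebra E M]
  [IsScalarTower k E M] {ρ : M ≃ₐ[k] M} {I : Set (M ≃ₐ[k] M)}

omit [IsScalarTower k E M] in
theorem invo_shortFun (hU : SetU k E M ρ I) {ι : M ≃ₐ[k] M} (hι : ι ∈ I) {a b c : kˣ}
    {x : Qt (up E a) (up E b)} (y : OctL M a b c) :
    shortFun ρ (qEM M x) (invo ι y) = invo ι (shortFun ρ (qEM M x) y) := by
  have h1 : ∀ e : E, ι (algebraMap E M e) = ρ (ρ (algebraMap E M e)) := by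
    intro e
    have h := hU.iE ι hι e
    have h2 := hU.r3 (ι (algebraMap E M e))
    rw [← h2, h]
  have h3 : ∀ e : E, ι (ρ (algebraMap E M e)) = ρ (algebraMap E M e) := by
    intro e
    have h := hU.iri ι hι (ι (algebraMap E M e))
    rw [hU.ii ι hι, h1, hU.r3] at h
    exact h
  have h4 : ∀ e : E, ι (ρ (ρ (algebraMap E M e))) = algebraMap E M e := by
    intro e
    rw [← h1, hU.ii ι hι]
  have e1 : qmap ι (qEM M x) = qmap ρ (qmap ρ (qEM M x)) := by
    ext <;> exact h1 _
  have e3 : qmap ι (qmap ρ (qEM M x)) = qmap ρ (qEM M x) := by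
    ext <;> exact h3 _
  have e4 : qmap ι (qmap ρ (qmap ρ (qEM M x))) = qEM M x := by
    ext <;> exact h4 _
  unfold invo shortFun
  ext1
  · simp only [omap_fst, fst_star, qmap_mul, qmap_star, star_mul, star_star, e1, e4, mul_assoc]
  · simp only [omap_snd, snd_star, qmap_mul, qmap_neg, qmap_star, e3, neg_mul]

/-- The homomorphism of the short subgroup. -/
theorem exists_short (hU : SetU k E M ρ I) (a b c : kˣ) :
    ∃ s : SL1 (up E a) (up E b) →* TriU ρ I a b c, IsShortU ρ I s := by
  let f : Qt (up M a) (up M b) → OctL M a b c →ₗ[M] OctL M a b c := fun x =>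
    { toFun := shortFun ρ x
      map_add' := shortFun_add ρ x
      map_smul' := fun t y => shortFun_smul ρ x t y }
  have hf : ∀ x y z, f (x * y) z = f x (f y z) := fun x y z => shortFun_mul ρ x y z
  have hf1 : ∀ z, f 1 z = z := fun z => shortFun_one ρ z
  let q : (Qt (up E a) (up E b))ˣ → Qt (up M a) (up M b) := fun x =>
    qEM (E := E) M (x : Qt (up E a) (up E b))
  have hq1 : q 1 = 1 := qEM_one
  have hqm : ∀ x y, q (x * y) = q x * q y := fun x y =>
    qEM_mul (M := M) (x : Qt (up E a) (up E b)) (y : Qt (up E a) (up E b))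
  let g : (Qt (up E a) (up E b))ˣ → OctL M a b c ≃ₗ[M] OctL M a b c := fun x =>
    LinearEquiv.ofLinearMap (f (q x)) (f (q x⁻¹))
      (LinearMap.ext fun z => by
        rw [LinearMap.comp_apply, ← hf, ← hqm, mul_inv_cancel, hq1, hf1,
          LinearMap.id_apply])
      (LinearMap.ext fun z => by
        rw [LinearMap.comp_apply, ← hf, ← hqm, inv_mul_cancel, hq1, hf1,
          LinearMap.id_apply])
  have hg : ∀ x z, g x z = f (q x) z := fun _ _ => rfl
  have hg1 : g 1 = 1 := by
    refine LinearEquiv.ext fun z => ?_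
    rw [hg, hq1, hf1]
    rfl
  have hgm : ∀ x y, g (x * y) = g x * g y := by
    intro x y
    refine LinearEquiv.ext fun z => ?_
    rw [LinearEquiv.mul_apply, hg, hg, hg, hqm, hf]
  have hmem : ∀ x : SL1 (up E a) (up E b), g x ∈ TriU ρ I a b c := by
    intro x
    refine ⟨fun y z => ?_, fun ι hι y => ?_⟩
    · have hx : star (q x) * q x = 1 := by
        change star (qEM (E := E) M ((x : (Qt (up E a) (up E b))ˣ) : Qt (up E a) (up E b))) *
          qEM (E := E) M ((x : (Qt (up E a) (up E b))ˣ) : Qt (up E a) (up E b)) = 1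
        rw [← qEM_star, ← qEM_mul, SL1.star_mul, qEM_one]
      exact shortFun_tri ρ hU.r3 hx y z
    · exact invo_shortFun hU hι y
  exact ⟨{ toFun := fun x => ⟨g x, hmem x⟩
           map_one' := Subtype.ext hg1
           map_mul' := fun x y => Subtype.ext (hgm x y) }, fun x y => rfl⟩

end uniform

section trip

variable {k L : Type} [Field k] [Field L] [Algebra k L] (ρ : L ≃ₐ[k] L) {a b c : kˣ}
  {a' b' c' : kˣ}

theorem omap_qemb (σ : L ≃ₐ[k] L) (i j : Oct a b c) (x : Qt (up L a') (up L b')) :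
    omap σ (Oct.qemb (oup L i) (oup L j) x) = Oct.qemb (oup L i) (oup L j) (qmap σ x) := by
  unfold Oct.qemb
  simp only [omap_add, omap_smul, omap_one, omap_mul, omap_oup, re_qmap, imI_qmap, imJ_qmap,
    imK_qmap]

theorem omap_emb (σ : L ≃ₐ[k] L) (i j l : Oct a b c) (x : OctL L a' b' c') :
    omap σ (Oct.emb (oup L i) (oup L j) (oup L l) x) =
      Oct.emb (oup L i) (oup L j) (oup L l) (omap σ x) := by
  unfold Oct.emb
  rw [omap_add, omap_mul, omap_qemb, omap_qemb, omap_oup]
  rfl

theorem oup_qemb (i j : Oct a b c) (x : Qt a' b') :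
    oup L (Oct.qemb i j x) = Oct.qemb (oup L i) (oup L j) (qup L x) := by
  unfold Oct.qemb
  simp only [oup_add, oup_smul, oup_one, oup_mul, re_qup, imI_qup, imJ_qup, imK_qup]

theorem oup_emb (i j l : Oct a b c) (x : Oct a' b' c') :
    oup L (Oct.emb i j l x) = Oct.emb (oup L i) (oup L j) (oup L l) (oup L x) := by
  unfold Oct.emb
  rw [oup_add, oup_mul, oup_qemb, oup_qemb]
  rfl

/-- Transport of the trialitarian group. -/
theorem exists_conj (I : Set (L ≃ₐ[k] L)) (hk : (2 : k) ≠ 0) {i j l : Oct a b c}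
    (h : Oct.Trip a' b' c' i j l) : ∃ C : TriU ρ I a' b' c' →* TriU ρ I a b c,
      IsConjU ρ I i j l C ∧ Function.Bijective C := by
  have : NeZero (2 : L) := ⟨by
    have h2 : algebraMap k L 2 ≠ 0 := by
      rw [Ne, map_eq_zero]
      exact hk
    rwa [map_ofNat] at h2⟩
  obtain ⟨Φ, h1, h2, h3, -⟩ := Oct.exists_emb (trip_up (L := L) h)
  have ho : ∀ (σ : L ≃ₐ[k] L) x, omap σ (Φ x) = Φ (omap σ x) := fun σ x => by
    rw [h1, h1, omap_emb]
  have ht : ∀ x y, Φ (tri ρ x y) = tri ρ (Φ x) (Φ y) := fun x y => by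
    unfold tri
    rw [h2, ← ho, ← ho, ← ho, h3, h3]
  have ht' : ∀ x y, Φ.symm (tri ρ x y) = tri ρ (Φ.symm x) (Φ.symm y) := fun x y => by
    apply Φ.injective
    rw [ht, Φ.apply_symm_apply, Φ.apply_symm_apply, Φ.apply_symm_apply]
  have hi : ∀ (ι : L ≃ₐ[k] L) x, Φ (invo ι x) = invo ι (Φ x) := fun ι x => by
    unfold invo
    rw [← ho, h3]
  have hi' : ∀ (ι : L ≃ₐ[k] L) x, Φ.symm (invo ι x) = invo ι (Φ.symm x) := fun ι x => by
    apply Φ.injective
    rw [hi, Φ.apply_symm_apply, Φ.apply_symm_apply]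
  let C : TriU ρ I a' b' c' →* TriU ρ I a b c :=
    { toFun := fun g => ⟨(Φ.symm.trans g.1).trans Φ, fun x y => by
        change Φ (g.1 (Φ.symm (tri ρ x y))) = tri ρ (Φ (g.1 (Φ.symm x))) (Φ (g.1 (Φ.symm y)))
        rw [ht', g.2.1, ht], fun ι hι x => by
        change Φ (g.1 (Φ.symm (invo ι x))) = invo ι (Φ (g.1 (Φ.symm x)))
        rw [hi', g.2.2 ι hι, hi]⟩
      map_one' := Subtype.ext (LinearEquiv.ext fun x => Φ.apply_symm_apply x)
      map_mul' := fun g h => Subtype.ext (LinearEquiv.ext fun x => by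
        change Φ (g.1 (h.1 (Φ.symm x))) = Φ (g.1 (Φ.symm (Φ (h.1 (Φ.symm x)))))
        rw [Φ.symm_apply_apply]) }
  have hC : ∀ g x, (C g).1 x = Φ (g.1 (Φ.symm x)) := fun g x => rfl
  refine ⟨C, fun g x => ?_, ?_, fun g => ?_⟩
  · rw [← h1, ← h1, hC, Φ.symm_apply_apply]
  · intro g h hgh
    refine Subtype.ext (LinearEquiv.ext fun x => Φ.injective ?_)
    have := hC g (Φ x)
    rw [hgh, hC, Φ.symm_apply_apply] at this
    exact this.symm
  · refine ⟨⟨(Φ.trans g.1).trans Φ.symm, fun x y => ?_, fun ι hι x => ?_⟩, ?_⟩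
    · change Φ.symm (g.1 (Φ (tri ρ x y))) = tri ρ (Φ.symm (g.1 (Φ x))) (Φ.symm (g.1 (Φ y)))
      rw [ht, g.2.1, ht']
    · change Φ.symm (g.1 (Φ (invo ι x))) = invo ι (Φ.symm (g.1 (Φ x)))
      rw [hi, g.2.2 ι hι, hi']
    · refine Subtype.ext (LinearEquiv.ext fun x => ?_)
      rw [hC]
      change Φ (Φ.symm (g.1 (Φ (Φ.symm x)))) = g.1 x
      rw [Φ.apply_symm_apply, Φ.apply_symm_apply]

end trip

end Vale.Agent.P011.D4.Em
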