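import Vale.Agent.P011.D4.Defs4

/-!
The group attached to an arbitrary cubic extension, and the uniform set-up for it.
-/

open NumberField

namespace Vale.Agent.P011.D4

open Vale.Agent.P011.MPQ

/-- The nontrivial automorphisms of the Galois closure `M` which fix the cubic field `L`. -/
def Inv (k L M : Type) [Field k] [Field L] [Field M] [Algebra k M] [Algebra L M] :
    Set (M ≃ₐ[k] M) :=
  {ι | ι ≠ 1 ∧ ∀ x : L, ι (algebraMap L M x) = algebraMap L M x}

/-- The trialitarian group attached to a cubic extension `L` of `k` with Galois closure `M`. -/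
def GD4 (L : Type) {k M : Type} [Field k] [Field L] [Field M] [Algebra k M] [Algebra L M]
    (ρ : M ≃ₐ[k] M) (a b c : kˣ) : Subgroup (OctL M a b c ≃ₗ[M] OctL M a b c) :=
  TriU ρ (Inv k L M) a b c

namespace Gl

theorem perm_facts : ∀ (x : Fin 3) (r : Equiv.Perm (Fin 3)), r * r * r = 1 → r ≠ 1 →
    (∀ s : Equiv.Perm (Fin 3), s x = x → s ≠ 1 → s * s = 1 ∧ s * r * s = r * r ∧
      ∀ t : Equiv.Perm (Fin 3), t x = x → t ≠ 1 → s = t) ∧
    ∀ g : Equiv.Perm (Fin 3), g x = x ∨ (r * g) x = x ∨ (r * r * g) x = x := by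
  decide

theorem exists_perm {G : Type*} [Group G] [Finite G] (H : Subgroup G) (hi : H.index = 3)
    (hc : H.normalCore = ⊥) : ∃ (φ : G →* Equiv.Perm (Fin 3)) (x : Fin 3),
      Function.Injective φ ∧ ∀ g, g ∈ H ↔ φ g x = x := by
  have hcard : Nat.card (G ⧸ H) = 3 := hi
  let e : (G ⧸ H) ≃ Fin 3 := Finite.equivFinOfCardEq hcard
  let ψ : Equiv.Perm (G ⧸ H) ≃* Equiv.Perm (Fin 3) := e.permCongrHom
  refine ⟨ψ.toMonoidHom.comp (MulAction.toPermHom G (G ⧸ H)), e ((1 : G) : G ⧸ H), ?_, ?_⟩
  · refine ψ.injective.comp ?_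
    rw [← MonoidHom.ker_eq_bot_iff, ← Subgroup.normalCore_eq_ker, hc]
  · intro g
    change g ∈ H ↔ e (g • (e.symm (e ((1 : G) : G ⧸ H)))) = e ((1 : G) : G ⧸ H)
    rw [e.symm_apply_apply, e.apply_eq_iff_eq]
    change g ∈ H ↔ ((g * 1 : G) : G ⧸ H) = ((1 : G) : G ⧸ H)
    rw [mul_one, eq_comm, QuotientGroup.eq, inv_one, one_mul]

/-- The facts about the group of order three or six. -/
theorem grp_facts {G : Type*} [Group G] [Finite G] (H : Subgroup G) (hi : H.index = 3)
    (hc : H.normalCore = ⊥) {ρ : G} (h3 : ρ * ρ * ρ = 1) (h1 : ρ ≠ 1) :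
    (∀ s ∈ H, s ≠ 1 → s * s = 1 ∧ s * ρ * s = ρ * ρ ∧ ∀ t ∈ H, t ≠ 1 → s = t) ∧
    ∀ g : G, g ∈ H ∨ ρ * g ∈ H ∨ ρ * ρ * g ∈ H := by
  obtain ⟨φ, x, hφ, hx⟩ := exists_perm H hi hc
  have h1' : φ ρ ≠ 1 := fun h => h1 (hφ (by rw [h, map_one]))
  have h3' : φ ρ * φ ρ * φ ρ = 1 := by rw [← map_mul, ← map_mul, h3, map_one]
  obtain ⟨hA, hB⟩ := perm_facts x (φ ρ) h3' h1'
  refine ⟨fun s hs hs1 => ?_, fun g => ?_⟩
  · obtain ⟨e1, e2, e3⟩ := hA (φ s) ((hx s).1 hs) (fun h => hs1 (hφ (by rw [h, map_one])))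
    refine ⟨hφ (by rw [map_mul, e1, map_one]), hφ (by rw [map_mul, map_mul, map_mul, e2]),
      fun t ht ht1 => hφ (e3 _ ((hx t).1 ht) (fun h => ht1 (hφ (by rw [h, map_one]))))⟩
  · rcases hB (φ g) with h | h | h
    · exact Or.inl ((hx g).2 h)
    · exact Or.inr (Or.inl ((hx _).2 (by rw [map_mul]; exact h)))
    · exact Or.inr (Or.inr ((hx _).2 (by rw [map_mul, map_mul]; exact h)))

section field

variable {k L M : Type} [Field k] [Field L] [Field M] [Algebra k L] [Algebra k M] [Algebra L M]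
  [IsScalarTower k L M]

/-- The image of the cubic field. -/
abbrev img (k L M : Type) [Field k] [Field L] [Field M] [Algebra k L] [Algebra k M] [Algebra L M]
    [IsScalarTower k L M] : IntermediateField k M := (IsScalarTower.toAlgHom k L M).fieldRange

theorem mem_fix (σ : M ≃ₐ[k] M) : σ ∈ (img k L M).fixingSubgroup ↔
    ∀ x : L, σ (algebraMap L M x) = algebraMap L M x := by
  rw [IntermediateField.mem_fixingSubgroup_iff]
  constructor
  · intro h x
    exact h _ ⟨x, rfl⟩
  · rintro h _ ⟨x, rfl⟩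
    exact h x

theorem mem_Inv (σ : M ≃ₐ[k] M) : σ ∈ Inv k L M ↔
    σ ≠ 1 ∧ σ ∈ (img k L M).fixingSubgroup := by
  rw [mem_fix]
  rfl

theorem core_bot [IsNormalClosure k L M] :
    (img k L M).fixingSubgroup.normalCore = ⊥ := by
  have : Normal k M := IsNormalClosure.normal (K := L)
  rw [eq_bot_iff]
  intro σ hσ
  rw [Subgroup.mem_bot]
  have h1 : (⊤ : IntermediateField k M) ≤
      IntermediateField.fixedField (Subgroup.zpowers σ) := by
    rw [← IsNormalClosure.adjoin_rootSet (F := k) (K := L) (L := M), iSup_le_iff]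
    intro x
    rw [IntermediateField.adjoin_le_iff]
    intro y hy
    rw [SetLike.mem_coe, IntermediateField.mem_fixedField_iff]
    have hx : IsAlgebraic k (algebraMap L M x) := Algebra.IsAlgebraic.isAlgebraic _
    have hmin : minpoly k (algebraMap L M x) = minpoly k x :=
      minpoly.algebraMap_eq (algebraMap L M).injective x
    obtain ⟨g, hg⟩ := minpoly.exists_algEquiv_of_root' hx (x := y) (by
      rw [hmin]
      exact (Polynomial.mem_rootSet.1 hy).2)
    have h2 : σ y = y := by
      have h3 : g⁻¹ * σ * g ∈ (img k L M).fixingSubgroup := by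
        have := hσ g⁻¹
        simpa using this
      have h4 := (mem_fix _).1 h3 x
      rw [AlgEquiv.mul_apply, AlgEquiv.mul_apply, hg] at h4
      have h5 := congrArg g h4
      rw [hg, ← AlgEquiv.mul_apply, mul_inv_cancel, AlgEquiv.one_apply] at h5
      exact h5
    rintro τ ⟨n, rfl⟩
    have h6 : σ ∈ MulAction.stabilizer (M ≃ₐ[k] M) y := h2
    exact Subgroup.zpow_mem _ h6 n
  apply AlgEquiv.ext
  intro m
  have h7 : m ∈ IntermediateField.fixedField (Subgroup.zpowers σ) := h1 trivial
  rw [IntermediateField.mem_fixedField_iff] at h7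
  exact h7 σ (Subgroup.mem_zpowers σ)

/-- **The uniform set-up** exists for every cubic extension. -/
theorem exists_setU [CharZero k] [FiniteDimensional k M] [IsNormalClosure k L M] (h3 : Module.finrank k L = 3) {ρ : M ≃ₐ[k] M}
    (hρ : ρ ≠ 1) (hρ3 : ∀ m, ρ (ρ (ρ m)) = m) :
    ∃ E : IntermediateField k M, SetU k E M ρ (Inv k L M) := by
  have : Normal k M := IsNormalClosure.normal (K := L)
  have : IsGalois k M := { }
  set H := (img k L M).fixingSubgroup with hH
  have hi : H.index = 3 := by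
    rw [hH, ← IntermediateField.finrank_eq_fixingSubgroup_index, ← h3]
    exact (LinearEquiv.finrank_eq
      (AlgEquiv.ofInjectiveField (IsScalarTower.toAlgHom k L M)).toLinearEquiv).symm
  have hr : ρ * ρ * ρ = 1 := AlgEquiv.ext fun m => hρ3 m
  obtain ⟨hA, hB⟩ := grp_facts H hi core_bot hr hρ
  have hI : ∀ ι, ι ∈ Inv k L M ↔ ι ≠ 1 ∧ ι ∈ H := mem_Inv
  let C : Subgroup (M ≃ₐ[k] M) := Subgroup.closure {τ | ∃ ι ∈ Inv k L M, τ = ρ * ι}
  -- the subgroup `C` and its order
  have hC : (∀ τ ∈ C, τ = 1 ∨ ∃ ι ∈ Inv k L M, τ = ρ * ι) ∧ Nat.card C = Nat.card H := by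
    by_cases hne : ∃ ι, ι ∈ Inv k L M
    · obtain ⟨ι, hι⟩ := hne
      obtain ⟨hι1, hιH⟩ := (hI ι).1 hι
      obtain ⟨e1, e2, e3⟩ := hA ι hιH hι1
      have hset : {τ | ∃ ι ∈ Inv k L M, τ = ρ * ι} = {ρ * ι} := by
        ext τ
        constructor
        · rintro ⟨ι', hι', rfl⟩
          obtain ⟨h1', h2'⟩ := (hI ι').1 hι'
          rw [e3 ι' h2' h1']
          rfl
        · rintro rfl
          exact ⟨ι, hι, rfl⟩
      have hCz : C = Subgroup.zpowers (ρ * ι) := by
        rw [Subgroup.zpowers_eq_closure, ← hset]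
      have hsq : (ρ * ι) * (ρ * ι) = 1 := by
        calc (ρ * ι) * (ρ * ι) = ρ * (ι * ρ * ι) := by group
          _ = 1 := by rw [e2, ← mul_assoc, hr]
      have hne1 : ρ * ι ≠ 1 := by
        intro h
        have h5 : ρ = ι := by
          calc ρ = ρ * (ι * ι) := by rw [e1, mul_one]
            _ = ρ * ι * ι := by group
            _ = ι := by rw [h, one_mul]
        rw [← h5] at e1
        apply hρ
        calc ρ = ρ * ρ * ρ := by rw [e1, one_mul]
          _ = 1 := hr
      have hord : orderOf (ρ * ι) = 2 :=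
        orderOf_eq_prime (by rw [pow_two, hsq]) hne1
      have hordι : orderOf ι = 2 := orderOf_eq_prime (by rw [pow_two, e1]) hι1
      refine ⟨fun τ hτ => ?_, ?_⟩
      · rw [hCz, Subgroup.mem_zpowers_iff] at hτ
        obtain ⟨n, rfl⟩ := hτ
        rcases Int.even_or_odd n with ⟨m, rfl⟩ | ⟨m, rfl⟩
        · left
          rw [← two_mul, zpow_mul, zpow_two, hsq, one_zpow]
        · right
          exact ⟨ι, hι, by rw [zpow_add, zpow_mul, zpow_two, hsq, one_zpow, one_mul, zpow_one]⟩
      · have hHz : H = Subgroup.zpowers ι := by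
          apply le_antisymm
          · intro s hs
            by_cases hs1 : s = 1
            · rw [hs1]
              exact one_mem _
            · rw [← e3 s hs hs1]
              exact Subgroup.mem_zpowers ι
          · rw [Subgroup.zpowers_le]
            exact hιH
        rw [hCz, hHz, Nat.card_zpowers, Nat.card_zpowers, hord, hordι]
    · push Not at hne
      have hset : {τ | ∃ ι ∈ Inv k L M, τ = ρ * ι} = ∅ := by
        ext τ
        constructor
        · rintro ⟨ι', hι', rfl⟩
          exact absurd hι' (hne ι')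
        · intro h
          exact absurd h (Set.notMem_empty _)
      have hCb : C = ⊥ := by
        change Subgroup.closure _ = ⊥
        rw [hset, Subgroup.closure_empty]
      have hHb : H = ⊥ := by
        rw [eq_bot_iff]
        intro s hs
        by_contra hs1
        exact hne s ((hI s).2 ⟨hs1, hs⟩)
      refine ⟨fun τ hτ => ?_, by rw [hCb, hHb]⟩
      rw [hCb, Subgroup.mem_bot] at hτ
      exact Or.inl hτ
  obtain ⟨hC1, hC2⟩ := hC
  refine ⟨IntermediateField.fixedField C, ?_⟩
  refine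
    { h3 := ?_
      r3 := hρ3
      rE := ?_
      ii := fun ι hι m => ?_
      iri := fun ι hι m => ?_
      iE := fun ι hι e => ?_
      fixE := fun m hm => ?_
      fixk := fun m hm hm2 => ?_
      sub := fun ι hι ι' hι' => ?_ }
  · rw [IntermediateField.finrank_eq_fixingSubgroup_index,
      IntermediateField.fixingSubgroup_fixedField]
    have e1 := Subgroup.card_mul_index C
    have e2 := Subgroup.card_mul_index H
    rw [hi, ← hC2] at e2
    have hpos : 0 < Nat.card C := Nat.card_pos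
    have e3 : Nat.card C * C.index = Nat.card C * 3 := by rw [e1, e2]
    exact Nat.eq_of_mul_eq_mul_left hpos e3
  · by_contra hcon
    push Not at hcon
    have h1 : ρ ∈ (IntermediateField.fixedField C).fixingSubgroup := by
      rw [IntermediateField.mem_fixingSubgroup_iff]
      intro x hx
      exact hcon ⟨x, hx⟩
    rw [IntermediateField.fixingSubgroup_fixedField] at h1
    rcases hC1 ρ h1 with h2 | ⟨ι, hι, h2⟩
    · exact hρ h2
    · apply ((hI ι).1 hι).1
      exact (mul_eq_left.1 h2.symm)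
  · obtain ⟨h1, h2⟩ := (hI ι).1 hι
    exact congrArg (fun g : M ≃ₐ[k] M => g m) (hA ι h2 h1).1
  · obtain ⟨h1, h2⟩ := (hI ι).1 hι
    exact congrArg (fun g : M ≃ₐ[k] M => g m) (hA ι h2 h1).2.1
  · have h1 := e.2
    rw [IntermediateField.mem_fixedField_iff] at h1
    exact h1 (ρ * ι) (Subgroup.subset_closure ⟨ι, hι, rfl⟩)
  · refine ⟨⟨m, ?_⟩, rfl⟩
    rw [IntermediateField.mem_fixedField_iff]
    intro τ hτ
    rcases hC1 τ hτ with h2 | ⟨ι, hι, h2⟩
    · rw [h2]
      rfl
    · rw [h2]
      exact hm ι hι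
  · have h1 : ∀ g : M ≃ₐ[k] M, g m = m := by
      have hHm : ∀ g ∈ H, g m = m := by
        intro g hg
        by_cases hg1 : g = 1
        · rw [hg1]
          rfl
        · exact hm2 g ((hI g).2 ⟨hg1, hg⟩)
      intro g
      rcases hB g with h | h | h
      · exact hHm g h
      · have h2 := hHm _ h
        rw [AlgEquiv.mul_apply] at h2
        exact ρ.injective (by rw [h2, hm])
      · have h2 := hHm _ h
        rw [AlgEquiv.mul_apply, AlgEquiv.mul_apply] at h2
        exact ρ.injective (ρ.injective (by rw [h2, hm, hm]))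
    have h2 : m ∈ (⊥ : IntermediateField k M) := by
      rw [← IsGalois.fixedField_fixingSubgroup (⊥ : IntermediateField k M),
        IntermediateField.mem_fixedField_iff]
      exact fun g _ => h1 g
    exact IntermediateField.mem_bot.1 h2
  · obtain ⟨h1, h2⟩ := (hI ι).1 hι
    obtain ⟨h3', h4⟩ := (hI ι').1 hι'
    exact (hA ι h2 h1).2.2 ι' h4 h3'

end field

end Gl

end Vale.Agent.P011.D4
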