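import Vale.Agent.P011.D4.Asm3
import Vale.Agent.P011.D4.Gal

/-!
The trialitarian group of an arbitrary cubic extension has no proper subgroup of finite index.
-/

open NumberField

namespace Vale.Agent.P011.D4

open Vale.Agent.P011.MPQ

/-- **Trialitarian groups.** For every cubic extension `L` of a number field `k`, with Galois
closure `M`, and for every octonion division algebra over `k`, the trialitarian group has no
proper subgroup of finite index. -/
theorem gd4_top {k L M : Type} [Field k] [NumberField k] [Field L] [Algebra k L] [Field M]
    [Algebra k M] [Algebra L M] [IsScalarTower k L M] [FiniteDimensional k M]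
    [IsNormalClosure k L M] (h3 : Module.finrank k L = 3) (ρ : M ≃ₐ[k] M) (hρ : ρ ≠ 1)
    (hρ3 : ρ ^ 3 = 1) {a b c : kˣ} (hdiv : Oct.Division a b c) (S : Subgroup (GD4 L ρ a b c))
    (hS : S.index ≠ 0) : S = ⊤ := by
  have h1 : ∀ m, ρ (ρ (ρ m)) = m := fun m => by
    have h := congrArg (fun g : M ≃ₐ[k] M => g m) hρ3
    simpa [pow_succ] using h
  have hM : NumberField M := NumberField.of_module_finite k M
  obtain ⟨E, hU⟩ := Gl.exists_setU (L := L) h3 hρ h1
  have hE : NumberField E := NumberField.of_module_finite k E
  exact tri_top hU hdiv S hS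

end Vale.Agent.P011.D4
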