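import Vale.Agent.P011.D4.R1
import Vale.Agent.P011.D4.NearM

/-!
Automorphisms which fix a quaternion subalgebra and are close to one at its ramified places.
-/

open NumberField IsDedekindDomain Topology

namespace Vale.Agent.P011.D4

open Vale.Agent.P011.MPQ Vale.Agent.P011.Arith

namespace Oct

variable {F : Type} [Field F] [NeZero (2 : F)] {a b c a' b' c' : Fˣ}

/-- An automorphism fixing `gi` and `gj` belongs to the long subgroup. -/
theorem exists_long (g : AutC a b c) (hi : g.1 gi = gi) (hj : g.1 gj = gj) :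
    ∃ t : SL1 a b, long a b c t = g := by
  have hfix : ∀ q : Qt a b, g.1 (⟨q, 0⟩ : Oct a b c) = ⟨q, 0⟩ := by
    intro q
    have e : (⟨q, 0⟩ : Oct a b c) = q.re • 1 + q.imI • gi + q.imJ • gj + q.imK • (gi * gj) := by
      apply ext8 <;> simp [gi, gj]
    have h4 : g.1 (gi * gj) = gi * gj := by rw [g.2, hi, hj]
    rw [e]
    simp only [map_add, map_smul, h4, hi, hj, aut_one]
  have hdot : ∀ q : Qt a b, dot (g.1 gl) (⟨q, 0⟩ : Oct a b c) = 0 := by
    intro q
    rw [← hfix q, aut_dot]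
    simp [dot, gl]
  have hfst : (g.1 gl).fst = 0 := by
    have ha := a.ne_zero
    have hb := b.ne_zero
    have h0 := hdot ⟨1, 0, 0, 0⟩
    have h1 := hdot ⟨0, 1, 0, 0⟩
    have h2 := hdot ⟨0, 0, 1, 0⟩
    have h3 := hdot ⟨0, 0, 0, 1⟩
    simp [dot, ha, hb] at h0 h1 h2 h3
    ext <;> simp [h0, h1, h2, h3]
  have hn : nrd (g.1 gl).snd = 1 := by
    have h1 := aut_norm g gl
    have hc := c.ne_zero
    have h2 : norm (gl : Oct a b c) = -(c : F) := by simp [norm, gl, nrd]
    have h3 : nrd (0 : Qt a b) = 0 := by simp [nrd]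
    rw [h2, norm, hfst, h3, zero_sub, neg_inj] at h1
    exact (mul_eq_left₀ hc).mp h1
  obtain ⟨t, ht⟩ : ∃ t : SL1 a b, ((t : (Qt a b)ˣ) : Qt a b) = (g.1 gl).snd := by
    have h1 : (g.1 gl).snd * star (g.1 gl).snd = 1 := by
      apply QuaternionAlgebra.ext <;> simp [← hn, nrd] <;> ring
    have h2 : star (g.1 gl).snd * (g.1 gl).snd = 1 := by
      apply QuaternionAlgebra.ext <;> simp [← hn, nrd] <;> ring
    exact ⟨⟨⟨_, _, h1, h2⟩, hn⟩, rfl⟩
  refine ⟨t, aut_ext ?_ ?_ ?_⟩
  · rw [hi]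
    ext1
    · rfl
    · change ((t : (Qt a b)ˣ) : Qt a b) * (0 : Qt a b) = 0
      rw [mul_zero]
  · rw [hj]
    ext1
    · rfl
    · change ((t : (Qt a b)ˣ) : Qt a b) * (0 : Qt a b) = 0
      rw [mul_zero]
  · ext1
    · rw [hfst]
      rfl
    · change ((t : (Qt a b)ˣ) : Qt a b) * (1 : Qt a b) = _
      rw [mul_one, ht]

omit [NeZero (2 : F)] in
/-- The size of a long element. -/
theorem norm_long_sub (t : SL1 a b) : norm ((long a b c t).1 gl - gl) =
    (2 - 2 * ((t : (Qt a b)ˣ) : Qt a b).re) * -(c : F) := by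
  have h1 : nrd ((t : (Qt a b)ˣ) : Qt a b) = 1 := t.2
  have e : (long a b c t).1 gl - gl = ⟨0, ((t : (Qt a b)ˣ) : Qt a b) - 1⟩ := by
    ext1
    · exact sub_self _
    · change ((t : (Qt a b)ˣ) : Qt a b) * (1 : Qt a b) - 1 = _
      rw [mul_one]
  rw [e]
  simp only [norm, nrd] at h1 ⊢
  simp
  linear_combination (c : F) * h1

omit [NeZero (2 : F)] in
theorem norm_gl : norm (gl : Oct a b c) = -(c : F) := by
  simp [norm, gl, nrd]

end Oct

variable {k : Type} [Field k] [NumberField k] {a b c a' b' c' : kˣ}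

open Oct

/-- Automorphisms which fix a quaternion subalgebra and are close to one at its ramified places
belong to the normal subgroups of finite index. -/
theorem long_mem {z u m : Oct a b c} (ht : Trip a' b' c' z u m) (hab : Aniso a' b')
    (N : Subgroup (AutC a b c)) (hN : N.Normal) (hi : N.index ≠ 0) {e : ℕ} (he : 0 < e)
    (hexp : ∀ g : AutC a b c, g ^ e ∈ N) (φ : AutC a b c) (hz : φ.1 z = z) (hu : φ.1 u = u)
    (hv : ∀ w : HeightOneSpectrum (𝓞 k), Ram a' b' w →
      w.valuation k (norm (φ.1 m - m) / norm m) < w.valuation k (4 * (e : k) ^ 4)) :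
    φ ∈ N := by
  obtain ⟨Φ, hΦ, hm, hst, hnm⟩ := exists_emb ht
  have ez : Φ gi = z := by
    rw [hΦ]
    simp [Oct.emb, qemb, gi]
  have eu : Φ gj = u := by
    rw [hΦ]
    simp [Oct.emb, qemb, gj]
  have em : Φ gl = m := by
    rw [hΦ]
    simp [Oct.emb, qemb, gl]
  have hs : ∀ x y, Φ.symm (x * y) = Φ.symm x * Φ.symm y := by
    intro x y
    apply Φ.injective
    rw [hm, Φ.apply_symm_apply, Φ.apply_symm_apply, Φ.apply_symm_apply]
  -- the automorphism in the new coordinates
  have hback : ∀ g : AutC a b c, conjA Φ hm (conjA Φ.symm hs g) = g := by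
    intro g
    apply Subtype.ext
    apply LinearEquiv.ext
    intro x
    change Φ (Φ.symm (g.1 (Φ.symm.symm (Φ.symm x)))) = g.1 x
    rw [Φ.apply_symm_apply, LinearEquiv.symm_symm, Φ.apply_symm_apply]
  obtain ⟨t, ht'⟩ := exists_long (conjA Φ.symm hs φ) (by
      change Φ.symm (φ.1 (Φ.symm.symm gi)) = gi
      rw [LinearEquiv.symm_symm, ez, hz, ← ez, Φ.symm_apply_apply])
    (by
      change Φ.symm (φ.1 (Φ.symm.symm gj)) = gj
      rw [LinearEquiv.symm_symm, eu, hu, ← eu, Φ.symm_apply_apply])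
  have hmem : t ∈ (N.comap (conjA Φ hm)).comap (long a' b' c') := by
    have hN1 : (N.comap (conjA Φ hm)).Normal := hN.comap _
    have hN2 : ((N.comap (conjA Φ hm)).comap (long a' b' c')).Normal := hN1.comap _
    refine sl_near hab he _ hN2 ?_ (fun g => ?_) t fun w hw => ?_
    · rw [Subgroup.comap_comap, Subgroup.index_comap]
      exact fun h0 => hi (Nat.eq_zero_of_zero_dvd (h0 ▸ N.relIndex_dvd_index_of_normal _))
    · change conjA Φ hm (long a' b' c' (g ^ e)) ∈ N
      rw [map_pow, map_pow]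
      exact hexp _
    · have h1 := hv w hw
      have e1 : norm (φ.1 m - m) / norm m = 2 - 2 * ((t : (Qt a' b')ˣ) : Qt a' b').re := by
        have e2 : φ.1 m - m = Φ ((long a' b' c' t).1 gl - gl) := by
          rw [map_sub, em, ht']
          change _ = Φ (Φ.symm (φ.1 (Φ.symm.symm gl))) - m
          rw [Φ.apply_symm_apply, LinearEquiv.symm_symm, em]
        rw [e2, hnm, norm_long_sub, ← em, hnm, norm_gl]
        have hc := c'.ne_zero
        field_simp
      rwa [e1] at h1
  change conjA Φ hm (long a' b' c' t) ∈ N at hmem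
  rwa [ht', hback] at hmem

end Vale.Agent.P011.D4
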