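import Vale.Agent.P011.D4.NTS
import Vale.Agent.P011.D4.LongMem
import Vale.Agent.P011.Two.SplitElt

/-!
The arithmetic choices for the group of type `G₂`.
-/

open NumberField IsDedekindDomain Topology

namespace Vale.Agent.P011.D4

open Vale.Agent.P011.MPQ Vale.Agent.P011.Arith

variable {k : Type} [Field k] [NumberField k] {a b c : kˣ}

/-- There is a third vector whose square is close to one at the ramified places of `(a, b)`. -/
theorem exists_third {c0 : kˣ} (hdiv : Oct.Division a b c0) : ∃ (q : Qt a b) (c c1 : kˣ),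
    (c : k) = c0 * nrd q ∧
    (c1 : k) = ((((b : k) + 1) / 2) ^ 2 - c * (((b : k) - 1) / 2) ^ 2) * b ∧
    ∀ w : HeightOneSpectrum (𝓞 k), Ram a b w → ¬ Ram a c w ∧ ¬ Ram a c1 w := by
  obtain ⟨β, hβ⟩ : ∃ β, β = ((b : k) - 1) / 2 := ⟨_, rfl⟩
  have hb0 : (b : k) ≠ 0 := b.ne_zero
  have hc00 : (c0 : k) ≠ 0 := c0.ne_zero
  have hT := ram_finite a b
  -- the local precision
  have hδ : ∀ p : Pl k, 0 < plAbv p 4 / (plAbv p (c0 : k) * (1 + plAbv p (β ^ 2 / b))) := by
    intro p
    have h4 : 0 < plAbv p (4 : k) := (plAbv p).pos (by norm_num)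
    have hc : 0 < plAbv p (c0 : k) := (plAbv p).pos hc00
    have := (plAbv p).nonneg (β ^ 2 / b)
    positivity
  obtain ⟨f, hf⟩ := approx (SP {w | Ram a b w}) ((hT.image _).union (Set.finite_range _))
    (Sum.elim (fun _ => (c0 : k)⁻¹) (fun _ => 1))
    (fun p => min 1 (plAbv p 4 / (plAbv p (c0 : k) * (1 + plAbv p (β ^ 2 / b)))))
    (fun p => lt_min one_pos (hδ p))
  have hreal : ∀ φ : k →+* ℝ, 0 < φ f := by
    intro φ
    have h := (hf (Sum.inr φ) inr_mem_SP).trans_le (min_le_left _ _)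
    rw [Sum.elim_inr, plAbv_inr, map_sub, map_one, abs_lt] at h
    linarith [h.1]
  have hfin : ∀ w, Ram a b w → plAbv (Sum.inl w) (c0 * f - 1) * (1 + plAbv (Sum.inl w) (β ^ 2 / b))
      < plAbv (Sum.inl w) (4 : k) := by
    intro w hw
    have h := (hf (Sum.inl w) (inl_mem_SP.mpr hw)).trans_le (min_le_right _ _)
    have hc : 0 < plAbv (Sum.inl w) (c0 : k) := (plAbv _).pos hc00
    have := (plAbv (Sum.inl w)).nonneg (β ^ 2 / (b : k))
    rw [Sum.elim_inl, lt_div_iff₀ (by positivity)] at h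
    have e : (c0 : k) * f - 1 = c0 * (f - (c0 : k)⁻¹) := by field_simp
    rw [e, map_mul]
    linarith
  obtain ⟨g, hg0, hgr, hgf⟩ : ∃ g : k, g ≠ 0 ∧ (∀ φ : k →+* ℝ, 0 < φ g) ∧ ∀ w, Ram a b w →
      plAbv (Sum.inl w) (c0 * g - 1) * (1 + plAbv (Sum.inl w) (β ^ 2 / b))
      < plAbv (Sum.inl w) (4 : k) := by
    by_cases hf0 : f = 0
    · refine ⟨1, one_ne_zero, fun φ => by simp, fun w hw => ?_⟩
      exfalso
      have h := hfin w hw
      rw [hf0, mul_zero, zero_sub, AbsoluteValue.map_neg, map_one, one_mul] at h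
      have h1 : ¬ 1 < plAbv (Sum.inl w) (4 : k) := by
        have h2 : (1 : ℝ) = plAbv (Sum.inl w) (1 : k) := (map_one _).symm
        rw [h2, plAbv_lt, map_one, not_lt]
        exact val_four_le _
      have := (plAbv (Sum.inl w)).nonneg (β ^ 2 / (b : k))
      linarith
    · exact ⟨f, hf0, hreal, hfin⟩
  obtain ⟨q, hq⟩ := exists_nrd (a := a) (b := b) (Units.mk0 g hg0) fun φ _ _ => hgr φ
  rw [Units.val_mk0] at hq
  have hne : (((b : k) + 1) / 2) ^ 2 - (c0 * g) * (((b : k) - 1) / 2) ^ 2 ≠ 0 := by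
    intro h
    have h1 := hdiv ⟨⟨((b : k) + 1) / 2, 0, 0, 0⟩, (((b : k) - 1) / 2) • q⟩ (by
      have e : nrd ((((b : k) - 1) / 2) • q) = (((b : k) - 1) / 2) ^ 2 * nrd q := by
        simp only [nrd, QuaternionAlgebra.re_smul, QuaternionAlgebra.imI_smul,
          QuaternionAlgebra.imJ_smul, QuaternionAlgebra.imK_smul, smul_eq_mul]
        ring
      rw [Oct.norm, e, hq]
      simp only [nrd]
      linear_combination h)
    have h2 : ((b : k) + 1) / 2 = 0 := congrArg (fun x : Oct a b c0 => x.fst.re) h1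
    have h3 : (((b : k) - 1) / 2) • q = 0 := congrArg Oct.snd h1
    rcases smul_eq_zero.mp h3 with h4 | h4
    · have : (1 : k) = 0 := by linear_combination h2 - h4
      exact one_ne_zero this
    · rw [h4] at hq
      apply hg0
      rw [← hq]
      simp [nrd]
  refine ⟨q, c0 * Units.mk0 g hg0, Units.mk0 (((((b : k) + 1) / 2) ^ 2 -
    (c0 * g) * (((b : k) - 1) / 2) ^ 2) * b) (mul_ne_zero hne hb0), ?_, ?_, fun w hw => ?_⟩
  · rw [hq]
    rfl
  · rfl
  · have h := hgf w hw
    have hβ0 := (plAbv (Sum.inl w)).nonneg (β ^ 2 / (b : k))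
    have hn0 := (plAbv (Sum.inl w)).nonneg (c0 * g - 1)
    have h1 : w.valuation k (c0 * g - 1) < w.valuation k 4 := by
      rw [← plAbv_lt]
      nlinarith
    have h2 : w.valuation k ((c0 * g - 1) * (β ^ 2 / b)) < w.valuation k 4 := by
      rw [← plAbv_lt, map_mul]
      nlinarith
    constructor
    · intro h3
      refine h3 ((le_sup_right : LS (w.valuation k) ≤ NF a ⊔ LS (w.valuation k))
        (mem_LS.mpr ⟨1, ?_⟩))
      simpa using h1
    · intro h3
      refine h3 ((le_sup_right : LS (w.valuation k) ≤ NF a ⊔ LS (w.valuation k))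
        (mem_LS.mpr ⟨b, ?_⟩))
      have e : ((Units.mk0 (((((b : k) + 1) / 2) ^ 2 -
          (c0 * g) * (((b : k) - 1) / 2) ^ 2) * b) (mul_ne_zero hne hb0) : kˣ) : k) /
          (b : k) ^ 2 - 1 = -((c0 * g - 1) * (β ^ 2 / b)) := by
        rw [Units.val_mk0, hβ]
        field_simp
        ring
      rw [e, Valuation.map_neg]
      exact h2

/-- A nontrivial element of norm one of a quadratic extension close to one. -/
theorem exists_kappa (ha : ∀ x : k, x ^ 2 ≠ a) {T : Set (HeightOneSpectrum (𝓞 k))}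
    (hT : T.Finite) {e : ℕ} (he : 0 < e) : ∃ x y : k, x ^ 2 - a * y ^ 2 = 1 ∧ y ≠ 0 ∧
      ∀ w ∈ T, w.valuation k (2 - 2 * x) < w.valuation k (4 * (e : k) ^ 4) := by
  obtain ⟨M, hM0, hM⟩ := Two.exists_nat_lt hT.toFinset
  obtain ⟨m, hm0, z, hz⟩ := Two.exists_nat_mul_int (a : k)
  obtain ⟨s, hs⟩ : ∃ s : k, s = M * m * e ^ 2 := ⟨_, rfl⟩
  have hs0 : s ≠ 0 := by
    rw [hs]
    have h1 : (M : k) ≠ 0 := Nat.cast_ne_zero.mpr hM0.ne'
    have h2 : (m : k) ≠ 0 := Nat.cast_ne_zero.mpr hm0.ne'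
    have h3 : (e : k) ≠ 0 := Nat.cast_ne_zero.mpr he.ne'
    positivity
  have hden : 1 - (a : k) * s ^ 2 ≠ 0 := by
    intro h
    apply ha s⁻¹
    field_simp
    linear_combination h
  refine ⟨(1 + a * s ^ 2) / (1 - a * s ^ 2), 2 * s / (1 - a * s ^ 2), ?_, ?_, fun w hw => ?_⟩
  · field_simp
    ring
  · exact div_ne_zero (mul_ne_zero two_ne_zero hs0) hden
  · have hMw : w.valuation k (M : k) < 1 := hM w (hT.mem_toFinset.mpr hw)
    have h1 : w.valuation k ((a : k) * s ^ 2) ≤ w.valuation k (M : k) * w.valuation k ((e : k) ^ 4) := by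
      have e1 : (a : k) * s ^ 2 = (M : k) * ((M : k) * (m : k) * (z : k)) * (e : k) ^ 4 := by
        rw [hz, hs]
        ring
      rw [e1, map_mul, map_mul]
      have h2 : w.valuation k ((M : k) * (m : k) * (z : k)) ≤ 1 := by
        rw [map_mul, map_mul]
        exact mul_le_one' (mul_le_one' (Two.val_nat_le w M) (Two.val_nat_le w m))
          (w.valuation_le_one z)
      calc _ ≤ w.valuation k (M : k) * 1 * w.valuation k ((e : k) ^ 4) := by gcongr
        _ = _ := by rw [mul_one]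
    have he4 : w.valuation k ((e : k) ^ 4) ≠ 0 :=
      (Valuation.ne_zero_iff _).mpr (pow_ne_zero _ (Nat.cast_ne_zero.mpr he.ne'))
    have h3 : w.valuation k ((a : k) * s ^ 2) < w.valuation k ((e : k) ^ 4) := by
      refine h1.trans_lt ?_
      calc _ < 1 * w.valuation k ((e : k) ^ 4) :=
            mul_lt_mul_of_pos_right hMw (zero_lt_iff.mpr he4)
        _ = _ := one_mul _
    have h4 : w.valuation k ((e : k) ^ 4) ≤ 1 := by
      rw [map_pow]
      exact pow_le_one₀ zero_le (Two.val_nat_le w e)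
    have h5 : w.valuation k (1 - (a : k) * s ^ 2) = 1 := by
      have := (w.valuation k).map_one_add_of_lt (x := -((a : k) * s ^ 2))
        (by rw [Valuation.map_neg]; exact h3.trans_le h4)
      rwa [← sub_eq_add_neg] at this
    have e2 : 2 - 2 * ((1 + (a : k) * s ^ 2) / (1 - a * s ^ 2)) =
        -(4 * ((a : k) * s ^ 2) / (1 - a * s ^ 2)) := by
      field_simp
      ring
    rw [e2, Valuation.map_neg, map_div₀, h5, div_one, map_mul, map_mul _ (4 : k)]
    exact mul_lt_mul_of_pos_left h3 (zero_lt_iff.mpr ((Valuation.ne_zero_iff _).mpr (by norm_num)))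

end Vale.Agent.P011.D4
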