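import Vale.Agent.P011.D4.BStep
import Vale.Agent.P011.D4.G2Ar
import Vale.Agent.P011.D4.B3

/-!
The automorphism group of a division octonion algebra over a number field has no proper subgroup
of finite index which is normal.
-/

open NumberField IsDedekindDomain Topology

namespace Vale.Agent.P011.D4

open Vale.Agent.P011.MPQ Vale.Agent.P011.Arith Oct

open scoped Vale.Agent.P011.D4.B

namespace G2

variable {k : Type} [Field k] [NumberField k]

/-- The topology given by a nonempty set of places is separated. -/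
theorem topS_t1 {S : Set (Pl k)} (hS : S.Finite) (hne : S.Nonempty) :
    @T1Space k (topS S) := by
  obtain ⟨p, hp⟩ := hne
  let _ := topS S
  rw [t1Space_iff_specializes_imp_eq]
  intro x y h
  by_contra hxy
  have hpos : 0 < plAbv p (x - y) := (plAbv p).pos (sub_ne_zero.mpr hxy)
  have hU : {z | plAbv p (z - y) < plAbv p (x - y)} ∈ 𝓝 y :=
    (nhds_topS hS y _).mpr ⟨_, hpos, fun z hz => hz p hp⟩
  have h1 : x ∈ {z | plAbv p (z - y) < plAbv p (x - y)} := mem_of_mem_nhds (h hU)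
  have h2 : plAbv p (x - y) < plAbv p (x - y) := h1
  exact lt_irrefl _ h2

/-- The elements small at some primes form an open set. -/
theorem isOpen_small {S : Set (Pl k)} (hS : S.Finite) {T : Set (HeightOneSpectrum (𝓞 k))}
    (hT : ∀ w ∈ T, (Sum.inl w : Pl k) ∈ S) {r : k} (hr : r ≠ 0) :
    @IsOpen k (topS S) {x | ∀ w ∈ T, w.valuation k x < w.valuation k r} := by
  let _ := topS S
  rw [isOpen_iff_mem_nhds]
  intro x hx
  have hfin : Finite S := hS
  obtain ⟨ε, hε, hmin⟩ : ∃ ε : ℝ, 0 < ε ∧ ∀ p ∈ S, ε ≤ plAbv p r := by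
    by_cases hne : Nonempty S
    · obtain ⟨p0, hp0⟩ := Finite.exists_min (fun p : S => plAbv (p : Pl k) r)
      exact ⟨_, (plAbv (p0 : Pl k)).pos hr, fun p hp => hp0 ⟨p, hp⟩⟩
    · exact ⟨1, one_pos, fun p hp => absurd ⟨⟨p, hp⟩⟩ hne⟩
  refine (nhds_topS hS x _).mpr ⟨ε, hε, fun y hy w hw => ?_⟩
  have h1 := (hy _ (hT w hw)).trans_le (hmin _ (hT w hw))
  rw [plAbv_lt] at h1
  have e : y = (y - x) + x := by ring
  rw [e]
  exact Valuation.map_add_lt _ h1 (hx w hw)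

/-- Neighbourhoods of one in the quaternion algebra. -/
theorem exists_eps {S : Set (Pl k)} (hS : S.Finite) {a b : kˣ} {A : Set (Qt a b)}
    (hA : A ∈ @nhds (Qt a b) (@B.qTop k _ a b (topS S)) 1) :
    ∃ ε : ℝ, 0 < ε ∧ ∀ x : Qt a b, (∀ p ∈ S, QIn {y | plAbv p y < ε} (x - 1)) → x ∈ A := by
  let _ := topS S
  change A ∈ 𝓝 (1 : Qt a b) at hA
  rw [nhds_induced, Filter.mem_comap] at hA
  obtain ⟨U, hU, hUA⟩ := hA
  rw [B.qco, nhds_prod_eq, nhds_prod_eq, nhds_prod_eq] at hU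
  obtain ⟨U0, hU0, U1, hU1, h1⟩ := Filter.mem_prod_iff.mp hU
  obtain ⟨U2, hU2, U3, hU3, h2⟩ := Filter.mem_prod_iff.mp hU1
  obtain ⟨U4, hU4, U5, hU5, h3⟩ := Filter.mem_prod_iff.mp hU3
  obtain ⟨ε0, hε0, k0⟩ := (nhds_topS hS _ _).mp hU0
  obtain ⟨ε1, hε1, k1⟩ := (nhds_topS hS _ _).mp hU2
  obtain ⟨ε2, hε2, k2⟩ := (nhds_topS hS _ _).mp hU4
  obtain ⟨ε3, hε3, k3⟩ := (nhds_topS hS _ _).mp hU5
  refine ⟨min ε0 (min ε1 (min ε2 ε3)), by positivity, fun x hx => hUA (h1 ⟨?_, h2 ⟨?_, h3 ⟨?_, ?_⟩⟩⟩)⟩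
  · exact k0 _ fun p hp => (hx p hp).1.trans_le (min_le_left _ _)
  · exact k1 _ fun p hp => (hx p hp).2.1.trans_le ((min_le_right _ _).trans (min_le_left _ _))
  · exact k2 _ fun p hp => (hx p hp).2.2.1.trans_le
      ((min_le_right _ _).trans ((min_le_right _ _).trans (min_le_left _ _)))
  · exact k3 _ fun p hp => (hx p hp).2.2.2.trans_le
      ((min_le_right _ _).trans ((min_le_right _ _).trans (min_le_right _ _)))

/-- The norm of a small quaternion is small. -/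
theorem nrd_small {a b : kˣ} {T : Set (HeightOneSpectrum (𝓞 k))} (hT : T.Finite) {r : k}
    (hr : r ≠ 0) : ∃ ε : ℝ, 0 < ε ∧ ∀ w ∈ T, ∀ x : Qt a b,
      QIn {y | plAbv (Sum.inl w) y < ε} x → w.valuation k (nrd x) < w.valuation k r := by
  have hfin : Finite T := hT
  have key : ∀ w : HeightOneSpectrum (𝓞 k), ∃ ε : ℝ, 0 < ε ∧ ∀ x : Qt a b,
      QIn {y | plAbv (Sum.inl w) y < ε} x → w.valuation k (nrd x) < w.valuation k r := by
    intro w
    obtain ⟨A, hA⟩ : ∃ A, A = plAbv (Sum.inl w : Pl k) := ⟨_, rfl⟩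
    obtain ⟨C, hC⟩ : ∃ C, C = 1 + A a + A b + A a * A b := ⟨_, rfl⟩
    have ha := A.nonneg (a : k)
    have hb := A.nonneg (b : k)
    have hC0 : 0 < C := by rw [hC]; positivity
    have hr0 : 0 < A r := A.pos hr
    refine ⟨min 1 (A r / C), by positivity, fun x hx => ?_⟩
    obtain ⟨h0, h1, h2, h3⟩ := hx
    rw [← hA] at h0 h1 h2 h3
    have sq : ∀ y : k, A y < min 1 (A r / C) → A (y ^ 2) ≤ A r / C ∧ A (y ^ 2) < A r / C := by
      intro y hy
      obtain ⟨h4, h5⟩ := lt_min_iff.mp hy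
      have h6 := A.nonneg y
      rw [map_pow]
      constructor
      · nlinarith
      · nlinarith
    have q0 := (sq _ h0).2
    have q1 := (sq _ h1).1
    have q2 := (sq _ h2).1
    have q3 := (sq _ h3).1
    rw [← plAbv_lt, ← hA]
    have e : nrd x = x.re ^ 2 + -(a * x.imI ^ 2) + -(b * x.imJ ^ 2) + a * b * x.imK ^ 2 := by
      simp only [nrd]; ring
    have t1 := A.add_le (x.re ^ 2 + -(a * x.imI ^ 2) + -(b * x.imJ ^ 2)) (a * b * x.imK ^ 2)
    have t2 := A.add_le (x.re ^ 2 + -(a * x.imI ^ 2)) (-(b * x.imJ ^ 2))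
    have t3 := A.add_le (x.re ^ 2) (-(a * x.imI ^ 2))
    rw [A.map_neg, map_mul] at t2 t3
    rw [map_mul A ((a : k) * b), map_mul A (a : k)] at t1
    have m1 : A a * A (x.imI ^ 2) ≤ A a * (A r / C) := mul_le_mul_of_nonneg_left q1 ha
    have m2 : A b * A (x.imJ ^ 2) ≤ A b * (A r / C) := mul_le_mul_of_nonneg_left q2 hb
    have m3 : A a * A b * A (x.imK ^ 2) ≤ A a * A b * (A r / C) :=
      mul_le_mul_of_nonneg_left q3 (by positivity)
    rw [e]
    have hfinal : C * (A r / C) = A r := by field_simp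
    have e2 : C * (A r / C) = A r / C + A a * (A r / C) + A b * (A r / C) + A a * A b * (A r / C) := by
      rw [hC]; ring
    linarith
  choose ε hε h using key
  by_cases hne : Nonempty T
  · obtain ⟨p0, hp0⟩ := Finite.exists_min (fun p : T => ε p)
    refine ⟨ε p0, hε _, fun w hw x hx => h w x ?_⟩
    have h1 := hp0 ⟨w, hw⟩
    exact ⟨lt_of_lt_of_le hx.1 h1, lt_of_lt_of_le hx.2.1 h1, lt_of_lt_of_le hx.2.2.1 h1,
      lt_of_lt_of_le hx.2.2.2 h1⟩
  · exact ⟨1, one_pos, fun w hw => absurd ⟨⟨w, hw⟩⟩ hne⟩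

variable {a b c : kˣ}

theorem exists_real (hdiv : Division a b c) : ∃ _ : k →+* ℝ, True := by
  by_contra hcon
  push Not at hcon
  obtain ⟨q, hq⟩ := exists_nrd (a := a) (b := b) c fun φ _ _ => (hcon φ).elim
  have h := hdiv ⟨q, 1⟩ (by
    have e : nrd (1 : Qt a b) = 1 := nrd_one
    rw [Oct.norm, hq, e, mul_one, sub_self])
  have h1 : (1 : Qt a b) = 0 := congrArg Oct.snd h
  have h2 : (1 : k) = 0 := by simpa using congrArg (fun x : Qt a b => x.re) h1
  exact one_ne_zero h2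

/-- The property `HasL` for normal subgroups of finite index. -/
theorem hasL (hdiv : Division a b c) (N : Subgroup (AutC a b c)) (hN : N.Normal)
    (hi : N.index ≠ 0) {e : ℕ} (he : 0 < e) (hexp : ∀ g : AutC a b c, g ^ e ∈ N) {V : Set k}
    {a' b' : kˣ} (hV : ∀ x ∈ V, ∀ w : HeightOneSpectrum (𝓞 k), Ram a' b' w →
      w.valuation k x < w.valuation k (4 * (e : k) ^ 4)) : B.HasL N V a' b' := by
  intro c' z u m ht g hz hu hg
  exact long_mem ht (aniso_of_trip hdiv ht).1 N hN hi he hexp g hz hu fun w hw => hV _ hg w hw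

/-- The long subgroup lies in every normal subgroup of finite index. -/
theorem long_all (hdiv : Division a b c) {c1 : kˣ}
    (hc1 : (c1 : k) = ((((b : k) + 1) / 2) ^ 2 - c * (((b : k) - 1) / 2) ^ 2) * b)
    (hram : ∀ w : HeightOneSpectrum (𝓞 k), Ram a b w → ¬ Ram a c w ∧ ¬ Ram a c1 w)
    (N : Subgroup (AutC a b c)) (hN : N.Normal) (hi : N.index ≠ 0) {e : ℕ} (he : 0 < e)
    (hexp : ∀ g : AutC a b c, g ^ e ∈ N) (t : SL1 a b) : long a b c t ∈ N := by
  classical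
  have h2 : (2 : k) ≠ 0 := two_ne_zero
  have hab := hdiv.aniso
  have hr : (4 : k) * (e : k) ^ 4 ≠ 0 :=
    mul_ne_zero (by norm_num) (pow_ne_zero _ (Nat.cast_ne_zero.mpr he.ne'))
  obtain ⟨T, hT⟩ : ∃ T, T = {w : HeightOneSpectrum (𝓞 k) | Ram a c w ∨ Ram a c1 w} := ⟨_, rfl⟩
  have hTf : T.Finite := by
    rw [hT]
    exact (ram_finite a c).union (ram_finite a c1)
  obtain ⟨S, hSd⟩ : ∃ S : Set (Pl k), S = SP T := ⟨_, rfl⟩
  have hS : S.Finite := by
    rw [hSd]
    exact (hTf.image _).union (Set.finite_range _)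
  have hTS : ∀ w ∈ T, (Sum.inl w : Pl k) ∈ S := fun w hw => by
    rw [hSd]
    exact inl_mem_SP.mpr hw
  have hrS : ∀ φ : k →+* ℝ, (Sum.inr φ : Pl k) ∈ S := fun φ => by
    rw [hSd]
    exact inr_mem_SP
  obtain ⟨φ0, -⟩ := exists_real hdiv
  -- the vector `j1`
  obtain ⟨j1, hj1⟩ : ∃ j1 : Oct a b c, j1 = ⟨⟨0, 0, ((b : k) + 1) / 2, 0⟩,
    ⟨0, 0, ((b : k) - 1) / 2, 0⟩⟩ := ⟨_, rfl⟩
  have hnj : norm j1 = -(c1 : k) := by
    rw [hj1, hc1]
    simp only [Oct.norm, nrd]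
    ring
  have hni : norm (gi : Oct a b c) = -(a : k) := by
    simp [Oct.norm, gi, nrd]
  have hsi : star (gi : Oct a b c) = -gi := trip_std.si
  have hpair : B.Pair (gi : Oct a b c) j1 := by
    refine ⟨hsi, ?_, ?_, ?_, ?_⟩
    · rw [hj1]
      apply ext8 <;> simp
    · rw [hni]
      exact neg_ne_zero.mpr a.ne_zero
    · rw [hnj]
      exact neg_ne_zero.mpr c1.ne_zero
    · rw [hj1]
      simp [dot, gi]
  have hperp : B.Perp (gi : Oct a b c) j1 gl := by
    rw [hj1]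
    refine ⟨?_, ?_, ?_, ?_⟩ <;> simp [dot, gi, gl]
  -- the element `κ`
  have ha : ∀ x : k, x ^ 2 ≠ a := by
    intro x hx
    have h := hab ⟨x, 1, 0, 0⟩ (by simp only [nrd]; linear_combination hx)
    have h3 : (1 : k) = 0 := congrArg QuaternionAlgebra.imI h
    exact one_ne_zero h3
  obtain ⟨x, y, hxy, hy0, hκ⟩ := exists_kappa ha hTf he
  have hx1 : x ≠ 1 := by
    rintro rfl
    have h3 : (a : k) * y ^ 2 = 0 := by linear_combination -hxy
    rcases mul_eq_zero.mp h3 with h4 | h4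
    · exact a.ne_zero h4
    · exact hy0 (pow_eq_zero_iff two_ne_zero |>.mp h4)
  obtain ⟨V, hV⟩ : ∃ V : Set k, V = {x | ∀ w ∈ T, w.valuation k x < w.valuation k
    (4 * (e : k) ^ 4)} := ⟨_, rfl⟩
  have hV0 : (0 : k) ∈ V := by
    rw [hV]
    intro w _
    rw [map_zero]
    exact zero_lt_iff.mpr ((Valuation.ne_zero_iff _).mpr hr)
  have hL1 : B.HasL N V a c1 := hasL hdiv N hN hi he hexp fun x hx w hw => by
    rw [hV] at hx
    exact hx w (by rw [hT]; exact Or.inr hw)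
  have hL2 : B.HasL N V a c := hasL hdiv N hN hi he hexp fun x hx w hw => by
    rw [hV] at hx
    exact hx w (by rw [hT]; exact Or.inl hw)
  -- elements close to one
  obtain ⟨ε1, hε1, hnear⟩ : ∃ ε : ℝ, 0 < ε ∧ ∀ t : SL1 a b,
      (∀ p ∈ S, QIn {y | plAbv p y < ε} (((t : (Qt a b)ˣ) : Qt a b) - 1)) →
        long a b c t ∈ N := by
    let _ := topS S
    have _ : IsTopologicalRing k := topS_ring
    have _ : ContinuousInv₀ k := topS_inv
    have _ : T1Space k := topS_t1 hS ⟨_, hrS φ0⟩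
    have hVo : IsOpen V := by
      rw [hV]
      exact isOpen_small hS hTS hr
    obtain ⟨A, hA, h⟩ := B.near_step h2 (nt hS hrS) hdiv N hpair hnj hperp hVo hV0 hL1 hL2 hxy
      (by rw [hV]; exact hκ) hx1
    obtain ⟨ε, hε, h3⟩ := exists_eps hS hA
    exact ⟨ε, hε, fun t ht => h t (h3 _ ht)⟩
  obtain ⟨ε2, hε2, hsmall⟩ := nrd_small (a := a) (b := b) (ram_finite a b) hr
  -- weak approximation
  obtain ⟨s, hs⟩ := wa_SL1 (S := S ∪ Sum.inl '' {w | Ram a b w})
    (hS.union ((ram_finite a b).image _)) hab (fun p => if p ∈ S then 1 else t)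
    (lt_min hε1 hε2)
  have hsN : long a b c s ∈ N := by
    refine hnear s fun p hp => ?_
    have h := hs p (Or.inl hp)
    rw [if_pos hp] at h
    have h1 : ∀ y, plAbv p y < min ε1 ε2 → plAbv p y < ε1 := fun y hy =>
      hy.trans_le (min_le_left _ _)
    exact ⟨h1 _ h.1, h1 _ h.2.1, h1 _ h.2.2.1, h1 _ h.2.2.2⟩
  have hst : s⁻¹ * t ∈ N.comap (long a b c) := by
    have hN1 : (N.comap (long a b c)).Normal := hN.comap _
    refine sl_near hab he _ hN1 ?_ (fun g => ?_) _ fun w hw => ?_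
    · rw [Subgroup.index_comap]
      exact fun h0 => hi (Nat.eq_zero_of_zero_dvd (h0 ▸ N.relIndex_dvd_index_of_normal _))
    · change long a b c (g ^ e) ∈ N
      rw [map_pow]
      exact hexp _
    · have hwS : (Sum.inl w : Pl k) ∉ S := by
        rw [hSd, inl_mem_SP, hT]
        rintro (h | h)
        · exact (hram w hw).1 h
        · exact (hram w hw).2 h
      have h := hs (Sum.inl w) (Or.inr ⟨w, hw, rfl⟩)
      rw [if_neg hwS] at h
      have h1 : ∀ y, plAbv (Sum.inl w) y < min ε1 ε2 → plAbv (Sum.inl w) y < ε2 := fun y hy =>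
        hy.trans_le (min_le_right _ _)
      have h3 := hsmall w hw _ ⟨h1 _ h.1, h1 _ h.2.1, h1 _ h.2.2.1, h1 _ h.2.2.2⟩
      have hs1 : nrd ((s : (Qt a b)ˣ) : Qt a b) = 1 := s.2
      have ht1 : nrd ((t : (Qt a b)ˣ) : Qt a b) = 1 := t.2
      have hinv : (((s⁻¹ : SL1 a b) : (Qt a b)ˣ) : Qt a b) = star ((s : (Qt a b)ˣ) : Qt a b) := by
        change ((s : (Qt a b)ˣ)⁻¹ : (Qt a b)ˣ).1 = _
        apply Units.inv_eq_of_mul_eq_one_right
        apply QuaternionAlgebra.ext <;> simp [← hs1, nrd] <;> ring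
      have e1 : 2 - 2 * (((s⁻¹ * t : SL1 a b) : (Qt a b)ˣ) : Qt a b).re =
          nrd (((s : (Qt a b)ˣ) : Qt a b) - ((t : (Qt a b)ˣ) : Qt a b)) := by
        have e2 : (((s⁻¹ * t : SL1 a b) : (Qt a b)ˣ) : Qt a b) =
            star ((s : (Qt a b)ˣ) : Qt a b) * ((t : (Qt a b)ˣ) : Qt a b) := by
          rw [← hinv]
          rfl
        rw [e2]
        simp only [nrd] at hs1 ht1 ⊢
        simp
        linear_combination -hs1 - ht1
      rw [e1]
      exact h3
  have h5 : long a b c (s * (s⁻¹ * t)) ∈ N := by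
    rw [map_mul]
    exact mul_mem hsN hst
  rwa [mul_inv_cancel_left] at h5

end G2

/-- **G2.** -/
theorem g2 {k : Type} [Field k] [NumberField k] {a b c : kˣ} (hdiv : Division a b c)
    (N : Subgroup (AutC a b c)) (hN : N.Normal) (hi : N.index ≠ 0) : N = ⊤ := by
  obtain ⟨e, he⟩ : ∃ e, e = N.index := ⟨_, rfl⟩
  have he0 : 0 < e := by rw [he]; exact Nat.pos_of_ne_zero hi
  have hexp : ∀ g : AutC a b c, g ^ e ∈ N := fun g => by
    rw [he]
    exact N.pow_index_mem g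
  apply top_of_fix hdiv
  intro i j hsi hi0 hsj hj0 hij g hgi hgj
  -- the third vector
  obtain ⟨l0, hl00, hl0⟩ := exists_perp (![1, i, j, i * j, 0, 0, 0] : Fin 7 → Oct a b c)
  have p1 : dot l0 1 = 0 := hl0 0
  have p2 : dot l0 i = 0 := hl0 1
  have p3 : dot l0 j = 0 := hl0 2
  have p4 : dot l0 (i * j) = 0 := hl0 3
  obtain ⟨a', b', c0, ht0⟩ := exists_trip hdiv hsi hi0 hsj hj0 (star_iff_dot.mpr p1) hl00 hij
    (by rw [dot_comm, p2]) (by rw [dot_comm, p3]) (by rw [dot_comm, p4])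
  have hdiv0 := (aniso_of_trip hdiv ht0).2.2.2
  obtain ⟨q, c', c1, hc', hc1, hram⟩ := exists_third hdiv0
  have ht3 := ht0.triple
  have hperp : Perp i j (qemb i j q * l0) := (ht0.perp_iff _).mpr ⟨q, rfl⟩
  have hnorm : norm (qemb i j q * l0) = -(c' : k) := by
    rw [ht3.toBasic.norm_mul_l, ht3.norm_l, hc']
    ring
  have ht : Trip a' b' c' i j (qemb i j q * l0) :=
    Triple.trip ⟨ht3.toBasic, hperp, hnorm⟩
  have hdiv' := (aniso_of_trip hdiv ht).2.2.2
  -- transport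
  obtain ⟨Φ, hΦ, hm, hst, hnm⟩ := exists_emb ht
  have ei : Φ gi = i := by
    rw [hΦ]
    simp [Oct.emb, qemb, gi]
  have ej : Φ gj = j := by
    rw [hΦ]
    simp [Oct.emb, qemb, gj]
  have hs : ∀ x y, Φ.symm (x * y) = Φ.symm x * Φ.symm y := by
    intro x y
    apply Φ.injective
    rw [hm, Φ.apply_symm_apply, Φ.apply_symm_apply, Φ.apply_symm_apply]
  have hback : ∀ g : AutC a b c, conjA Φ hm (conjA Φ.symm hs g) = g := by
    intro g
    apply Subtype.ext
    apply LinearEquiv.ext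
    intro x
    change Φ (Φ.symm (g.1 (Φ.symm.symm (Φ.symm x)))) = g.1 x
    rw [Φ.apply_symm_apply, LinearEquiv.symm_symm, Φ.apply_symm_apply]
  obtain ⟨t, ht'⟩ := exists_long (conjA Φ.symm hs g) (by
      change Φ.symm (g.1 (Φ.symm.symm gi)) = gi
      rw [LinearEquiv.symm_symm, ei, hgi, ← ei, Φ.symm_apply_apply])
    (by
      change Φ.symm (g.1 (Φ.symm.symm gj)) = gj
      rw [LinearEquiv.symm_symm, ej, hgj, ← ej, Φ.symm_apply_apply])
  have hi' : (N.comap (conjA Φ hm)).index ≠ 0 := by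
    rw [Subgroup.index_comap]
    exact fun h0 => hi (Nat.eq_zero_of_zero_dvd (h0 ▸ N.relIndex_dvd_index_of_normal _))
  have h := G2.long_all hdiv' hc1 hram (N.comap (conjA Φ hm)) (hN.comap _) hi' he0
    (fun g => by
      change conjA Φ hm (g ^ e) ∈ N
      rw [map_pow]
      exact hexp _) t
  change conjA Φ hm (long a' b' c' t) ∈ N at h
  rwa [ht', hback] at h

end Vale.Agent.P011.D4
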