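import Vale.Agent.P011.D4.Springer
import Vale.Agent.P011.D4.Defs3

/-!
Hilbert 90 for the orbit of `1` under the trialitarian group, in the form which covers cyclic and
noncyclic cubic extensions.
-/

namespace Vale.Agent.P011.D4

open Vale.Agent.P011.MPQ

section maps

variable {k M : Type} [Field k] [Field M] [Algebra k M] {a b : kˣ}

/-- A scalar quaternion. -/
def qsc {F : Type} [Field F] {a b : Fˣ} (t : F) : Qt a b := ⟨t, 0, 0, 0⟩

theorem re_qsc {F : Type} [Field F] {a b : Fˣ} (t : F) : (qsc t : Qt a b).re = t := rfl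
theorem imI_qsc {F : Type} [Field F] {a b : Fˣ} (t : F) : (qsc t : Qt a b).imI = 0 := rfl
theorem imJ_qsc {F : Type} [Field F] {a b : Fˣ} (t : F) : (qsc t : Qt a b).imJ = 0 := rfl
theorem imK_qsc {F : Type} [Field F] {a b : Fˣ} (t : F) : (qsc t : Qt a b).imK = 0 := rfl

theorem re_qmap' (σ : M ≃ₐ[k] M) (x : Qt (up M a) (up M b)) : (qmap σ x).re = σ x.re := rfl
theorem imI_qmap' (σ : M ≃ₐ[k] M) (x : Qt (up M a) (up M b)) : (qmap σ x).imI = σ x.imI := rfl
theorem imJ_qmap' (σ : M ≃ₐ[k] M) (x : Qt (up M a) (up M b)) : (qmap σ x).imJ = σ x.imJ := rfl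
theorem imK_qmap' (σ : M ≃ₐ[k] M) (x : Qt (up M a) (up M b)) : (qmap σ x).imK = σ x.imK := rfl

attribute [local simp] re_qmap' imI_qmap' imJ_qmap' imK_qmap'

theorem qmap_mul' (σ : M ≃ₐ[k] M) (x y : Qt (up M a) (up M b)) :
    qmap σ (x * y) = qmap σ x * qmap σ y := by
  ext <;> simp [up]

theorem qmap_add' (σ : M ≃ₐ[k] M) (x y : Qt (up M a) (up M b)) :
    qmap σ (x + y) = qmap σ x + qmap σ y := by
  ext <;> simp

theorem qmap_star' (σ : M ≃ₐ[k] M) (x : Qt (up M a) (up M b)) :
    qmap σ (star x) = star (qmap σ x) := by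
  ext <;> simp

theorem nrd_qmap' (σ : M ≃ₐ[k] M) (x : Qt (up M a) (up M b)) : nrd (qmap σ x) = σ (nrd x) := by
  simp [nrd, up]

theorem qmap_qup' (σ : M ≃ₐ[k] M) (x : Qt a b) : qmap σ (qup M x) = qup M x := by
  ext <;> simp [qmap, qup]

theorem mul_star_self' {F : Type} [Field F] {a b : Fˣ} (x : Qt a b) :
    x * star x = (nrd x) • (1 : Qt a b) := by
  ext <;> simp [nrd] <;> ring

theorem star_mul_self' {F : Type} [Field F] {a b : Fˣ} (x : Qt a b) :
    star x * x = (nrd x) • (1 : Qt a b) := by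
  ext <;> simp [nrd] <;> ring

theorem nrd_star' {F : Type} [Field F] {a b : Fˣ} (x : Qt a b) : nrd (star x) = nrd x := by
  simp [nrd]

theorem nrd_smul' {F : Type} [Field F] {a b : Fˣ} (t : F) (x : Qt a b) :
    nrd (t • x) = t ^ 2 * nrd x := by
  simp only [nrd, QuaternionAlgebra.re_smul, QuaternionAlgebra.imI_smul,
    QuaternionAlgebra.imJ_smul, QuaternionAlgebra.imK_smul, smul_eq_mul]
  ring

end maps

section tower0

variable {k E M : Type} [Field k] [Field E] [Field M] [Algebra k E] [Algebra k M] [Algebra E M]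
  {a b : kˣ}

/-- A quaternion over the intermediate field, as a quaternion over the upper field. -/
def qtw (M : Type) [Field M] [Algebra k M] [Algebra E M] {a b : kˣ} (x : Qt (up E a) (up E b)) :
    Qt (up M a) (up M b) :=
  ⟨algebraMap E M x.re, algebraMap E M x.imI, algebraMap E M x.imJ, algebraMap E M x.imK⟩

theorem re_qtw (x : Qt (up E a) (up E b)) : (qtw M x).re = algebraMap E M x.re := rfl
theorem imI_qtw (x : Qt (up E a) (up E b)) : (qtw M x).imI = algebraMap E M x.imI := rfl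
theorem imJ_qtw (x : Qt (up E a) (up E b)) : (qtw M x).imJ = algebraMap E M x.imJ := rfl
theorem imK_qtw (x : Qt (up E a) (up E b)) : (qtw M x).imK = algebraMap E M x.imK := rfl

attribute [local simp] re_qtw imI_qtw imJ_qtw imK_qtw

theorem qtw_star (x : Qt (up E a) (up E b)) : qtw M (star x) = star (qtw M x) := by
  ext <;> simp

theorem qtw_smul (t : E) (x : Qt (up E a) (up E b)) :
    qtw M (t • x) = (algebraMap E M t) • qtw M x := by
  ext <;> simp only [re_qtw, imI_qtw, imJ_qtw, imK_qtw, QuaternionAlgebra.re_smul,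
    QuaternionAlgebra.imI_smul, QuaternionAlgebra.imJ_smul, QuaternionAlgebra.imK_smul, smul_eq_mul,
    map_mul]

end tower0

section tower

variable {k E M : Type} [Field k] [Field E] [Field M] [Algebra k E] [Algebra k M] [Algebra E M]
  [IsScalarTower k E M] {a b : kˣ}

attribute [local simp] re_qmap' imI_qmap' imJ_qmap' imK_qmap' re_qtw imI_qtw imJ_qtw imK_qtw
  re_qsc imI_qsc imJ_qsc imK_qsc

theorem qtw_mul (x y : Qt (up E a) (up E b)) : qtw M (x * y) = qtw M x * qtw M y := by
  ext <;> simp [up, ← IsScalarTower.algebraMap_apply k E M]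

theorem nrd_qtw (x : Qt (up E a) (up E b)) : nrd (qtw M x) = algebraMap E M (nrd x) := by
  simp [nrd, up, ← IsScalarTower.algebraMap_apply k E M]

theorem qtw_qup (x : Qt a b) : qtw M (qup E x) = qup M x := by
  ext <;> simp [qtw, qup, ← IsScalarTower.algebraMap_apply k E M]

/-- **Hilbert 90** for the orbit of `1`. -/
theorem h90 [CharZero k] (h3 : Module.finrank k E = 3) (hab : Aniso a b) {ρ κ : M ≃ₐ[k] M}
    (hρ3 : ∀ m, ρ (ρ (ρ m)) = m) (hρE : ∃ e : E, ρ (algebraMap E M e) ≠ algebraMap E M e)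
    (hκ : ∀ m, κ m = m ↔ m ∈ Set.range (algebraMap E M))
    (hfix : ∀ m, ρ m = m → κ m = m → m ∈ Set.range (algebraMap k M))
    (f : Qt (up M a) (up M b)) (hn : nrd f = 1)
    (hf : f = qmap ρ (star f) * qmap ρ (qmap ρ (star f)))
    (hS : κ = 1 ∨ ((∀ m, κ (κ m) = m) ∧ (∀ m, κ (ρ m) = ρ (ρ (κ m))) ∧
      qmap κ f = qmap ρ (star f))) :
    ∃ x : Qt (up E a) (up E b), nrd x = 1 ∧
      f = qtw M x * star (qmap ρ (qmap ρ (qtw M x))) := by
  have hq3 : ∀ x : Qt (up M a) (up M b), qmap ρ (qmap ρ (qmap ρ x)) = x := by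
    intro x
    ext <;> simp [hρ3]
  set f1 := qmap ρ f with hf1
  set f2 := qmap ρ f1 with hf2
  have hρf2 : qmap ρ f2 = f := hq3 f
  have e0 : f = star f1 * star f2 := by
    rw [qmap_star', qmap_star'] at hf
    exact hf
  have e1 : f1 = star f2 * star f := by
    conv_lhs => rw [hf1, e0, qmap_mul', qmap_star', qmap_star', ← hf2, hρf2]
  have e2 : f2 = star f * star f1 := by
    conv_lhs => rw [hf2, e1, qmap_mul', qmap_star', qmap_star', hρf2, ← hf1]
  have hff : f * star f = 1 := by rw [mul_star_self', hn, one_smul]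
  have hff2 : f * f2 = star f1 := by
    rw [e2, ← mul_assoc, hff, one_mul]
  -- the candidate
  let X : Qt (up M a) (up M b) → Qt (up M a) (up M b) := fun p =>
    p + f * qmap ρ (qmap ρ p) + star f1 * qmap ρ p
  have hX : ∀ p, f * qmap ρ (qmap ρ (X p)) = X p := by
    intro p
    have h1 : qmap ρ (qmap ρ (X p)) = qmap ρ (qmap ρ p) + f2 * qmap ρ p + star f * p := by
      simp only [X, qmap_add', qmap_mul', qmap_star', hq3, ← hf1, ← hf2, hρf2]
    rw [h1, mul_add, mul_add, ← mul_assoc, ← mul_assoc, hff2, hff, one_mul]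
    simp only [X]
    abel
  have hXE : ∀ e : E, ∃ x : Qt (up E a) (up E b), qtw M x = X (qsc (algebraMap E M e)) := by
    intro e
    have hfixX : qmap κ (X (qsc (algebraMap E M e))) = X (qsc (algebraMap E M e)) := by
      rcases hS with h | ⟨hκκ, hκρ, hκf⟩
      · rw [h]
        rfl
      · have hκρ' : ∀ x : Qt (up M a) (up M b), qmap κ (qmap ρ x) = qmap ρ (qmap ρ (qmap κ x)) := by
          intro x
          ext <;> simp [hκρ]
        have hp : qmap κ (qsc (algebraMap E M e) : Qt (up M a) (up M b)) =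
            qsc (algebraMap E M e) := by
          have h0 : κ (algebraMap E M e) = algebraMap E M e := (hκ _).2 ⟨e, rfl⟩
          ext <;> simp [h0]
        have hκf' : qmap κ f = star f1 := by rw [hκf, qmap_star', ← hf1]
        have hκf1 : qmap κ f1 = star f := by
          rw [hf1, hκρ', hκf', qmap_star', qmap_star', ← hf2, hρf2]
        simp only [X, qmap_add', qmap_mul', qmap_star', hκρ', hp, hκf', hκf1, star_star, hq3]
        abel
    have h1 := congrArg QuaternionAlgebra.re hfixX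
    have h2 := congrArg QuaternionAlgebra.imI hfixX
    have h3 := congrArg QuaternionAlgebra.imJ hfixX
    have h4 := congrArg QuaternionAlgebra.imK hfixX
    obtain ⟨y1, hy1⟩ := (hκ _).1 h1
    obtain ⟨y2, hy2⟩ := (hκ _).1 h2
    obtain ⟨y3, hy3⟩ := (hκ _).1 h3
    obtain ⟨y4, hy4⟩ := (hκ _).1 h4
    exact ⟨⟨y1, y2, y3, y4⟩, QuaternionAlgebra.ext hy1 hy2 hy3 hy4⟩
  -- some candidate is nonzero
  obtain ⟨e, he⟩ : ∃ e : E, X (qsc (algebraMap E M e)) ≠ 0 := by
    by_contra hcon
    push Not at hcon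
    obtain ⟨t, ht⟩ := hρE
    have hA : ∀ e : E, algebraMap E M e + f.re * ρ (ρ (algebraMap E M e)) +
        f1.re * ρ (algebraMap E M e) = 0 := by
      intro e
      have h1 := congrArg QuaternionAlgebra.re (hcon e)
      simp only [X] at h1
      simp at h1
      linear_combination h1
    have h1 := hA 1
    have h2 := hA t
    have h3 := hA (t ^ 2)
    simp only [map_one, map_pow] at h1 h2 h3
    have h4 : (algebraMap E M t - ρ (algebraMap E M t)) *
        (algebraMap E M t - ρ (ρ (algebraMap E M t))) = 0 := by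
      linear_combination h3 - (ρ (algebraMap E M t) + ρ (ρ (algebraMap E M t))) * h2 +
        ρ (algebraMap E M t) * ρ (ρ (algebraMap E M t)) * h1
    rcases mul_eq_zero.1 h4 with h | h
    · exact ht (sub_eq_zero.1 h).symm
    · have h5 : algebraMap E M t = ρ (ρ (algebraMap E M t)) := sub_eq_zero.1 h
      apply ht
      conv_rhs => rw [← hρ3 (algebraMap E M t), ← h5]
  obtain ⟨x, hx⟩ := hXE e
  have hx0 : x ≠ 0 := by
    intro h
    apply he
    rw [← hx, h]
    ext <;> simp
  have hfx : f * qmap ρ (qmap ρ (qtw M x)) = qtw M x := by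
    rw [hx]
    exact hX _
  have hnx : nrd x ≠ 0 := fun h => hx0 (aniso_up h3 hab x h)
  have hn2 : ρ (ρ (algebraMap E M (nrd x))) = algebraMap E M (nrd x) := by
    have h1 := congrArg nrd hfx
    rw [nrd_mul, hn, one_mul, nrd_qmap', nrd_qmap', nrd_qtw] at h1
    exact h1
  have hn1 : ρ (algebraMap E M (nrd x)) = algebraMap E M (nrd x) := by
    conv_rhs => rw [← hρ3 (algebraMap E M (nrd x)), hn2]
  obtain ⟨ν, hν⟩ := hfix _ hn1 ((hκ _).2 ⟨_, rfl⟩)
  have hνE : nrd x = algebraMap k E ν := by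
    apply (algebraMap E M).injective
    rw [← hν, IsScalarTower.algebraMap_apply k E M]
  have hν0 : ν ≠ 0 := by
    intro h
    apply hnx
    rw [hνE, h, map_zero]
  obtain ⟨q, hq⟩ := nrd_desc h3 hab ν x hνE
  -- normalise
  have hnq : nrd (qup E q : Qt (up E a) (up E b)) = algebraMap k E ν := by
    rw [← hq]
    simp [qup, nrd, up]
  refine ⟨(algebraMap k E ν)⁻¹ • (x * star (qup E q)), ?_, ?_⟩
  · rw [nrd_smul', nrd_mul, nrd_star', hνE, hnq]
    have : algebraMap k E ν ≠ 0 := by
      rw [← hνE]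
      exact hnx
    field_simp
  · set y := (algebraMap k E ν)⁻¹ • (x * star (qup E q)) with hy
    have hyn : nrd y = 1 := by
      rw [hy, nrd_smul', nrd_mul, nrd_star', hνE, hnq]
      have : algebraMap k E ν ≠ 0 := by
        rw [← hνE]
        exact hnx
      field_simp
    have hyt : qtw M y = (algebraMap k M ν)⁻¹ • (qtw M x * star (qup M q)) := by
      rw [hy, qtw_smul, qtw_mul, qtw_star, qtw_qup, map_inv₀,
        ← IsScalarTower.algebraMap_apply k E M]
    have hfy : f * qmap ρ (qmap ρ (qtw M y)) = qtw M y := by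
      have h1 : ∀ (t : k) (z : Qt (up M a) (up M b)),
          qmap ρ ((algebraMap k M t)⁻¹ • z) = (algebraMap k M t)⁻¹ • qmap ρ z := by
        intro t z
        ext <;> simp
      rw [hyt, h1, h1, qmap_mul', qmap_mul', qmap_star', qmap_star', qmap_qup', qmap_qup',
        mul_smul_comm, ← mul_assoc, hfx]
    have h2 : qmap ρ (qmap ρ (qtw M y)) * star (qmap ρ (qmap ρ (qtw M y))) = 1 := by
      rw [mul_star_self', nrd_qmap', nrd_qmap', nrd_qtw, hyn]
      simp
    calc f = f * (qmap ρ (qmap ρ (qtw M y)) * star (qmap ρ (qmap ρ (qtw M y)))) := by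
          rw [h2, mul_one]
      _ = qtw M y * star (qmap ρ (qmap ρ (qtw M y))) := by
          rw [← mul_assoc, hfy]

end tower

/-- Hilbert 90 in the cyclic case. -/
theorem h90_cyclic {k L : Type} [Field k] [CharZero k] [Field L] [Algebra k L] {ρ : L ≃ₐ[k] L}
    (h3 : Module.finrank k L = 3) (hρ1 : ρ ≠ 1) (hρ3 : ∀ m, ρ (ρ (ρ m)) = m)
    (hfix : ∀ m, ρ m = m → m ∈ Set.range (algebraMap k L)) {a b : kˣ} (hab : Aniso a b)
    (f : Qt (up L a) (up L b)) (hn : nrd f = 1)
    (hf : f = qmap ρ (star f) * qmap ρ (qmap ρ (star f))) :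
    ∃ x : Qt (up L a) (up L b), nrd x = 1 ∧ f = x * star (qmap ρ (qmap ρ x)) := by
  obtain ⟨x, hx, hfx⟩ := h90 (E := L) (κ := 1) h3 hab hρ3 (by
    by_contra hcon
    push Not at hcon
    apply hρ1
    ext m
    exact hcon m) (fun m => ⟨fun _ => ⟨m, rfl⟩, fun _ => rfl⟩) (fun m h _ => hfix m h) f hn hf
    (Or.inl rfl)
  exact ⟨x, hx, hfx⟩

end Vale.Agent.P011.D4
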