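import Vale.Agent.P011.D4.Defs

/-!
The trialitarian group of a cubic extension and an octonion algebra.
-/

namespace Vale.Agent.P011.D4

variable {k M : Type} [Field k] [Field M] [Algebra k M]

/-- The map `g` is an automorphism of the cyclic composition over `M`, compatible with the
semilinear involutions given by the nontrivial automorphisms of `M` over `L`. -/
def IsTriAut (L : Type) [Field L] [Algebra L M] (ρ : M ≃ₐ[k] M) {a b c : kˣ}
    (g : OctL M a b c → OctL M a b c) : Prop :=
  (∀ x y, g (x + y) = g x + g y) ∧ (∀ (t : M) x, g (t • x) = t • g x) ∧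
    (∀ x y, g (tri ρ x y) = tri ρ (g x) (g y)) ∧
    ∀ ι : M ≃ₐ[k] M, ι ≠ 1 → (∀ t : L, ι (algebraMap L M t) = algebraMap L M t) →
      ∀ x, g (omap ι (star x)) = omap ι (star (g x))

/-- The group of rational points of the trialitarian group of the cubic extension `L` of `k`
(with Galois closure `M`, and `ρ` an automorphism of `M` of order three) and of the octonion
algebra `(a, b, c)`. -/
def TD4 (L : Type) [Field L] [Algebra L M] (ρ : M ≃ₐ[k] M) (a b c : kˣ) :
    Subgroup (Equiv.Perm (OctL M a b c)) where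
  carrier := {g | IsTriAut L ρ g}
  mul_mem' := by
    rintro g h ⟨g1, g2, g3, g4⟩ ⟨h1, h2, h3, h4⟩
    refine ⟨fun x y => ?_, fun t x => ?_, fun x y => ?_, fun ι hι hf x => ?_⟩
    · rw [Equiv.Perm.mul_apply, h1, g1]; rfl
    · rw [Equiv.Perm.mul_apply, h2, g2]; rfl
    · rw [Equiv.Perm.mul_apply, h3, g3]; rfl
    · rw [Equiv.Perm.mul_apply, h4 ι hι hf, g4 ι hι hf]; rfl
  one_mem' := ⟨fun _ _ => rfl, fun _ _ => rfl, fun _ _ => rfl, fun _ _ _ _ => rfl⟩
  inv_mem' := by
    rintro g ⟨g1, g2, g3, g4⟩
    have e : ∀ x, g (g⁻¹ x) = x := fun x => g.apply_symm_apply x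
    refine ⟨fun x y => ?_, fun t x => ?_, fun x y => ?_, fun ι hι hf x => ?_⟩
    · apply g.injective
      rw [g1, e, e, e]
    · apply g.injective
      rw [g2, e, e]
    · apply g.injective
      rw [g3, e, e, e]
    · apply g.injective
      rw [g4 ι hι hf, e, e]

end Vale.Agent.P011.D4
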