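import Vale.Agent.P011.D4.HDefs
import Vale.Agent.P011.D4.Fin

/-!
The final theorem on trialitarian groups, for the group of permutations.
-/

namespace Vale.Agent.P011.D4

section hom

variable {k M : Type} [Field k] [Field M] [Algebra k M] {L : Type} [Field L] [Algebra k L]
  [Algebra L M] {ρ : M ≃ₐ[k] M} {a b c : kˣ}

/-- The two descriptions of the group agree. -/
def toTD4 : GD4 L ρ a b c →* TD4 L ρ a b c where
  toFun g := ⟨g.1.toEquiv, fun x y => map_add g.1 x y, fun t x => map_smul g.1 t x, g.2.1,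
    fun ι hι hf x => g.2.2 ι ⟨hι, hf⟩ x⟩
  map_one' := rfl
  map_mul' _ _ := rfl

theorem toTD4_surjective : Function.Surjective (toTD4 (L := L) (ρ := ρ) (a := a) (b := b)
    (c := c)) := by
  rintro ⟨g, g1, g2, g3, g4⟩
  refine ⟨⟨{ g with
    map_add' := g1
    map_smul' := g2 }, fun x y => g3 x y, fun ι hι x => g4 ι hι.1 hι.2 x⟩, ?_⟩
  apply Subtype.ext
  apply Equiv.ext
  intro x
  rfl

end hom

/-- **Trialitarian groups**, final form. -/
theorem td4_top {k L M : Type} [Field k] [NumberField k] [Field L] [Algebra k L] [Field M]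
    [Algebra k M] [Algebra L M] [IsScalarTower k L M] [FiniteDimensional k M]
    [IsNormalClosure k L M] (h3 : Module.finrank k L = 3) (ρ : M ≃ₐ[k] M) (hρ : ρ ≠ 1)
    (hρ3 : ρ ^ 3 = 1) {a b c : kˣ} (hdiv : Oct.Division a b c) (S : Subgroup (TD4 L ρ a b c))
    (hS : S.index ≠ 0) : S = ⊤ := by
  have h1 : S.comap toTD4 = ⊤ := gd4_top h3 ρ hρ hρ3 hdiv _ (index_comap_ne toTD4 hS)
  rw [eq_top_iff]
  intro g _
  obtain ⟨g', rfl⟩ := toTD4_surjective g
  have h2 : g' ∈ S.comap toTD4 := by rw [h1]; exact Subgroup.mem_top g'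
  exact h2

end Vale.Agent.P011.D4
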