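import Vale.Agent.P011.D4.Up
import Vale.Agent.P011.D4.R1

/-!
The homomorphisms into the trialitarian group: extension of scalars of automorphisms of the
octonion algebra, the short subgroup, transport along basic triples.
-/

namespace Vale.Agent.P011.D4.H24

open Vale.Agent.P011.MPQ Vale.Agent.P011.D4.Oct

section mul

variable {F : Type} [Field F] {a b c : Fˣ}

/-- The basis of the octonion algebra. -/
def ob : Fin 8 → Oct a b c :=
  ![⟨⟨1, 0, 0, 0⟩, 0⟩, ⟨⟨0, 1, 0, 0⟩, 0⟩, ⟨⟨0, 0, 1, 0⟩, 0⟩, ⟨⟨0, 0, 0, 1⟩, 0⟩,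
    ⟨0, ⟨1, 0, 0, 0⟩⟩, ⟨0, ⟨0, 1, 0, 0⟩⟩, ⟨0, ⟨0, 0, 1, 0⟩⟩, ⟨0, ⟨0, 0, 0, 1⟩⟩]

/-- The coordinates of an octonion. -/
def oc (x : Oct a b c) : Fin 8 → F :=
  ![x.fst.re, x.fst.imI, x.fst.imJ, x.fst.imK, x.snd.re, x.snd.imI, x.snd.imJ, x.snd.imK]

theorem oc_add (x y : Oct a b c) (m : Fin 8) : oc (x + y) m = oc x m + oc y m := by
  fin_cases m <;> simp [oc]

theorem oc_smul (t : F) (x : Oct a b c) (m : Fin 8) : oc (t • x) m = t * oc x m := by
  fin_cases m <;> simp [oc]

theorem sum_oc (x : Oct a b c) : ∑ m, oc x m • (ob m : Oct a b c) = x := by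
  simp only [Fin.sum_univ_eight, oc, ob]
  ext <;> simp

end mul

variable {k L : Type} [Field k] [Field L] [Algebra k L]

section oup

variable {a b c : kˣ}

theorem fst_oup (x : Oct a b c) : (oup L x).fst = qup L x.fst := rfl
theorem snd_oup (x : Oct a b c) : (oup L x).snd = qup L x.snd := rfl

attribute [local simp] fst_oup snd_oup

theorem oup_sum {ι : Type} (s : Finset ι) (f : ι → Oct a b c) :
    oup L (∑ m ∈ s, f m) = ∑ m ∈ s, oup L (f m) := by
  classical
  induction s using Finset.induction_on with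
  | empty => simp [oup_zero]
  | insert m s hm ih => rw [Finset.sum_insert hm, Finset.sum_insert hm, oup_add, ih]

theorem oc_oup (x : Oct a b c) (m : Fin 8) : oc (oup L x) m = algebraMap k L (oc x m) := by
  fin_cases m <;> simp [oc]

theorem oup_ob (m : Fin 8) : oup L (ob m : Oct a b c) = ob m := by
  fin_cases m <;> · ext <;> simp [ob]

/-- Induction along the extension of scalars. -/
theorem oup_induction {p : OctL L a b c → Prop} (h0 : ∀ x : Oct a b c, p (oup L x))
    (hadd : ∀ x y, p x → p y → p (x + y)) (hsmul : ∀ (t : L) x, p x → p (t • x))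
    (x : OctL L a b c) : p x := by
  rw [← sum_oc x]
  refine Finset.sum_induction _ p hadd ?_ fun m _ => ?_
  · rw [← oup_zero]
    exact h0 0
  · rw [← oup_ob]
    exact hsmul _ _ (h0 _)

end oup

section omap

variable (σ : L ≃ₐ[k] L) {a b c : kˣ}

theorem fst_omap (x : OctL L a b c) : (omap σ x).fst = qmap σ x.fst := rfl
theorem snd_omap (x : OctL L a b c) : (omap σ x).snd = qmap σ x.snd := rfl

attribute [local simp] fst_omap snd_omap

theorem omap_sum {ι : Type} (s : Finset ι) (f : ι → OctL L a b c) :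
    omap σ (∑ m ∈ s, f m) = ∑ m ∈ s, omap σ (f m) := by
  classical
  induction s using Finset.induction_on with
  | empty => simp [omap_zero]
  | insert m s hm ih => rw [Finset.sum_insert hm, Finset.sum_insert hm, omap_add, ih]

theorem oc_omap (x : OctL L a b c) (m : Fin 8) : oc (omap σ x) m = σ (oc x m) := by
  fin_cases m <;> simp [oc]

end omap

section ext

variable {a b c a' b' c' : kˣ}

/-- The extension of scalars of a linear map between octonion algebras. -/
def extL (L : Type) [Field L] [Algebra k L] (f : Oct a b c →ₗ[k] Oct a' b' c') :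
    OctL L a b c →ₗ[L] OctL L a' b' c' where
  toFun x := ∑ m, oc x m • oup L (f (ob m))
  map_add' x y := by
    rw [← Finset.sum_add_distrib]
    exact Finset.sum_congr rfl fun m _ => by rw [oc_add, add_smul]
  map_smul' t x := by
    rw [RingHom.id_apply, Finset.smul_sum]
    exact Finset.sum_congr rfl fun m _ => by rw [oc_smul, mul_smul]

theorem extL_apply (f : Oct a b c →ₗ[k] Oct a' b' c') (x : OctL L a b c) :
    extL L f x = ∑ m, oc x m • oup L (f (ob m)) := rfl

theorem extL_oup (f : Oct a b c →ₗ[k] Oct a' b' c') (x : Oct a b c) :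
    extL L f (oup L x) = oup L (f x) := by
  conv_rhs => rw [← sum_oc x, map_sum, oup_sum]
  rw [extL_apply]
  refine Finset.sum_congr rfl fun m _ => ?_
  rw [oc_oup, map_smul, oup_smul]

theorem extL_unique {M : Type} [AddCommGroup M] [Module L M] {f g : OctL L a b c →ₗ[L] M}
    (h : ∀ x : Oct a b c, f (oup L x) = g (oup L x)) : f = g := by
  apply LinearMap.ext
  intro x
  induction x using oup_induction with
  | h0 x => exact h x
  | hadd x y hx hy => rw [map_add, map_add, hx, hy]
  | hsmul t x hx => rw [map_smul, map_smul, hx]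

theorem omap_extL (σ : L ≃ₐ[k] L) (f : Oct a b c →ₗ[k] Oct a' b' c') (x : OctL L a b c) :
    omap σ (extL L f x) = extL L f (omap σ x) := by
  rw [extL_apply, extL_apply, omap_sum]
  refine Finset.sum_congr rfl fun m _ => ?_
  rw [omap_smul, omap_oup, oc_omap]

theorem extL_mul {f : Oct a b c →ₗ[k] Oct a' b' c'} (hf : ∀ x y, f (x * y) = f x * f y)
    (x y : OctL L a b c) : extL L f (x * y) = extL L f x * extL L f y := by
  induction x using oup_induction with
  | h0 x =>
    induction y using oup_induction with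
    | h0 y => rw [← oup_mul, extL_oup, extL_oup, extL_oup, hf, oup_mul]
    | hadd y z hy hz => rw [mul_add, map_add, map_add, mul_add, hy, hz]
    | hsmul t y hy => rw [mul_smul_oct, map_smul, map_smul, mul_smul_oct, hy]
  | hadd x z hx hz => rw [add_mul, map_add, map_add, add_mul, hx, hz]
  | hsmul t x hx => rw [smul_mul_oct, map_smul, map_smul, smul_mul_oct, hx]

theorem extL_star {f : Oct a b c →ₗ[k] Oct a' b' c'} (hf : ∀ x, f (star x) = star (f x))
    (x : OctL L a b c) : extL L f (star x) = star (extL L f x) := by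
  induction x using oup_induction with
  | h0 x => rw [← oup_star, extL_oup, extL_oup, hf, oup_star]
  | hadd x z hx hz => rw [star_add, map_add, map_add, star_add, hx, hz]
  | hsmul t x hx => rw [star_smul_oct, map_smul, map_smul, star_smul_oct, hx]

theorem tri_extL (ρ : L ≃ₐ[k] L) {f : Oct a b c →ₗ[k] Oct a' b' c'}
    (hf : ∀ x y, f (x * y) = f x * f y) (hf' : ∀ x, f (star x) = star (f x))
    (x y : OctL L a b c) : extL L f (tri ρ x y) = tri ρ (extL L f x) (extL L f y) := by
  unfold tri
  rw [extL_mul hf, ← omap_extL, ← omap_extL, ← omap_extL, extL_star hf', extL_star hf']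

/-- The extension of scalars of a linear automorphism of the octonion algebra. -/
def extE (L : Type) [Field L] [Algebra k L] (f : Oct a b c ≃ₗ[k] Oct a' b' c') :
    OctL L a b c ≃ₗ[L] OctL L a' b' c' :=
  LinearEquiv.ofLinearMap (extL L (f : Oct a b c →ₗ[k] Oct a' b' c'))
    (extL L (f.symm : Oct a' b' c' →ₗ[k] Oct a b c))
    (extL_unique fun x => by
      rw [LinearMap.comp_apply, extL_oup, extL_oup, LinearMap.id_apply]
      exact congrArg _ (f.apply_symm_apply x))
    (extL_unique fun x => by
      rw [LinearMap.comp_apply, extL_oup, extL_oup, LinearMap.id_apply]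
      exact congrArg _ (f.symm_apply_apply x))

theorem extE_apply (f : Oct a b c ≃ₗ[k] Oct a' b' c') (x : OctL L a b c) :
    extE L f x = extL L (f : Oct a b c →ₗ[k] Oct a' b' c') x := rfl

theorem extE_oup (f : Oct a b c ≃ₗ[k] Oct a' b' c') (x : Oct a b c) :
    extE L f (oup L x) = oup L (f x) := extL_oup _ x

/-- Two linear automorphisms which agree on the octonions over the ground field are equal. -/
theorem equiv_unique {f g : OctL L a b c ≃ₗ[L] OctL L a' b' c'}
    (h : ∀ x : Oct a b c, f (oup L x) = g (oup L x)) : f = g :=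
  LinearEquiv.toLinearMap_injective (extL_unique h)

end ext

section short

variable (ρ : L ≃ₐ[k] L) {a b c : kˣ}

theorem shortFun_add (x : Qt (up L a) (up L b)) (y z : OctL L a b c) :
    shortFun ρ x (y + z) = shortFun ρ x y + shortFun ρ x z := by
  unfold shortFun
  ext1
  · simp only [Oct.fst_add, mul_add, add_mul]
  · simp only [Oct.snd_add, add_mul]

theorem shortFun_smul (x : Qt (up L a) (up L b)) (t : L) (y : OctL L a b c) :
    shortFun ρ x (t • y) = t • shortFun ρ x y := by
  unfold shortFun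
  ext1
  · simp only [Oct.fst_smul, mul_smul_comm, smul_mul_assoc]
  · simp only [Oct.snd_smul, smul_mul_assoc]

theorem shortFun_mul (x y : Qt (up L a) (up L b)) (z : OctL L a b c) :
    shortFun ρ (x * y) z = shortFun ρ x (shortFun ρ y z) := by
  unfold shortFun
  ext1
  · simp only [qmap_mul, star_mul, mul_assoc]
  · simp only [qmap_mul, star_mul, mul_assoc]

theorem shortFun_one (z : OctL L a b c) :
    shortFun ρ (1 : Qt (up L a) (up L b)) z = z := by
  unfold shortFun
  ext1
  · simp only [qmap_one, star_one, mul_one, one_mul]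
  · simp only [qmap_one, star_one, mul_one]

theorem qmap_cube (hρ : ∀ x, ρ (ρ (ρ x)) = x) (x : Qt (up L a) (up L b)) :
    qmap ρ (qmap ρ (qmap ρ x)) = x := by
  ext <;> simp [hρ]

theorem fst_tri (x y : OctL L a b c) : (tri ρ x y).fst =
    qmap ρ (star x.fst) * qmap ρ (qmap ρ (star y.fst)) +
      ((up L c : Lˣ) : L) • (star (qmap ρ (qmap ρ y.snd)) * qmap ρ x.snd) := by
  unfold tri
  rw [Oct.fst_mul]
  simp only [fst_omap, snd_omap, Oct.fst_star, Oct.snd_star, qmap_neg, star_neg, neg_mul_neg]

theorem snd_tri (x y : OctL L a b c) : (tri ρ x y).snd =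
    -(qmap ρ (qmap ρ y.snd) * qmap ρ (star x.fst) + qmap ρ x.snd * qmap ρ (qmap ρ y.fst)) := by
  unfold tri
  rw [Oct.snd_mul]
  simp only [fst_omap, snd_omap, Oct.fst_star, Oct.snd_star, qmap_neg, qmap_star, star_star,
    neg_mul, neg_add]

/-- The short elements preserve the product of the cyclic composition. -/
theorem shortFun_tri (hρ : ∀ x, ρ (ρ (ρ x)) = x) {x : Qt (up L a) (up L b)}
    (hx : star x * x = 1) (y z : OctL L a b c) :
    shortFun ρ x (tri ρ y z) = tri ρ (shortFun ρ x y) (shortFun ρ x z) := by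
  have h1 : star (qmap ρ x) * qmap ρ x = 1 := by
    rw [← qmap_star, ← qmap_mul, hx, qmap_one]
  have h2 : star (qmap ρ (qmap ρ x)) * qmap ρ (qmap ρ x) = 1 := by
    rw [← qmap_star, ← qmap_star, ← qmap_mul, ← qmap_mul, hx, qmap_one, qmap_one]
  have h3 := qmap_cube ρ hρ x
  have c1 : ∀ w, star (qmap ρ x) * (qmap ρ x * w) = w := fun w => by
    rw [← mul_assoc, h1, one_mul]
  have c2 : ∀ w, star (qmap ρ (qmap ρ x)) * (qmap ρ (qmap ρ x) * w) = w := fun w => by
    rw [← mul_assoc, h2, one_mul]
  have c3 : ∀ w, star x * (x * w) = w := fun w => by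
    rw [← mul_assoc, hx, one_mul]
  apply Oct.ext
  · rw [fst_tri]
    change x * (tri ρ y z).fst * star (qmap ρ (qmap ρ x)) = _
    rw [fst_tri]
    simp only [shortFun, qmap_mul, qmap_star, star_mul, star_star, h3, mul_assoc, c1, mul_add,
      add_mul, mul_smul_comm, smul_mul_assoc]
  · rw [snd_tri]
    change (tri ρ y z).snd * star (qmap ρ x) = _
    rw [snd_tri]
    simp only [shortFun, qmap_mul, qmap_star, star_mul, star_star, h3, mul_assoc, c2, c3, add_mul,
      neg_mul]

end short

section emb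

variable {a b c a' b' c' : kˣ}

theorem omap_qemb (σ : L ≃ₐ[k] L) (i j : Oct a b c) (x : Qt (up L a') (up L b')) :
    omap σ (Oct.qemb (oup L i) (oup L j) x) = Oct.qemb (oup L i) (oup L j) (qmap σ x) := by
  unfold Oct.qemb
  simp only [omap_add, omap_smul, omap_one, omap_mul, omap_oup, re_qmap, imI_qmap, imJ_qmap,
    imK_qmap]

theorem omap_emb (σ : L ≃ₐ[k] L) (i j l : Oct a b c) (x : OctL L a' b' c') :
    omap σ (Oct.emb (oup L i) (oup L j) (oup L l) x) =
      Oct.emb (oup L i) (oup L j) (oup L l) (omap σ x) := by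
  unfold Oct.emb
  rw [omap_add, omap_mul, omap_qemb, omap_qemb, omap_oup]
  rfl

theorem oup_qemb (i j : Oct a b c) (x : Qt a' b') :
    oup L (Oct.qemb i j x) = Oct.qemb (oup L i) (oup L j) (qup L x) := by
  unfold Oct.qemb
  simp only [oup_add, oup_smul, oup_one, oup_mul, re_qup, imI_qup, imJ_qup, imK_qup]

theorem oup_emb (i j l : Oct a b c) (x : Oct a' b' c') :
    oup L (Oct.emb i j l x) = Oct.emb (oup L i) (oup L j) (oup L l) (oup L x) := by
  unfold Oct.emb
  rw [oup_add, oup_mul, oup_qemb, oup_qemb]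
  rfl

end emb

end Vale.Agent.P011.D4.H24
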