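import Vale.Agent.P011.D4.Defs4
import Vale.Agent.P011.Two.NearPow
import Vale.Agent.P011.MPQ.Final

/-!
The congruence theorem for quaternion algebras, in the form used for the trialitarian groups:
elements of norm one close to one at the ramified places lie in every normal subgroup of finite
index with a given exponent.
-/

open NumberField IsDedekindDomain Topology

namespace Vale.Agent.P011.D4.H24

open Vale.Agent.P011.MPQ Vale.Agent.P011.Arith

section field

variable {F : Type} [Field F] [NumberField F]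

/-- The congruence theorem with closeness in terms of traces. -/
theorem mpq_mem {a b : Fˣ} (hab : Aniso a b) {N : Subgroup (SL1 a b)} (hN : N.Normal)
    (hfin : N.index ≠ 0) {e : ℕ} (he : 0 < e) (hexp : ∀ g : SL1 a b, g ^ e ∈ N) (t : SL1 a b)
    (ht : ∀ w, Ram a b w → w.valuation F (2 - 2 * ((t : (Qt a b)ˣ) : Qt a b).re) <
      w.valuation F (4 * (e : F) ^ 4)) : t ∈ N := by
  refine mpq a b hab N hN hfin e he hexp t fun w hw ε hε => ?_
  obtain ⟨h, hh⟩ := Two.near_pow hab e he t w hw (ht w hw) ε hε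
  exact ⟨h ^ e, Subgroup.subset_closure ⟨h, rfl⟩, hh⟩

theorem ball_mem_topS {S : Set (Pl F)} {p : Pl F} (hp : p ∈ S) {ε : ℝ} (hε : 0 < ε) :
    {x : F | plAbv p x < ε} ∈ @nhds F (topS S) 0 := by
  have h1 : @nhds F (topS S) 0 ≤
      @nhds F (TopologicalSpace.induced (fun x => fun y : F => plAbv p (x - y)) inferInstance) 0 := by
    refine nhds_mono ?_
    exact iInf_le (fun p : S => TopologicalSpace.induced
      (fun x => fun y : F => plAbv p.1 (x - y)) inferInstance) ⟨p, hp⟩
  apply h1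
  rw [nhds_induced, Filter.mem_comap]
  refine ⟨{f : F → ℝ | f 0 < ε}, ?_, ?_⟩
  · refine IsOpen.mem_nhds (isOpen_lt (continuous_apply 0) continuous_const) ?_
    change plAbv p (0 - 0) < ε
    rw [sub_zero, map_zero]
    exact hε
  · intro x hx
    change plAbv p (x - 0) < ε at hx
    rwa [sub_zero] at hx

theorem near_set_mem {S : Set (Pl F)} (hS : S.Finite) {e : ℕ} (he : 0 < e) :
    {x : F | ∀ w : HeightOneSpectrum (𝓞 F), (Sum.inl w : Pl F) ∈ S →
      w.valuation F (2 * x) < w.valuation F (4 * (e : F) ^ 4)} ∈ @nhds F (topS S) 0 := by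
  have he0 : (e : F) ≠ 0 := by exact_mod_cast he.ne'
  have h1 : ⋂ p ∈ S, {x : F | plAbv p x < plAbv p (2 * (e : F) ^ 4)} ∈ @nhds F (topS S) 0 := by
    rw [Filter.biInter_mem hS]
    intro p hp
    exact ball_mem_topS hp ((plAbv p).pos (mul_ne_zero two_ne_zero (pow_ne_zero 4 he0)))
  refine Filter.mem_of_superset h1 fun x hx w hw => ?_
  have h2 := Set.mem_iInter₂.mp hx (Sum.inl w) hw
  have h3 : w.valuation F x < w.valuation F (2 * (e : F) ^ 4) := (plAbv_lt w _ _).mp h2
  have h4 : (4 : F) * (e : F) ^ 4 = 2 * (2 * (e : F) ^ 4) := by ring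
  rw [h4, map_mul, map_mul (w.valuation F) 2 (2 * (e : F) ^ 4)]
  have h5 : w.valuation F (2 : F) ≠ 0 := (Valuation.ne_zero_iff _).mpr two_ne_zero
  exact mul_lt_mul_of_pos_left h3 (zero_lt_iff.mpr h5)

/-- Elements close to one lie in the normal subgroup. -/
theorem near_SL1 {a b : Fˣ} (hab : Aniso a b) {e : ℕ} (he : 0 < e)
    {S : Set (Pl F)} (hS : S.Finite) (hram : ∀ w, Ram a b w → (Sum.inl w : Pl F) ∈ S) :
    ∃ W ∈ @nhds F (topS S) 0, ∀ (N : Subgroup (SL1 a b)), N.Normal → N.index ≠ 0 →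
      (∀ g : SL1 a b, g ^ e ∈ N) → ∀ t : SL1 a b,
        QIn W (((t : (Qt a b)ˣ) : Qt a b) - 1) → t ∈ N := by
  refine ⟨_, near_set_mem hS he, fun N hN hfin hexp t ht => ?_⟩
  refine mpq_mem hab hN hfin he hexp t fun w hw => ?_
  have h1 := ht.1 w (hram w hw)
  rw [QuaternionAlgebra.re_sub, QuaternionAlgebra.re_one] at h1
  rw [Valuation.map_sub_swap]
  have e1 : 2 * ((t : (Qt a b)ˣ) : Qt a b).re - 2 = 2 * (((t : (Qt a b)ˣ) : Qt a b).re - 1) := by
    ring
  rw [e1]
  exact h1

end field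

theorem comap_normal_index {G H : Type} [Group G] [Group H] (f : G →* H) {N : Subgroup H}
    (hN : N.Normal) (hfin : N.index ≠ 0) : (N.comap f).Normal ∧ (N.comap f).index ≠ 0 := by
  refine ⟨hN.comap f, ?_⟩
  rw [Subgroup.index_comap]
  exact fun h => hfin (by
    have := Subgroup.relIndex_dvd_index_of_normal N f.range
    rw [h] at this
    exact Nat.eq_zero_of_zero_dvd this)

end Vale.Agent.P011.D4.H24
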