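import Vale.Agent.P011.D4.Defs2

/-!
Identities in octonion algebras.
-/

namespace Vale.Agent.P011.D4

open Vale.Agent.P011.MPQ

namespace Oct

variable {F : Type} [Field F] {a b c : Fˣ}

theorem nrd_add_eq (x y : Qt a b) : nrd (x + y) - nrd x - nrd y =
    2 * (x.re * y.re - a * x.imI * y.imI - b * x.imJ * y.imJ + a * b * x.imK * y.imK) := by
  simp only [nrd, QuaternionAlgebra.re_add, QuaternionAlgebra.imI_add, QuaternionAlgebra.imJ_add,
    QuaternionAlgebra.imK_add]
  ring

/-- The polar form of the norm. -/
def bil (x y : Oct a b c) : F := norm (x + y) - norm x - norm y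

theorem bil_eq (x y : Oct a b c) : bil x y =
    2 * (x.fst.re * y.fst.re - a * x.fst.imI * y.fst.imI - b * x.fst.imJ * y.fst.imJ
      + a * b * x.fst.imK * y.fst.imK) - c *
    (2 * (x.snd.re * y.snd.re - a * x.snd.imI * y.snd.imI - b * x.snd.imJ * y.snd.imJ
      + a * b * x.snd.imK * y.snd.imK)) := by
  rw [bil, norm, norm, norm, ← nrd_add_eq, ← nrd_add_eq, fst_add, snd_add]
  ring

theorem ext8 {x y : Oct a b c} (h1 : x.fst.re = y.fst.re) (h2 : x.fst.imI = y.fst.imI)
    (h3 : x.fst.imJ = y.fst.imJ) (h4 : x.fst.imK = y.fst.imK) (h5 : x.snd.re = y.snd.re)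
    (h6 : x.snd.imI = y.snd.imI) (h7 : x.snd.imJ = y.snd.imJ) (h8 : x.snd.imK = y.snd.imK) :
    x = y := by
  ext1
  · exact QuaternionAlgebra.ext h1 h2 h3 h4
  · exact QuaternionAlgebra.ext h5 h6 h7 h8

theorem norm_mul (x y : Oct a b c) : norm (x * y) = norm x * norm y := by
  simp only [norm, nrd, fst_mul, snd_mul, QuaternionAlgebra.re_add, QuaternionAlgebra.imI_add,
    QuaternionAlgebra.imJ_add, QuaternionAlgebra.imK_add, QuaternionAlgebra.re_mul,
    QuaternionAlgebra.imI_mul, QuaternionAlgebra.imJ_mul, QuaternionAlgebra.imK_mul,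
    QuaternionAlgebra.re_star, QuaternionAlgebra.imI_star, QuaternionAlgebra.imJ_star,
    QuaternionAlgebra.imK_star, QuaternionAlgebra.re_smul, QuaternionAlgebra.imI_smul,
    QuaternionAlgebra.imJ_smul, QuaternionAlgebra.imK_smul, smul_eq_mul]
  ring

@[simp] theorem norm_one : norm (1 : Oct a b c) = 1 := by simp [norm, nrd]

@[simp] theorem norm_zero : norm (0 : Oct a b c) = 0 := by simp [norm, nrd]

theorem norm_smul (t : F) (x : Oct a b c) : norm (t • x) = t ^ 2 * norm x := by
  simp [norm, nrd]
  ring

@[simp] theorem norm_star (x : Oct a b c) : norm (star x) = norm x := by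
  simp [norm, nrd]

@[simp] theorem norm_neg (x : Oct a b c) : norm (-x) = norm x := by
  simp [norm, nrd]

theorem mul_star_self (x : Oct a b c) : x * star x = norm x • 1 := by
  apply ext8 <;> simp [norm, nrd] <;> ring

theorem star_mul_self (x : Oct a b c) : star x * x = norm x • 1 := by
  apply ext8 <;> simp [norm, nrd] <;> ring

theorem star_mul_mul (x y : Oct a b c) : star x * (x * y) = norm x • y := by
  apply ext8 <;> simp [norm, nrd] <;> ring

theorem mul_mul_star (x y : Oct a b c) : (y * x) * star x = norm x • y := by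
  apply ext8 <;> simp [norm, nrd] <;> ring

theorem mul_smul_oct (t : F) (x y : Oct a b c) : x * (t • y) = t • (x * y) := by
  apply ext8 <;> simp <;> ring

theorem smul_mul_oct (t : F) (x y : Oct a b c) : (t • x) * y = t • (x * y) := by
  apply ext8 <;> simp <;> ring

instance : IsScalarTower F (Oct a b c) (Oct a b c) := ⟨smul_mul_oct⟩

instance : SMulCommClass F (Oct a b c) (Oct a b c) := ⟨fun t x y => (mul_smul_oct t x y).symm⟩

theorem star_smul_oct (t : F) (x : Oct a b c) : star (t • x) = t • star x := by
  ext1
  · rw [fst_star, fst_smul, fst_smul, fst_star, QuaternionAlgebra.star_smul]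
  · rw [snd_star, snd_smul, snd_smul, snd_star, smul_neg]

/-! The polar form. -/

theorem bil_comm (x y : Oct a b c) : bil x y = bil y x := by
  rw [bil, bil, add_comm x y]
  ring

theorem bil_add_left (x y z : Oct a b c) : bil (x + y) z = bil x z + bil y z := by
  simp only [bil_eq, fst_add, snd_add, QuaternionAlgebra.re_add, QuaternionAlgebra.imI_add,
    QuaternionAlgebra.imJ_add, QuaternionAlgebra.imK_add]
  ring

theorem bil_add_right (x y z : Oct a b c) : bil x (y + z) = bil x y + bil x z := by
  rw [bil_comm, bil_add_left, bil_comm y, bil_comm z]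

theorem bil_smul_left (t : F) (x z : Oct a b c) : bil (t • x) z = t * bil x z := by
  simp only [bil_eq, fst_smul, snd_smul, QuaternionAlgebra.re_smul, QuaternionAlgebra.imI_smul,
    QuaternionAlgebra.imJ_smul, QuaternionAlgebra.imK_smul, smul_eq_mul]
  ring

theorem bil_smul_right (t : F) (x z : Oct a b c) : bil x (t • z) = t * bil x z := by
  rw [bil_comm, bil_smul_left, bil_comm z]

@[simp] theorem bil_zero_left (z : Oct a b c) : bil 0 z = 0 := by
  have := bil_smul_left (0 : F) (0 : Oct a b c) z
  rwa [zero_smul, zero_mul] at this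

@[simp] theorem bil_zero_right (z : Oct a b c) : bil z 0 = 0 := by
  rw [bil_comm, bil_zero_left]

theorem bil_neg_left (x z : Oct a b c) : bil (-x) z = -bil x z := by
  have := bil_smul_left (-1 : F) x z
  rwa [neg_one_smul, neg_one_mul] at this

theorem bil_neg_right (x z : Oct a b c) : bil x (-z) = -bil x z := by
  rw [bil_comm, bil_neg_left, bil_comm z]

theorem bil_sub_left (x y z : Oct a b c) : bil (x - y) z = bil x z - bil y z := by
  rw [sub_eq_add_neg, bil_add_left, bil_neg_left, sub_eq_add_neg]

theorem bil_sub_right (x y z : Oct a b c) : bil x (y - z) = bil x y - bil x z := by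
  rw [bil_comm, bil_sub_left, bil_comm y, bil_comm z]

theorem bil_self (x : Oct a b c) : bil x x = 2 * norm x := by
  rw [bil, ← two_smul F x, norm_smul]
  ring

theorem norm_add (x y : Oct a b c) : norm (x + y) = norm x + norm y + bil x y := by
  rw [bil]
  ring

theorem norm_sub (x y : Oct a b c) : norm (x - y) = norm x + norm y - bil x y := by
  rw [sub_eq_add_neg, norm_add, norm_neg, bil_neg_right]
  ring

theorem bil_star_star (x y : Oct a b c) : bil (star x) (star y) = bil x y := by
  rw [bil, bil, ← star_add, norm_star, norm_star, norm_star]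

theorem bil_star_left (x y : Oct a b c) : bil (star x) y = bil x (star y) := by
  rw [← bil_star_star, star_star]

theorem add_star_self (x : Oct a b c) : x + star x = bil x 1 • 1 := by
  apply ext8 <;> simp [bil_eq] <;> ring

theorem star_eq (x : Oct a b c) : star x = bil x 1 • 1 - x := by
  rw [← add_star_self]
  abel

theorem star_eq_neg_iff {x : Oct a b c} : star x = -x ↔ bil x 1 = 0 := by
  rw [star_eq]
  constructor
  · intro h
    have h1 : bil x 1 • (1 : Oct a b c) = 0 := by
      have := congrArg (· + x) h
      simpa using this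
    have h2 := congrArg (fun z : Oct a b c => z.fst.re) h1
    simpa using h2
  · intro h
    rw [h, zero_smul, zero_sub]

theorem mul_star_add (x y : Oct a b c) : x * star y + y * star x = bil x y • 1 := by
  have h := mul_star_self (x + y)
  rw [star_add, mul_add, add_mul, add_mul, mul_star_self, mul_star_self, norm_add, add_smul,
    add_smul] at h
  rw [← add_left_inj (norm x • (1 : Oct a b c) + norm y • 1)]
  rw [add_comm (bil x y • (1 : Oct a b c)), ← h]
  abel

theorem star_mul_add (x y : Oct a b c) : star x * y + star y * x = bil x y • 1 := by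
  have h := mul_star_add (star x) (star y)
  rwa [star_star, star_star, bil_star_star] at h

theorem star_mul_mul_add (x y z : Oct a b c) :
    star x * (z * y) + star z * (x * y) = bil x z • y := by
  have h := star_mul_mul (x + z) y
  rw [star_add, add_mul x z, mul_add, add_mul, add_mul, star_mul_mul, star_mul_mul, norm_add,
    add_smul, add_smul] at h
  rw [← add_left_inj (norm x • y + norm z • y), add_comm (bil x z • y), ← h]
  abel

theorem mul_mul_star_add (x y z : Oct a b c) :
    (y * x) * star z + (y * z) * star x = bil x z • y := by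
  have h := mul_mul_star (x + z) y
  rw [star_add, mul_add y, mul_add, add_mul, add_mul, mul_mul_star, mul_mul_star, norm_add,
    add_smul, add_smul] at h
  rw [← add_left_inj (norm x • y + norm z • y), add_comm (bil x z • y), ← h]
  abel

theorem mul_star_mul (x y : Oct a b c) : x * (star x * y) = norm x • y := by
  have := star_mul_mul (star x) y
  rwa [star_star, norm_star] at this

theorem mul_star_mul' (x y : Oct a b c) : (y * star x) * x = norm x • y := by
  have := mul_mul_star (star x) y
  rwa [star_star, norm_star] at this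

theorem mul_star_mul_add (x y z : Oct a b c) :
    x * (star z * y) + z * (star x * y) = bil x z • y := by
  have := star_mul_mul_add (star x) y (star z)
  rwa [star_star, star_star, bil_star_star] at this

theorem mul_star_mul_add' (x y z : Oct a b c) :
    (y * star x) * z + (y * star z) * x = bil x z • y := by
  have := mul_mul_star_add (star x) y (star z)
  rwa [star_star, star_star, bil_star_star] at this

theorem mul_self_eq (x : Oct a b c) : x * x = bil x 1 • x - norm x • 1 := by
  have h := star_mul_self x
  rw [star_eq, sub_mul, smul_mul_oct, one_mul] at h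
  rw [← h]
  abel

/-- Left alternativity. -/
theorem mul_mul_self (x y : Oct a b c) : x * (x * y) = (x * x) * y := by
  have h := star_mul_mul x y
  rw [star_eq, sub_mul, smul_mul_oct, one_mul] at h
  rw [mul_self_eq, sub_mul, smul_mul_oct, smul_mul_oct, one_mul, ← h]
  abel

/-- Right alternativity. -/
theorem mul_self_mul (x y : Oct a b c) : (y * x) * x = y * (x * x) := by
  have h := mul_mul_star x y
  rw [star_eq, mul_sub, mul_smul_oct, mul_one] at h
  rw [mul_self_eq, mul_sub, mul_smul_oct, mul_smul_oct, mul_one, ← h]
  abel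

theorem mul_mul_eq (x y : Oct a b c) : x * (y * x) = bil x (star y) • x - norm x • star y := by
  have h := mul_star_mul_add x x (star y)
  rw [star_star, star_mul_self, mul_smul_oct, mul_one] at h
  rw [← h]
  abel

/-- Flexibility. -/
theorem flex (x y : Oct a b c) : (x * y) * x = x * (y * x) := by
  have h := mul_mul_star_add y x (star x)
  rw [star_star, mul_star_self, smul_mul_oct, one_mul, bil_comm, bil_star_left] at h
  rw [mul_mul_eq, ← h]
  abel

theorem bil_mul_mul_left (x y z : Oct a b c) : bil (x * y) (x * z) = norm x * bil y z := by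
  have h := norm_mul x (y + z)
  rw [mul_add, norm_add, norm_add, norm_mul, norm_mul] at h
  linear_combination h

theorem bil_mul_mul_right (x y z : Oct a b c) : bil (y * x) (z * x) = norm x * bil y z := by
  have h := norm_mul (y + z) x
  rw [add_mul, norm_add, norm_add, norm_mul, norm_mul] at h
  linear_combination h

theorem bil_mul_mul (x y z w : Oct a b c) :
    bil (x * y) (z * w) + bil (z * y) (x * w) = bil x z * bil y w := by
  have h := bil_mul_mul_left (x + z) y w
  rw [add_mul, add_mul, bil_add_left, bil_add_right, bil_add_right, norm_add,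
    bil_mul_mul_left, bil_mul_mul_left] at h
  linear_combination h

theorem bil_mul_left (x y z : Oct a b c) : bil (x * y) z = bil y (star x * z) := by
  have h := bil_mul_mul x y 1 z
  rw [one_mul, one_mul] at h
  rw [star_eq, sub_mul, smul_mul_oct, one_mul, bil_sub_right, bil_smul_right]
  linear_combination h

theorem bil_mul_left' (x y z : Oct a b c) : bil (x * y) z = bil x (z * star y) := by
  have h := bil_mul_mul x y z 1
  rw [mul_one, mul_one] at h
  rw [star_eq, mul_sub, mul_smul_oct, mul_one, bil_sub_right, bil_smul_right,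
    bil_comm x (z * y)]
  linear_combination h

theorem bil_mul_right (x y z : Oct a b c) : bil x (y * z) = bil (star y * x) z := by
  rw [bil_comm, bil_mul_left, bil_comm]

theorem bil_mul_right' (x y z : Oct a b c) : bil x (y * z) = bil (x * star z) y := by
  rw [bil_comm, bil_mul_left', bil_comm]

theorem bil_eq_dot (x y : Oct a b c) : bil x y = 2 * dot x y := by
  rw [bil_eq, dot]
  simp
  ring

theorem norm_eq_dot (x : Oct a b c) : norm x = dot x x := by
  rw [dot, mul_star_self]
  simp

/-! Nondegeneracy. -/

section nondeg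

variable [NeZero (2 : F)]

theorem eq_zero_of_bil {x : Oct a b c} (h : ∀ y, bil x y = 0) : x = 0 := by
  have h2 : (2 : F) ≠ 0 := NeZero.ne 2
  have ha := a.ne_zero
  have hb := b.ne_zero
  have hc := c.ne_zero
  have e1 := h ⟨⟨1, 0, 0, 0⟩, 0⟩
  have e2 := h ⟨⟨0, 1, 0, 0⟩, 0⟩
  have e3 := h ⟨⟨0, 0, 1, 0⟩, 0⟩
  have e4 := h ⟨⟨0, 0, 0, 1⟩, 0⟩
  have e5 := h ⟨0, ⟨1, 0, 0, 0⟩⟩
  have e6 := h ⟨0, ⟨0, 1, 0, 0⟩⟩
  have e7 := h ⟨0, ⟨0, 0, 1, 0⟩⟩
  have e8 := h ⟨0, ⟨0, 0, 0, 1⟩⟩
  simp only [bil_eq, QuaternionAlgebra.re_zero, QuaternionAlgebra.imI_zero,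
    QuaternionAlgebra.imJ_zero, QuaternionAlgebra.imK_zero, mul_zero, mul_one, sub_zero,
    add_zero, zero_sub, zero_add, mul_neg, neg_eq_zero, mul_eq_zero, h2, ha, hb, hc, false_or]
    at e1 e2 e3 e4 e5 e6 e7 e8
  exact ext8 e1 e2 e3 e4 e5 e6 e7 e8

theorem eq_of_bil {x y : Oct a b c} (h : ∀ z, bil x z = bil y z) : x = y :=
  sub_eq_zero.1 (eq_zero_of_bil fun z => by rw [bil_sub_left, h, sub_self])

/-- Middle Moufang identity. -/
theorem moufang (x y z : Oct a b c) : (x * y) * (z * x) = (x * (y * z)) * x := by
  apply eq_of_bil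
  intro w
  rw [flex, mul_mul_eq, bil_sub_left, bil_smul_left, bil_smul_left, bil_mul_left' (x * y),
    star_mul z x]
  have h := bil_mul_mul x y w (star x * star z)
  rw [mul_star_mul, bil_smul_right, bil_mul_right' y, star_star, bil_mul_left' w,
    ← star_mul y z] at h
  rw [bil_comm (star (y * z)) w, bil_comm x (star _), bil_star_left]
  linear_combination h

/-- Left Moufang identity. -/
theorem moufang_left (x y z : Oct a b c) : (x * (y * x)) * z = x * (y * (x * z)) := by
  apply eq_of_bil
  intro w
  rw [mul_mul_eq, sub_mul, smul_mul_oct, smul_mul_oct, bil_sub_left, bil_smul_left,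
    bil_smul_left, bil_mul_left x z w, bil_mul_left x (y * (x * z)) w, bil_mul_left y (x * z)]
  have h := bil_mul_mul x z (star y) (star x * w)
  rw [mul_star_mul, bil_smul_right] at h
  linear_combination -h

end nondeg

/-! Orthogonal elements. -/

theorem star_neg_of_pure {x : Oct a b c} (h : bil x 1 = 0) : star x = -x :=
  star_eq_neg_iff.2 h

theorem mul_self_of_pure {x : Oct a b c} (h : bil x 1 = 0) : x * x = (-norm x) • 1 := by
  rw [mul_self_eq, h, zero_smul, zero_sub, neg_smul]

/-- The product of orthogonal elements. -/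
theorem mul_star_of_orth {x y : Oct a b c} (h : bil x y = 0) : x * star y = -(y * star x) := by
  have := mul_star_add x y
  rw [h, zero_smul] at this
  exact eq_neg_of_add_eq_zero_left this

end Oct

end Vale.Agent.P011.D4
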