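import Vale.Agent.P011.D4.Defs3
import Vale.Agent.P011.Two.HQCore

/-!
Block D4: literal statements of the rows.
-/

open NumberField IsDedekindDomain Topology

namespace Vale.Agent.P011.D4.Spec

open Vale.Agent.P011.MPQ Vale.Agent.P011.Arith Vale.Agent.P011.D4 Vale.Agent.P011.D4.Oct

/-! R1 (553): octonions over any field of characteristic not two. -/

section R1

variable {F : Type} [Field F] (h2 : (2 : F) ≠ 0) {a b c a' b' c' : Fˣ}

theorem norm_eq_dot (x : Oct a b c) : norm x = dot x x := sorry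
theorem norm_mul (x y : Oct a b c) : norm (x * y) = norm x * norm y := sorry

theorem exists_emb {i j l : Oct a b c} (h : Trip a' b' c' i j l) :
    ∃ Φ : Oct a' b' c' ≃ₗ[F] Oct a b c, (∀ x, Φ x = emb i j l x) ∧
      (∀ x y, Φ (x * y) = Φ x * Φ y) ∧ (∀ x, Φ (star x) = star (Φ x)) ∧
      ∀ x, norm (Φ x) = norm x := sorry

theorem trip_std : Trip a b c (gi : Oct a b c) gj gl := sorry

theorem trip_map {a'' b'' c'' : Fˣ} {i j l : Oct a b c} (h : Trip a' b' c' i j l)
    {Φ : Oct a b c ≃ₗ[F] Oct a'' b'' c''} (hΦ : ∀ x y, Φ (x * y) = Φ x * Φ y) :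
    Trip a' b' c' (Φ i) (Φ j) (Φ l) := sorry

/-- A multiplicative linear map is determined by the images of the generators. -/
theorem hom_ext {A : Type} [NonAssocRing A] [Module F A] {f g : Oct a b c →ₗ[F] A}
    (hf : ∀ x y, f (x * y) = f x * f y) (hg : ∀ x y, g (x * y) = g x * g y) (h1 : f 1 = g 1)
    (hi : f gi = g gi) (hj : f gj = g gj) (hl : f gl = g gl) : f = g := sorry

theorem aut_star (g : AutC a b c) (x : Oct a b c) : g.1 (star x) = star (g.1 x) := sorry
theorem aut_norm (g : AutC a b c) (x : Oct a b c) : norm (g.1 x) = norm x := sorry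
theorem aut_one (g : AutC a b c) : g.1 1 = 1 := sorry

/-- Orthogonal vectors exist. -/
theorem exists_perp (v : Fin 7 → Oct a b c) : ∃ x : Oct a b c, x ≠ 0 ∧ ∀ m, dot x (v m) = 0 :=
  sorry

/-- Completion of a basic pair by a given third vector. -/
theorem exists_trip (hdiv : Division a b c) {i j l : Oct a b c} (hi : star i = -i) (hi0 : i ≠ 0)
    (hj : star j = -j) (hj0 : j ≠ 0) (hl : star l = -l) (hl0 : l ≠ 0) (hij : dot i j = 0)
    (hil : dot i l = 0) (hjl : dot j l = 0) (hijl : dot (i * j) l = 0) :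
    ∃ a' b' c' : Fˣ, Trip a' b' c' i j l := sorry

/-- The quaternion algebras in a division octonion algebra. -/
theorem aniso_of_trip (hdiv : Division a b c) {i j l : Oct a b c} (h : Trip a' b' c' i j l) :
    Aniso a' b' ∧ Aniso c' a' ∧ Aniso c' b' ∧ Division a' b' c' := sorry

end R1

/-! R5 (408): topology and the norm theorem. -/

section R5

variable {k : Type} [Field k] [NumberField k] {S : Set (Pl k)}

theorem topS_ring : @IsTopologicalRing k (topS S) _ := sorry
theorem topS_inv : @ContinuousInv₀ k _ _ (topS S) := sorry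
theorem nhds_topS (hS : S.Finite) (x : k) (U : Set k) : U ∈ @nhds k (topS S) x ↔
    ∃ ε : ℝ, 0 < ε ∧ ∀ y, (∀ p ∈ S, plAbv p (y - x) < ε) → y ∈ U := sorry
theorem nt (hS : S.Finite) (hr : ∀ φ, (Sum.inr φ : Pl k) ∈ S) : @NT k _ (topS S) := sorry
theorem wa_SL1 (hS : S.Finite) {a b : kˣ} (hab : Aniso a b) (z : Pl k → SL1 a b) {ε : ℝ}
    (hε : 0 < ε) : ∃ t : SL1 a b, ∀ p ∈ S,
      QIn {x | plAbv p x < ε} (((t : (Qt a b)ˣ) : Qt a b) - (((z p : SL1 a b) : (Qt a b)ˣ) : Qt a b)) :=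
  sorry

end R5

/-! R3, R7 (24): embeddings, transfer, torus trick. -/

section R3

variable {k L : Type} [Field k] [NumberField k] [Field L] [NumberField L] [Algebra k L]

/-- Long elements close to one. -/
theorem long_near {a b : kˣ} (hab : Aniso a b) {e : ℕ} (he : 0 < e) {S : Set (Pl k)}
    (hS : S.Finite) (hram : ∀ w, Ram a b w → (Sum.inl w : Pl k) ∈ S) :
    ∃ W ∈ @nhds k (topS S) 0, ∀ (c : kˣ) (N : Subgroup (AutC a b c)), N.Normal → N.index ≠ 0 →
      (∀ g : AutC a b c, g ^ e ∈ N) → ∀ t : SL1 a b, QIn W (((t : (Qt a b)ˣ) : Qt a b) - 1) →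
        long a b c t ∈ N := sorry

theorem exists_ext (ρ : L ≃ₐ[k] L) (a b c : kˣ) :
    ∃ E : AutC a b c →* Tri ρ a b c, IsExt ρ E := sorry

theorem exists_short (ρ : L ≃ₐ[k] L) (hρ : ∀ x, ρ (ρ (ρ x)) = x) (a b c : kˣ) :
    ∃ s : SL1 (up L a) (up L b) →* Tri ρ a b c, IsShort ρ s := sorry

theorem exists_conjT (ρ : L ≃ₐ[k] L) {a b c a' b' c' : kˣ} {i j l : Oct a b c}
    (h : Trip a' b' c' i j l) : ∃ C : Tri ρ a' b' c' →* Tri ρ a b c, IsConjT ρ i j l C ∧
      Function.Bijective C := sorry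

/-- Short elements close to one (the subgroup contains the trace of the normal subgroup). -/
theorem short_near {a b : kˣ} (hab : Aniso (up L a) (up L b)) {e : ℕ} (he : 0 < e)
    {S : Set (Pl L)} (hS : S.Finite) (hram : ∀ w, Ram (up L a) (up L b) w → (Sum.inl w : Pl L) ∈ S) :
    ∃ W ∈ @nhds L (topS S) 0, ∀ (N : Subgroup (SL1 (up L a) (up L b))), N.Normal → N.index ≠ 0 →
      (∀ g : SL1 (up L a) (up L b), g ^ e ∈ N) → ∀ t : SL1 (up L a) (up L b), QIn W (((t : (Qt (up L a) (up L b))ˣ) :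
        Qt (up L a) (up L b)) - 1) → t ∈ N := sorry

/-- The torus trick: norm-one elements of `L(i)` lie in the normal subgroup. -/
theorem torus_mem {ρ : L ≃ₐ[k] L} (h3 : Module.finrank k L = 3) (hρ1 : ρ ≠ 1)
    {a b c : kˣ} (hdiv : Division a b c) {s : SL1 (up L a) (up L b) →* Tri ρ a b c}
    (hs : IsShort ρ s) {E : AutC a b c →* Tri ρ a b c} (hE : IsExt ρ E)
    (N : Subgroup (Tri ρ a b c)) [N.Normal] (hN : N.index ≠ 0) (hEN : ∀ g, E g ∈ N)
    (x : SL1 (up L a) (up L b)) (hJ : ((x : (Qt (up L a) (up L b))ˣ) : Qt (up L a) (up L b)).imJ = 0)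
    (hK : ((x : (Qt (up L a) (up L b))ˣ) : Qt (up L a) (up L b)).imK = 0) : s x ∈ N := sorry

end R3

/-! R4, R6 (798): the group of type `G₂`. -/

theorem near_mem {k : Type} [Field k] [NumberField k] {a b c : kˣ} (hdiv : Division a b c)
    (N : Subgroup (AutC a b c)) (hN : N.Normal) (hi : N.index ≠ 0) {S : Set (Pl k)}
    (hS : S.Finite) (hr : ∀ φ, (Sum.inr φ : Pl k) ∈ S)
    (h1 : ∀ w, Ram a b w → (Sum.inl w : Pl k) ∈ S) (h2 : ∀ w, Ram c a w → (Sum.inl w : Pl k) ∈ S)
    (h3 : ∀ w, Ram c b w → (Sum.inl w : Pl k) ∈ S) :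
    ∃ W ∈ @nhds k (topS S) 0, ∀ g : AutC a b c, Near W g → g ∈ N := sorry

/-- **G2.** -/
theorem g2 {k : Type} [Field k] [NumberField k] {a b c : kˣ} (hdiv : Division a b c)
    (N : Subgroup (AutC a b c)) (hN : N.Normal) (hi : N.index ≠ 0) : N = ⊤ := sorry

/-! R8 (862): generation by tori over the ground field. -/

theorem torus_gen {k E : Type} [Field k] [NumberField k] [Field E] [NumberField E] [Algebra k E]
    (h3 : Module.finrank k E = 3) {a b : kˣ} (hab : Aniso (up E a) (up E b))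
    (N : Subgroup (SL1 (up E a) (up E b))) (hN : N.Normal) (hi : N.index ≠ 0)
    (h : ∀ (i : Qt a b), i.re = 0 → i ≠ 0 → ∀ x : SL1 (up E a) (up E b),
      (∃ p q : E, ((x : (Qt (up E a) (up E b))ˣ) : Qt (up E a) (up E b)) =
        p • 1 + q • qup E i) → x ∈ N) : N = ⊤ := sorry

/-! R2 (369): the stabiliser of `1` and its orbit. -/

section R2

variable {k L : Type} [Field k] [NumberField k] [Field L] [NumberField L] [Algebra k L]
  (ρ : L ≃ₐ[k] L) (h3 : Module.finrank k L = 3) (hρ1 : ρ ≠ 1) {a b c : kˣ}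

include h3 hρ1

theorem stab_one {E : AutC a b c →* Tri ρ a b c} (hE : IsExt ρ E) (g : Tri ρ a b c)
    (hg : g.1 1 = 1) : ∃ h : AutC a b c, E h = g := sorry

theorem orbit_one (hdiv : Division a b c) (g : Tri ρ a b c) :
    ∃ (a' b' c' : kˣ) (i j l : Oct a b c), Trip a' b' c' i j l ∧
      ∃ x : SL1 (up L a') (up L b'), g.1 1 = Oct.emb (oup L i) (oup L j) (oup L l)
        (shortFun ρ ((x : (Qt (up L a') (up L b'))ˣ) : Qt (up L a') (up L b')) 1 :
          OctL L a' b' c') := sorry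

/-- The reduced norm forms stay anisotropic over the cubic extension. -/
theorem aniso_up {a b : kˣ} (hab : Aniso a b) : Aniso (up L a) (up L b) := sorry

end R2

/-! Assembly (69). -/

theorem tri_top {k L : Type} [Field k] [NumberField k] [Field L] [NumberField L] [Algebra k L]
    (ρ : L ≃ₐ[k] L) (h3 : Module.finrank k L = 3) (hρ1 : ρ ≠ 1) {a b c : kˣ}
    (hdiv : Division a b c) (S : Subgroup (Tri ρ a b c)) (hS : S.index ≠ 0) : S = ⊤ := sorry

end Vale.Agent.P011.D4.Spec
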