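import Vale.Agent.P011.D4.Defs4
import Vale.Agent.P011.D4.Spec

/-!
Block D4: literal statements of the rows in the uniform set-up.
-/

open NumberField IsDedekindDomain Topology

namespace Vale.Agent.P011.D4.SpecU

open Vale.Agent.P011.MPQ Vale.Agent.P011.Arith Vale.Agent.P011.D4 Vale.Agent.P011.D4.Oct

variable {k E M : Type} [Field k] [Field E] [Field M] [Algebra k E] [Algebra k M] [Algebra E M]
  [IsScalarTower k E M] {ρ : M ≃ₐ[k] M} {I : Set (M ≃ₐ[k] M)}

/-! R3 (24). -/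

theorem exists_ext (ρ : M ≃ₐ[k] M) (I : Set (M ≃ₐ[k] M)) (a b c : kˣ) :
    ∃ e : AutC a b c →* TriU ρ I a b c, IsExtU ρ I e := sorry

theorem exists_short (hU : SetU k E M ρ I) (a b c : kˣ) :
    ∃ s : SL1 (up E a) (up E b) →* TriU ρ I a b c, IsShortU ρ I s := sorry

theorem exists_conj (ρ : M ≃ₐ[k] M) (I : Set (M ≃ₐ[k] M)) {a b c a' b' c' : kˣ}
    (h2 : (2 : k) ≠ 0) {i j l : Oct a b c}
    (h : Trip a' b' c' i j l) : ∃ C : TriU ρ I a' b' c' →* TriU ρ I a b c, IsConjU ρ I i j l C ∧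
      Function.Bijective C := sorry

/-! R7 (24): the torus trick. -/

theorem torus_mem [NumberField k] [NumberField E] [NumberField M] (hU : SetU k E M ρ I)
    {a b c : kˣ} (hdiv : Division a b c) {s : SL1 (up E a) (up E b) →* TriU ρ I a b c}
    (hs : IsShortU ρ I s) {e : AutC a b c →* TriU ρ I a b c} (he : IsExtU ρ I e)
    (N : Subgroup (TriU ρ I a b c)) [N.Normal] (hN : N.index ≠ 0) (hEN : ∀ g, e g ∈ N)
    (x : SL1 (up E a) (up E b)) (hJ : ((x : (Qt (up E a) (up E b))ˣ) : Qt (up E a) (up E b)).imJ = 0)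
    (hK : ((x : (Qt (up E a) (up E b))ˣ) : Qt (up E a) (up E b)).imK = 0) : s x ∈ N := sorry

/-! R2 (369, 319, 68). -/

theorem stab_one [NumberField k] (hU : SetU k E M ρ I) {a b c : kˣ}
    {e : AutC a b c →* TriU ρ I a b c} (he : IsExtU ρ I e) (g : TriU ρ I a b c)
    (hg : g.1 1 = 1) : ∃ h : AutC a b c, e h = g := sorry

theorem orbit_one [NumberField k] (hU : SetU k E M ρ I) {a b c : kˣ} (hdiv : Division a b c)
    (g : TriU ρ I a b c) : ∃ (a' b' c' : kˣ) (i j l : Oct a b c), Trip a' b' c' i j l ∧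
      ∃ x : SL1 (up E a') (up E b'), g.1 1 = Oct.emb (oup M i) (oup M j) (oup M l)
        (shortFun ρ (qEM M ((x : (Qt (up E a') (up E b'))ˣ) : Qt (up E a') (up E b'))) 1 :
          OctL M a' b' c') := sorry

theorem aniso_up [CharZero k] (h3 : Module.finrank k E = 3) {a b : kˣ} (hab : Aniso a b) :
    Aniso (up E a) (up E b) := sorry

/-! Assembly (69). -/

theorem tri_top [NumberField k] [NumberField E] [NumberField M] (hU : SetU k E M ρ I)
    {a b c : kˣ} (hdiv : Division a b c) (S : Subgroup (TriU ρ I a b c)) (hS : S.index ≠ 0) :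
    S = ⊤ := sorry

end Vale.Agent.P011.D4.SpecU
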