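import Vale.Agent.P011.Two.NearPow
import Vale.Agent.P011.MPQ.Final

/-!
Generation of the norm-one group of a quaternion algebra by an unramified torus: congruences of
quaternions at the ramified places.
-/

open NumberField IsDedekindDomain

namespace Vale.Agent.P011.D4.TG

open Vale.Agent.P011.Arith Vale.Agent.P011.MPQ Vale.Agent.P011.Two

section alg

variable {F : Type} [Field F] {a b : Fˣ}

theorem exists_SL1 (z : Qt a b) (hz : nrd z = 1) :
    ∃ x : SL1 a b, ((x : (Qt a b)ˣ) : Qt a b) = z := by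
  have h1 : z * star z = 1 := (norm_nrd z).mpr hz
  have h2 : star z * z = 1 := by rw [star_mul_self', hz, one_smul]
  exact ⟨⟨⟨z, star z, h1, h2⟩, hz⟩, rfl⟩

theorem nrd_neg (x : Qt a b) : nrd (-x) = nrd x := by
  simp [nrd]

theorem mul_star_self' (x : Qt a b) : x * star x = nrd x • (1 : Qt a b) := by
  ext <;> simp [nrd] <;> ring

end alg

variable {F : Type} [Field F] [NumberField F] {a b : Fˣ}

/-- The quaternion `z` is divisible by `g` at the ramified places. -/
def Cm (g : F) (z : Qt a b) : Prop :=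
  ∀ w : HeightOneSpectrum (𝓞 F), Ram a b w → w.valuation F (nrd z) ≤ w.valuation F g ^ 2

/-- The element `c` is divisible by `g` at the ramified places. -/
def Sc (a b : Fˣ) (g c : F) : Prop :=
  ∀ w : HeightOneSpectrum (𝓞 F), Ram a b w → w.valuation F c ≤ w.valuation F g

theorem Cm.add (hab : Aniso a b) {g : F} {x y : Qt a b} (hx : Cm g x) (hy : Cm g y) :
    Cm g (x + y) := fun w hw =>
  (qv hab hw).map_add_le (hx w hw) (hy w hw)

theorem Cm.neg {g : F} {x : Qt a b} (hx : Cm g x) : Cm g (-x) := fun w hw => by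
  rw [nrd_neg]
  exact hx w hw

theorem Cm.sub (hab : Aniso a b) {g : F} {x y : Qt a b} (hx : Cm g x) (hy : Cm g y) :
    Cm g (x - y) := by
  rw [sub_eq_add_neg]
  exact hx.add hab hy.neg

theorem Cm.mul {g h : F} {x y : Qt a b} (hx : Cm g x) (hy : Cm h y) : Cm (g * h) (x * y) :=
  fun w hw => by
  rw [nrd_mul, map_mul, map_mul, mul_pow]
  exact mul_le_mul' (hx w hw) (hy w hw)

theorem Cm.mul_left {g : F} {x y : Qt a b} (hx : Cm 1 x) (hy : Cm g y) : Cm g (x * y) := by
  have := hx.mul hy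
  rwa [one_mul] at this

theorem Cm.mul_right {g : F} {x y : Qt a b} (hx : Cm g x) (hy : Cm 1 y) : Cm g (x * y) := by
  have := hx.mul hy
  rwa [mul_one] at this

theorem Cm.star {g : F} {x : Qt a b} (hx : Cm g x) : Cm g (star x) := fun w hw => by
  rw [Two.nrd_star]
  exact hx w hw

theorem Cm.smul {g h c : F} {x : Qt a b} (hc : Sc a b g c) (hx : Cm h x) : Cm (g * h) (c • x) :=
  fun w hw => by
  rw [Two.nrd_smul, map_mul, map_mul, mul_pow, map_pow]
  exact mul_le_mul' (pow_le_pow_left' (hc w hw) 2) (hx w hw)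

theorem Cm.smul_left {g c : F} {x : Qt a b} (hc : Sc a b g c) (hx : Cm 1 x) : Cm g (c • x) := by
  have := Cm.smul hc hx
  rwa [mul_one] at this

theorem Cm.smul_right {g c : F} {x : Qt a b} (hc : Sc a b 1 c) (hx : Cm g x) : Cm g (c • x) := by
  have := Cm.smul hc hx
  rwa [one_mul] at this

theorem Cm.mono {g h : F} {x : Qt a b} (hgh : Sc a b h g) (hx : Cm g x) : Cm h x := fun w hw =>
  (hx w hw).trans (pow_le_pow_left' (hgh w hw) 2)

theorem Cm.of_nrd {x : Qt a b} (hx : nrd x = 1) : Cm 1 x := fun w _ => by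
  rw [hx, map_one, one_pow]

theorem Cm.trd {g : F} (hg : g ≠ 0) {z : Qt a b} (hz : Cm g z) : Sc a b g (2 * z.re) := by
  intro w hw
  have h1 : w.valuation F (nrd (g⁻¹ • z)) ≤ 1 := by
    rw [Two.nrd_smul, map_mul, map_pow, map_inv₀]
    have hg' : w.valuation F g ≠ 0 := (Valuation.ne_zero_iff _).mpr hg
    calc _ ≤ ((w.valuation F g)⁻¹) ^ 2 * w.valuation F g ^ 2 :=
          mul_le_mul_right (hz w hw) _
      _ = 1 := by rw [← mul_pow, inv_mul_cancel₀ hg', one_pow]
  have h2 := trd_le hw h1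
  have h3 : 2 * z.re = g * (2 * (g⁻¹ • z).re) := by
    rw [QuaternionAlgebra.re_smul, smul_eq_mul]
    field_simp
  rw [h3, map_mul]
  exact mul_le_of_le_one_right' h2

theorem Sc.mul {g h c d : F} (hc : Sc a b g c) (hd : Sc a b h d) : Sc a b (g * h) (c * d) :=
  fun w hw => by
  rw [map_mul, map_mul]
  exact mul_le_mul' (hc w hw) (hd w hw)

theorem Sc.add {g c d : F} (hc : Sc a b g c) (hd : Sc a b g d) : Sc a b g (c + d) := fun w hw =>
  (w.valuation F).map_add_le (hc w hw) (hd w hw)

theorem Sc.neg {g c : F} (hc : Sc a b g c) : Sc a b g (-c) := fun w hw => by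
  rw [Valuation.map_neg]
  exact hc w hw

theorem Sc.sub {g c d : F} (hc : Sc a b g c) (hd : Sc a b g d) : Sc a b g (c - d) := by
  rw [sub_eq_add_neg]
  exact hc.add hd.neg

theorem Sc.nat (n : ℕ) : Sc a b 1 (n : F) := fun w _ => by
  rw [map_one]
  exact z0_val_nat_le _ n

/-- Elements which are close at the ramified places are in the same class. -/
theorem near_mem (hab : Aniso a b) (N : Subgroup (SL1 a b)) (hN : N.Normal) (hi : N.index ≠ 0) :
    ∃ g : F, g ≠ 0 ∧ (∀ w : HeightOneSpectrum (𝓞 F), Ram a b w → w.valuation F g < 1) ∧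
      ∀ x y : SL1 a b, Cm g (((x : (Qt a b)ˣ) : Qt a b) - ((y : (Qt a b)ˣ) : Qt a b)) →
        y ∈ N → x ∈ N := by
  obtain ⟨s, hs0, hs⟩ := exists_ram_nat a b
  have he : 0 < N.index := Nat.pos_of_ne_zero hi
  have hs0' : (s : F) ≠ 0 := Nat.cast_ne_zero.mpr hs0
  have he' : (N.index : F) ≠ 0 := Nat.cast_ne_zero.mpr hi
  have h4 : ∀ w : HeightOneSpectrum (𝓞 F), w.valuation F (4 * (N.index : F) ^ 4) ≤ 1 := fun w => by
    rw [map_mul, map_pow]
    exact mul_le_one' (val_four_le _) (pow_le_one' (z0_val_nat_le _ _) 4)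
  refine ⟨4 * (N.index : F) ^ 4 * s, ?_, fun w hw => ?_, fun x y hxy hy => ?_⟩
  · exact mul_ne_zero (mul_ne_zero (by norm_num) (pow_ne_zero 4 he')) hs0'
  · rw [map_mul]
    calc _ ≤ 1 * w.valuation F (s : F) := mul_le_mul_left (h4 w) _
      _ < 1 := by rw [one_mul]; exact hs w hw
  · have key : x * y⁻¹ ∈ N := by
      refine mpq a b hab N hN hi N.index he (fun g => N.pow_index_mem g) _ fun w hw ε hε => ?_
      have hlt : w.valuation F (2 - 2 * (((x * y⁻¹ : SL1 a b) : (Qt a b)ˣ) : Qt a b).re) <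
          w.valuation F (4 * (N.index : F) ^ 4) := by
        have e1 : (2 : F) - 2 * (((x * y⁻¹ : SL1 a b) : (Qt a b)ˣ) : Qt a b).re =
            nrd (((x : (Qt a b)ˣ) : Qt a b) - ((y : (Qt a b)ˣ) : Qt a b)) := by
          have hx1 : nrd ((x : (Qt a b)ˣ) : Qt a b) = 1 := x.2
          have hy1 : nrd ((y : (Qt a b)ˣ) : Qt a b) = 1 := y.2
          have e2 : (((x * y⁻¹ : SL1 a b) : (Qt a b)ˣ) : Qt a b) =
              ((x : (Qt a b)ˣ) : Qt a b) * star ((y : (Qt a b)ˣ) : Qt a b) := by
            rw [← coe_inv_sl]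
            rfl
          rw [e2]
          simp only [nrd] at hx1 hy1
          simp only [nrd, QuaternionAlgebra.re_mul, QuaternionAlgebra.re_star,
            QuaternionAlgebra.imI_star, QuaternionAlgebra.imJ_star, QuaternionAlgebra.imK_star,
            QuaternionAlgebra.re_sub, QuaternionAlgebra.imI_sub, QuaternionAlgebra.imJ_sub,
            QuaternionAlgebra.imK_sub]
          linear_combination (-1 : F) * hx1 - hy1
        rw [e1]
        refine (hxy w hw).trans_lt ?_
        have h0 : w.valuation F (4 * (N.index : F) ^ 4) ≠ 0 :=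
          (Valuation.ne_zero_iff _).mpr (mul_ne_zero (by norm_num) (pow_ne_zero 4 he'))
        rw [map_mul, mul_pow]
        calc w.valuation F (4 * (N.index : F) ^ 4) ^ 2 * w.valuation F (s : F) ^ 2
            ≤ w.valuation F (4 * (N.index : F) ^ 4) * w.valuation F (s : F) ^ 2 := by
              refine mul_le_mul_left ?_ _
              rw [sq]
              exact mul_le_of_le_one_right' (h4 w)
          _ < w.valuation F (4 * (N.index : F) ^ 4) * 1 := by
              refine mul_lt_mul_of_pos_left ?_ (zero_lt_iff.mpr h0)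
              exact pow_lt_one₀ zero_le (hs w hw) two_ne_zero
          _ = _ := mul_one _
      obtain ⟨h, hh⟩ := near_pow hab N.index he (x * y⁻¹) w hw hlt ε hε
      exact ⟨h ^ N.index, Subgroup.subset_closure ⟨h, rfl⟩, hh⟩
    have := N.mul_mem key hy
    rwa [inv_mul_cancel_right] at this

end Vale.Agent.P011.D4.TG
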