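import Vale.Agent.P011.D4.TG1
import Vale.Agent.P011.Arith.Hasse4

/-!
Generation of the norm-one group of a quaternion algebra by an unramified torus: iteration,
norms of units, and elements of the torus.
-/

open NumberField IsDedekindDomain

namespace Vale.Agent.P011.D4.TG

open Vale.Agent.P011.Arith Vale.Agent.P011.MPQ Vale.Agent.P011.Two

section loc

variable {F : Type} [Field F] [CharZero F] {w : Valuation F Z0}

theorem adm_unit {c : F} (hc : AdmC w c) : w (1 + 4 * c) = 1 := by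
  have := AdmC.norm_eq hc two_ne_zero 0 1
  rw [zero_pow two_ne_zero, zero_sub, one_pow, mul_one, Valuation.map_neg, zero_sub,
    Valuation.map_neg, map_one, mul_one, max_eq_left (val_two_le _), one_pow] at this
  exact this

omit [CharZero F] in
theorem adm_val {c : F} (hc : AdmC w c) : w c = 1 := by
  have := hc.2 0 1
  simpa using this

theorem adm_notMem {c : F} (hc : AdmC w c) {a : Fˣ} (ha : (a : F) = 1 + 4 * c) : a ∉ LS w := by
  rintro ⟨y, hy⟩
  have h1 := adm_unit hc
  rw [ha] at hy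
  have hy0 : (y : F) ≠ 0 := y.ne_zero
  have h2 : w ((1 + 4 * c) / (y : F) ^ 2) = 1 := by
    have := Valuation.map_one_add_of_lt w (x := (1 + 4 * c) / (y : F) ^ 2 - 1)
      (lt_of_lt_of_le hy (val_four_le _))
    rwa [add_sub_cancel] at this
  have h3 : w ((y : F) ^ 2) = 1 := by
    rw [map_div₀, h1, one_div] at h2
    rw [← inv_inv (w ((y : F) ^ 2)), h2, inv_one]
  have h4 := AdmC.norm_eq hc two_ne_zero (y : F) 1
  have h5 : w ((y : F) ^ 2 - (1 + 4 * c)) < w 4 := by
    have h6 : (y : F) ^ 2 - (1 + 4 * c) = -(((1 + 4 * c) / (y : F) ^ 2 - 1) * (y : F) ^ 2) := by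
      field_simp
      ring
    rw [h6, Valuation.map_neg, map_mul, h3, mul_one]
    exact hy
  rw [one_pow, mul_one, mul_one] at h4
  rw [h4, val_four_eq] at h5
  exact absurd h5 (not_lt.mpr (pow_le_pow_left' (le_max_right _ _) 2))

/-- The norm form takes values of even valuation. -/
theorem adm_even {c : F} (hc : AdmC w c) {a : Fˣ} (ha : (a : F) = 1 + 4 * c) (x y : F) :
    ∃ z : F, w (x ^ 2 - a * y ^ 2) = w z ^ 2 := by
  rw [ha, AdmC.norm_eq hc two_ne_zero]
  rcases max_choice (w (x - y)) (w (2 * y)) with h | h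
  · exact ⟨_, by rw [h]⟩
  · exact ⟨_, by rw [h]⟩

theorem adm_even' {c : F} (hc : AdmC w c) {a : Fˣ} (ha : (a : F) = 1 + 4 * c) {u : Fˣ}
    (hu : u ∈ NF a ⊔ LS w) : ∃ z : F, w (u : F) = w z ^ 2 := by
  obtain ⟨n, ⟨x, y, hn⟩, m, hm, rfl⟩ := Subgroup.mem_sup.mp hu
  obtain ⟨z, hz⟩ := adm_even hc ha x y
  obtain ⟨t, ht⟩ := LS_even hm
  refine ⟨z * t, ?_⟩
  rw [Units.val_mul, map_mul, ht, hn, hz, map_mul, mul_pow]

theorem odd_ne_sq (x : Z0) (k : ℤ) : x ^ 2 ≠ WithZero.exp (2 * k + 1) := by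
  intro h
  have h' := congrArg WithZero.log h
  rw [WithZero.log_pow, WithZero.log_exp, nsmul_eq_mul] at h'
  push_cast at h'
  omega

end loc

variable {F : Type} [Field F] [NumberField F] {a b : Fˣ}

/-- Units are norms from the unramified extension. -/
theorem unit_mem (w : HeightOneSpectrum (𝓞 F)) {c : F} (hc : AdmC (w.valuation F) c)
    (ha : (a : F) = 1 + 4 * c) {u : Fˣ} (hu : w.valuation F (u : F) = 1) :
    u ∈ NF a ⊔ LS (w.valuation F) := by
  obtain ⟨π, hπ⟩ := w.valuation_exists_uniformizer F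
  have hπ0 : π ≠ 0 := by
    rintro rfl
    rw [map_zero] at hπ
    exact WithZero.exp_ne_zero hπ.symm
  have h1 : Units.mk0 π hπ0 ∉ NF a ⊔ LS (w.valuation F) := fun h => by
    obtain ⟨z, hz⟩ := adm_even' hc ha h
    rw [Units.val_mk0, hπ] at hz
    exact odd_ne_sq (w.valuation F z) (-1) (by rw [← hz]; norm_num)
  have h2 : u * Units.mk0 π hπ0 ∉ NF a ⊔ LS (w.valuation F) := fun h => by
    obtain ⟨z, hz⟩ := adm_even' hc ha h
    rw [Units.val_mul, Units.val_mk0, map_mul, hu, one_mul, hπ] at hz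
    exact odd_ne_sq (w.valuation F z) (-1) (by rw [← hz]; norm_num)
  have hidx := local_index_two w a (adm_notMem hc ha)
  by_contra hcon
  exact h2 ((Subgroup.mul_mem_iff_of_index_two hidx).mpr (iff_of_false hcon h1))

/-- At a ramified place the valuation of `b` is odd. -/
theorem b_odd {w : HeightOneSpectrum (𝓞 F)} {c : F} (hc : AdmC (w.valuation F) c)
    (ha : (a : F) = 1 + 4 * c) (hw : Ram a b w) (z : F) :
    w.valuation F (b : F) ≠ w.valuation F z ^ 2 := by
  intro h
  have hz0 : z ≠ 0 := by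
    rintro rfl
    rw [map_zero, zero_pow two_ne_zero] at h
    exact (Valuation.ne_zero_iff _).mpr b.ne_zero h
  apply hw
  have h1 : b * (Units.mk0 z hz0 ^ 2)⁻¹ ∈ NF a ⊔ LS (w.valuation F) := by
    refine unit_mem w hc ha ?_
    rw [Units.val_mul, Units.val_inv_eq_inv_val, Units.val_pow_eq_pow_val, Units.val_mk0, map_mul,
      map_inv₀, map_pow, h]
    exact mul_inv_cancel₀ (pow_ne_zero 2 ((Valuation.ne_zero_iff _).mpr hz0))
  have h2 : Units.mk0 z hz0 ^ 2 ∈ NF a ⊔ LS (w.valuation F) :=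
    Subgroup.mem_sup_right (sq_mem_LS _)
  have := mul_mem h1 h2
  rwa [inv_mul_cancel_right] at this

/-- The second component of a quaternion of norm one is small. -/
theorem snd_small {w : HeightOneSpectrum (𝓞 F)} {c : F} (hc : AdmC (w.valuation F) c)
    (ha : (a : F) = 1 + 4 * c) (hw : Ram a b w) {x : Qt a b} (hx : nrd x = 1) :
    w.valuation F (b * (x.imJ ^ 2 - a * x.imK ^ 2)) < 1 := by
  obtain ⟨z, hz⟩ := adm_even hc ha x.re x.imI
  obtain ⟨t, ht⟩ := adm_even hc ha x.imJ x.imK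
  have h1 : x.re ^ 2 - a * x.imI ^ 2 = 1 + b * (x.imJ ^ 2 - a * x.imK ^ 2) := by
    simp only [nrd] at hx
    linear_combination hx
  by_contra hcon
  push Not at hcon
  have ht0 : w.valuation F t ≠ 0 := by
    intro h0
    rw [map_mul, ht, h0, zero_pow two_ne_zero, mul_zero] at hcon
    exact absurd hcon (not_le.mpr zero_lt_one)
  have ht0' : t ≠ 0 := (Valuation.ne_zero_iff _).mp ht0
  rcases hcon.eq_or_lt with h | h
  · refine b_odd hc ha hw t⁻¹ ?_
    rw [map_mul, ht] at h
    rw [map_inv₀, inv_pow]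
    exact eq_inv_of_mul_eq_one_left h.symm
  · have h2 : w.valuation F (x.re ^ 2 - a * x.imI ^ 2) =
        w.valuation F (b * (x.imJ ^ 2 - a * x.imK ^ 2)) := by
      rw [h1]
      refine Valuation.map_add_eq_of_lt_right (w.valuation F) ?_
      rw [map_one]
      exact h
    refine b_odd hc ha hw (z / t) ?_
    rw [hz, map_mul, ht] at h2
    rw [map_div₀, div_pow, h2, mul_div_assoc, div_self (pow_ne_zero 2 ht0), mul_one]

/-- A discreteness bound. -/
theorem le_exp_neg_one {x : Z0} (hx : x < 1) : x ≤ WithZero.exp (-1) := by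
  have := (z0_lt_iff_le_mul (x := x) one_ne_zero).mp hx
  rwa [one_mul] at this

theorem exists_exp_le {x : Z0} (hx : x ≠ 0) : ∃ n : ℕ, ∀ m : ℕ, n ≤ m →
    WithZero.exp (-(m : ℤ)) ≤ x := by
  refine ⟨(WithZero.log x).natAbs, fun m hm => ?_⟩
  conv_rhs => rw [← WithZero.exp_log hx]
  rw [WithZero.exp_le_exp]
  omega

/-- The iteration solving `m = κ (1 - m) ^ 2`. -/
theorem exists_m {R : Set (HeightOneSpectrum (𝓞 F))} (hR : R.Finite) (κ : F)
    (hκ : ∀ w ∈ R, w.valuation F κ < 1) (g : F) (hg : g ≠ 0) :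
    ∃ m : F, (∀ w ∈ R, w.valuation F m < 1) ∧
      ∀ w ∈ R, w.valuation F (κ * (1 - m) ^ 2 - m) ≤ w.valuation F g := by
  classical
  have key : ∀ n : ℕ, ∃ m : F, ∀ w ∈ R, w.valuation F m < 1 ∧
      w.valuation F (κ * (1 - m) ^ 2 - m) ≤ WithZero.exp (-(n : ℤ)) := by
    intro n
    induction n with
    | zero =>
      refine ⟨0, fun w hw => ⟨by simp, ?_⟩⟩
      rw [sub_zero, sub_zero, one_pow, mul_one, Nat.cast_zero, neg_zero, WithZero.exp_zero]
      exact (hκ w hw).le
    | succ n ih =>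
      obtain ⟨m, hm⟩ := ih
      refine ⟨κ * (1 - m) ^ 2, fun w hw => ?_⟩
      obtain ⟨h1, h2⟩ := hm w hw
      have h3 : w.valuation F (1 - m) = 1 := Valuation.map_one_sub_of_lt _ h1
      have h4 : w.valuation F (κ * (1 - m) ^ 2) < 1 := by
        rw [map_mul, map_pow, h3, one_pow, mul_one]
        exact hκ w hw
      refine ⟨h4, ?_⟩
      have e : κ * (1 - κ * (1 - m) ^ 2) ^ 2 - κ * (1 - m) ^ 2 =
          κ * ((κ * (1 - m) ^ 2 - m) * -((1 - m) + (1 - κ * (1 - m) ^ 2))) := by ring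
      have h5 : w.valuation F (1 - κ * (1 - m) ^ 2) = 1 := Valuation.map_one_sub_of_lt _ h4
      have h6 : w.valuation F ((1 - m) + (1 - κ * (1 - m) ^ 2)) ≤ 1 :=
        (w.valuation F).map_add_le h3.le h5.le
      rw [e, map_mul, map_mul, Valuation.map_neg]
      calc _ ≤ WithZero.exp (-1 : ℤ) * (WithZero.exp (-(n : ℤ)) * 1) :=
            mul_le_mul' (le_exp_neg_one (hκ w hw)) (mul_le_mul' h2 h6)
        _ = _ := by
            rw [mul_one, ← WithZero.exp_add]
            congr 1
            push_cast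
            ring
  choose n hn using fun w : HeightOneSpectrum (𝓞 F) =>
    exists_exp_le (x := w.valuation F g) ((Valuation.ne_zero_iff _).mpr hg)
  obtain ⟨m, hm⟩ := key (hR.toFinset.sup n)
  exact ⟨m, fun w hw => (hm w hw).1, fun w hw => (hm w hw).2.trans
    (hn w _ (Finset.le_sup (hR.mem_toFinset.mpr hw)))⟩

/-- Approximation of elements of `F(i)` of norm close to one by elements of norm one. -/
theorem exists_s (hab : Aniso a b) {c : F} (ha : (a : F) = 1 + 4 * c)
    (hc : ∀ w, Ram a b w → AdmC (w.valuation F) c) {g : F} (σ : Qt a b)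
    (hσJ : σ.imJ = 0) (hσK : σ.imK = 0) (hσ : Sc a b (2 * g) (nrd σ - 1)) (hσ1 : Cm 1 σ) :
    ∃ s : SL1 a b, ((s : (Qt a b)ˣ) : Qt a b).imJ = 0 ∧ ((s : (Qt a b)ˣ) : Qt a b).imK = 0 ∧
      Cm g (((s : (Qt a b)ˣ) : Qt a b) - σ) := by
  classical
  obtain ⟨e, he, -⟩ := approxVal (F := F) (ram_finite a b).toFinset
    (fun w => if w.valuation F 4 ≤ w.valuation F (nrd (1 + σ)) then 1 else 0)
    (fun w => w.valuation F 2) (fun w _ => val_two_ne _) (fun _ => 0) (ε := 1) one_pos
  have h2F : (2 : F) ≠ 0 := two_ne_zero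
  obtain ⟨θ, hθ⟩ : ∃ θ : Qt a b, θ = ⟨e, 1 - e, 0, 0⟩ := ⟨_, rfl⟩
  obtain ⟨z, hz⟩ : ∃ z : Qt a b, z = θ + σ * star θ := ⟨_, rfl⟩
  have hzw : ∀ w, Ram a b w → w.valuation F 4 ≤ w.valuation F (nrd z) ∧
      w.valuation F (nrd θ) ≤ 1 := by
    intro w hw
    have h1 := he w ((ram_finite a b).mem_toFinset.mpr hw)
    have hcw := hc w hw
    obtain ⟨V, hV⟩ : ∃ V : Valuation (Qt a b) Z0, V = qv hab hw := ⟨_, rfl⟩
    have hVn : ∀ x, V x = w.valuation F (nrd x) := fun x => by rw [hV]; rfl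
    have hva : w.valuation F (a : F) = 1 := by rw [ha]; exact adm_unit hcw
    obtain ⟨ew, hew⟩ : ∃ ew : F, ew = if w.valuation F 4 ≤ w.valuation F (nrd (1 + σ)) then 1
      else 0 := ⟨_, rfl⟩
    rw [← hew] at h1
    have hew1 : w.valuation F ew ≤ 1 := by
      rw [hew]
      split_ifs <;> simp
    have he1 : w.valuation F e ≤ 1 := by
      have : e = (e - ew) + ew := by ring
      rw [this]
      exact (w.valuation F).map_add_le (h1.le.trans (val_two_le _)) hew1
    have hσV : V σ ≤ 1 := by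
      rw [hVn]
      have := hσ1 w hw
      rwa [map_one, one_pow] at this
    have hVr : ∀ r : F, V (r • 1) = w.valuation F r ^ 2 := fun r => by
      rw [hVn, Two.nrd_smul, nrd_one, mul_one, map_pow]
    obtain ⟨ii, hii⟩ : ∃ ii : Qt a b, ii = ⟨0, 1, 0, 0⟩ := ⟨_, rfl⟩
    have hVi : V ii = 1 := by
      rw [hVn, hii]
      have : nrd (⟨0, 1, 0, 0⟩ : Qt a b) = -(a : F) := by simp [nrd]
      rw [this, Valuation.map_neg, hva]
    have hV1 : V 1 = 1 := map_one V
    refine ⟨?_, ?_⟩
    · -- the local element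
      obtain ⟨zw, hzw⟩ : ∃ zw : Qt a b, zw = ew • (1 + σ) + (1 - ew) • (ii * (1 - σ)) := ⟨_, rfl⟩
      have h4 : w.valuation F 4 ≤ V zw := by
        by_cases hcase : w.valuation F 4 ≤ w.valuation F (nrd (1 + σ))
        · rw [if_pos hcase] at hew
          rw [hzw, hew, one_smul, sub_self, zero_smul, add_zero, hVn]
          exact hcase
        · rw [if_neg hcase] at hew
          rw [hzw, hew, zero_smul, sub_zero, one_smul, zero_add, map_mul, hVi, one_mul]
          have h5 : V ((1 + σ) + (1 - σ)) = w.valuation F 4 := by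
            have : (1 + σ) + (1 - σ) = (2 : F) • (1 : Qt a b) := by
              rw [two_smul]
              abel
            rw [this, hVr, val_four_eq]
          have h6 := Valuation.map_add V (1 + σ) (1 - σ)
          rw [h5] at h6
          rcases le_max_iff.mp h6 with h7 | h7
          · rw [hVn] at h7
            exact absurd h7 hcase
          · exact h7
      have h8 : z - zw = (e - ew) • ((1 - ii) + σ * (1 + ii)) := by
        rw [hz, hzw, hθ, hii]
        ext
        · simp [hσJ, hσK]; ring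
        · simp [hσJ, hσK]; ring
        · simp [hσJ, hσK]
        · simp [hσJ, hσK]
      have h9 : V (z - zw) < w.valuation F 4 := by
        rw [h8]
        have e1 : (e - ew) • ((1 - ii) + σ * (1 + ii)) =
            ((e - ew) • (1 : Qt a b)) * ((1 - ii) + σ * (1 + ii)) := by
          rw [smul_mul_assoc, one_mul]
        rw [e1, map_mul, hVr, val_four_eq]
        calc _ ≤ w.valuation F (e - ew) ^ 2 * 1 := by
              refine mul_le_mul_right ?_ _
              refine V.map_add_le (V.map_sub_le hV1.le hVi.le) ?_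
              rw [map_mul]
              exact mul_le_one' hσV (V.map_add_le hV1.le hVi.le)
          _ < _ := by
              rw [mul_one]
              exact pow_lt_pow_left₀ h1 zero_le two_ne_zero
      have h10 : V z = V zw := by
        have e2 : z = zw + (z - zw) := by abel
        rw [e2]
        exact Valuation.map_add_eq_of_lt_left V (h9.trans_le h4)
      rw [← hVn, h10]
      exact h4
    · have e3 : θ = e • (1 : Qt a b) + ((1 - e) • (1 : Qt a b)) * ii := by
        rw [hθ, hii]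
        ext <;> simp
      rw [← hVn, e3]
      refine V.map_add_le ?_ ?_
      · rw [hVr]
        exact pow_le_one' he1 2
      · rw [map_mul, hVr, hVi, mul_one]
        exact pow_le_one' ((w.valuation F).map_sub_le (by rw [map_one]) he1) 2
  by_cases hz0 : nrd z = 0
  · refine ⟨1, rfl, rfl, fun w hw => ?_⟩
    have := (hzw w hw).1
    rw [hz0, map_zero] at this
    exact absurd (le_zero_iff.mp this) (val_four_ne _)
  have hzJ : z.imJ = 0 := by rw [hz, hθ]; simp [hσJ, hσK]
  have hzK : z.imK = 0 := by rw [hz, hθ]; simp [hσJ, hσK]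
  obtain ⟨s, hs⟩ := exists_SL1 ((nrd z)⁻¹ • (z * z)) (by
    rw [Two.nrd_smul, nrd_mul]
    field_simp)
  refine ⟨s, ?_, ?_, fun w hw => ?_⟩
  · rw [hs]
    simp [hzJ, hzK]
  · rw [hs]
    simp [hzJ, hzK]
  · have e4 : (nrd z)⁻¹ • (z * z) - σ = ((nrd z)⁻¹ * (1 - nrd σ)) • (θ * z) := by
      have e5 : z * star z = nrd z • (1 : Qt a b) := mul_star_self' z
      have e6 : nrd z • ((nrd z)⁻¹ • (z * z) - σ) = (1 - nrd σ) • (θ * z) := by
        rw [smul_sub, smul_smul, mul_inv_cancel₀ hz0, one_smul]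
        have e7 : nrd z = nrd (θ + σ * star θ) := by rw [hz]
        rw [e7, hz, hθ]
        ext
        · simp [hσJ, hσK, nrd]; ring
        · simp [hσJ, hσK, nrd]; ring
        · simp [hσJ, hσK]
        · simp [hσJ, hσK]
      rw [mul_smul, ← e6, smul_smul, inv_mul_cancel₀ hz0, one_smul]
    obtain ⟨h1, h2⟩ := hzw w hw
    have h3 := hσ w hw
    rw [hs, e4, Two.nrd_smul, nrd_mul, map_mul, map_pow, map_mul, map_mul, map_inv₀]
    have hzv : w.valuation F (nrd z) ≠ 0 := (Valuation.ne_zero_iff _).mpr hz0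
    have h4 : w.valuation F (1 - nrd σ) ≤ w.valuation F (2 * g) := by
      rw [← Valuation.map_neg, neg_sub]
      exact h3
    have e8 : ((w.valuation F (nrd z))⁻¹ * w.valuation F (1 - nrd σ)) ^ 2 *
        (w.valuation F (nrd θ) * w.valuation F (nrd z)) =
        w.valuation F (1 - nrd σ) ^ 2 * w.valuation F (nrd θ) * (w.valuation F (nrd z))⁻¹ := by
      field_simp
    rw [e8]
    calc _ ≤ w.valuation F (2 * g) ^ 2 * 1 * (w.valuation F 4)⁻¹ := by
          refine mul_le_mul' (mul_le_mul' (pow_le_pow_left' h4 2) h2) ?_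
          exact inv_anti₀ (zero_lt_iff.mpr (val_four_ne _)) h1
      _ = w.valuation F g ^ 2 := by
          rw [mul_one, map_mul, mul_pow, val_four_eq, mul_assoc, mul_comm, mul_assoc,
            inv_mul_cancel₀ (pow_ne_zero 2 (val_two_ne _)), mul_one]

end Vale.Agent.P011.D4.TG
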