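import Vale.Agent.P011.D4.TG2

/-!
Generation of the norm-one group of a quaternion algebra by an unramified torus: the double coset
of a conjugate of an element of the torus.
-/

open NumberField IsDedekindDomain

namespace Vale.Agent.P011.D4.TG

open Vale.Agent.P011.Arith Vale.Agent.P011.MPQ Vale.Agent.P011.Two

variable {F : Type} [Field F] [NumberField F] {a b : Fˣ}

/-- Local correction of the norm. -/
theorem exists_zeta_loc (hab : Aniso a b) {c : F} (ha : (a : F) = 1 + 4 * c)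
    {w : HeightOneSpectrum (𝓞 F)} (hw : Ram a b w) (hc : AdmC (w.valuation F) c) {g : F}
    (hg : g ≠ 0) (x₀ : Qt a b) (h0 : w.valuation F (nrd x₀ - 1) < 1) :
    ∃ p q : F, w.valuation F (nrd x₀ * nrd (⟨p, q, 0, 0⟩ : Qt a b) - 1) ≤ w.valuation F (2 * g) ∧
      w.valuation F 4 ≤ w.valuation F (nrd (1 + x₀ * ⟨p, q, 0, 0⟩)) := by
  have hn1 : w.valuation F (nrd x₀) = 1 := by
    have := Valuation.map_one_add_of_lt _ h0
    rwa [add_sub_cancel] at this
  have hn0 : nrd x₀ ≠ 0 := by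
    intro h
    rw [h, map_zero] at hn1
    exact zero_ne_one hn1
  have h1 : (Units.mk0 _ hn0)⁻¹ ∈ NF a ⊔ LS (w.valuation F) := by
    refine unit_mem w hc ha ?_
    rw [Units.val_inv_eq_inv_val, Units.val_mk0, map_inv₀, hn1, inv_one]
  obtain ⟨μ, hμ, P, Q, hPQ⟩ := mem_sup_iff_exists.mp h1
  rw [Units.val_inv_eq_inv_val, Units.val_mk0] at hPQ
  obtain ⟨r, hr⟩ := LS_newton' hμ (γ := w.valuation F (2 * g))
    ((Valuation.ne_zero_iff _).mpr (mul_ne_zero two_ne_zero hg))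
  have hr0 : (r : F) ≠ 0 := r.ne_zero
  have key : ∀ ε : F, ε ^ 2 = 1 → w.valuation F (nrd x₀ *
      nrd (⟨ε * (P / r), ε * (Q / r), 0, 0⟩ : Qt a b) - 1) ≤ w.valuation F (2 * g) := by
    intro ε hε
    have e1 : nrd x₀ * nrd (⟨ε * (P / r), ε * (Q / r), 0, 0⟩ : Qt a b) = (μ : F) / r ^ 2 := by
      have e2 : nrd (⟨ε * (P / r), ε * (Q / r), 0, 0⟩ : Qt a b) =
          ε ^ 2 * ((P ^ 2 - a * Q ^ 2) / r ^ 2) := by
        simp only [nrd]
        field_simp
        ring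
      rw [e2, hε, one_mul, ← hPQ]
      field_simp
    rw [e1]
    exact hr.le
  obtain ⟨V, hV⟩ : ∃ V : Valuation (Qt a b) Z0, V = qv hab hw := ⟨_, rfl⟩
  have hVn : ∀ x, V x = w.valuation F (nrd x) := fun x => by rw [hV]; rfl
  obtain ⟨x₁, hx₁⟩ : ∃ x₁ : Qt a b, x₁ = x₀ * ⟨P / r, Q / r, 0, 0⟩ := ⟨_, rfl⟩
  have h5 : V ((1 + x₁) + (1 - x₁)) = w.valuation F 4 := by
    have : (1 + x₁) + (1 - x₁) = (2 : F) • (1 : Qt a b) := by
      rw [two_smul]
      abel
    rw [this, hVn, Two.nrd_smul, nrd_one, mul_one, map_pow, val_four_eq]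
  have h6 := Valuation.map_add V (1 + x₁) (1 - x₁)
  rw [h5] at h6
  rcases le_max_iff.mp h6 with h7 | h7
  · refine ⟨1 * (P / r), 1 * (Q / r), key 1 (by norm_num), ?_⟩
    rw [one_mul, one_mul, ← hx₁, ← hVn]
    exact h7
  · refine ⟨-1 * (P / r), -1 * (Q / r), key (-1) (by norm_num), ?_⟩
    have e3 : x₀ * (⟨-1 * (P / r), -1 * (Q / r), 0, 0⟩ : Qt a b) = -x₁ := by
      have : (⟨-1 * (P / r), -1 * (Q / r), 0, 0⟩ : Qt a b) = -⟨P / r, Q / r, 0, 0⟩ := by
        ext <;> simp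
      rw [this, mul_neg, ← hx₁]
    rw [e3, ← hVn, ← sub_eq_add_neg]
    exact h7

/-- Correction of the norm. -/
theorem exists_x (hab : Aniso a b) {c : F} (ha : (a : F) = 1 + 4 * c)
    (hc : ∀ w, Ram a b w → AdmC (w.valuation F) c) {g : F} (hg : g ≠ 0)
    (hg1 : ∀ w : HeightOneSpectrum (𝓞 F), Ram a b w → w.valuation F g < 1) (x₀ : Qt a b)
    (h0 : ∀ w, Ram a b w → w.valuation F (nrd x₀ - 1) < 1) :
    ∃ ζ : Qt a b, ζ.imJ = 0 ∧ ζ.imK = 0 ∧ Sc a b (2 * g) (nrd x₀ * nrd ζ - 1) ∧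
      ∃ x : SL1 a b, Cm g (((x : (Qt a b)ˣ) : Qt a b) - x₀ * ζ) := by
  classical
  have h2g : (2 : F) * g ≠ 0 := mul_ne_zero two_ne_zero hg
  have hloc : ∀ w : HeightOneSpectrum (𝓞 F), ∃ p q : F, Ram a b w →
      w.valuation F (nrd x₀ * nrd (⟨p, q, 0, 0⟩ : Qt a b) - 1) ≤ w.valuation F (2 * g) ∧
      w.valuation F 4 ≤ w.valuation F (nrd (1 + x₀ * ⟨p, q, 0, 0⟩)) := by
    intro w
    by_cases hw : Ram a b w
    · obtain ⟨p, q, h⟩ := exists_zeta_loc hab ha hw (hc w hw) hg x₀ (h0 w hw)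
      exact ⟨p, q, fun _ => h⟩
    · exact ⟨0, 0, fun h => absurd h hw⟩
  choose P Q hPQ using hloc
  obtain ⟨p, hp, -⟩ := approxVal (F := F) (ram_finite a b).toFinset P
    (fun w => w.valuation F (2 * g)) (fun w _ => (Valuation.ne_zero_iff _).mpr h2g) (fun _ => 0)
    (ε := 1) one_pos
  obtain ⟨q, hq, -⟩ := approxVal (F := F) (ram_finite a b).toFinset Q
    (fun w => w.valuation F (2 * g)) (fun w _ => (Valuation.ne_zero_iff _).mpr h2g) (fun _ => 0)
    (ε := 1) one_pos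
  obtain ⟨ζ, hζ⟩ : ∃ ζ : Qt a b, ζ = ⟨p, q, 0, 0⟩ := ⟨_, rfl⟩
  have key : ∀ w, Ram a b w → w.valuation F (nrd x₀ * nrd ζ - 1) ≤ w.valuation F (2 * g) ∧
      w.valuation F 4 ≤ w.valuation F (nrd (1 + x₀ * ζ)) := by
    intro w hw
    obtain ⟨V, hV⟩ : ∃ V : Valuation (Qt a b) Z0, V = qv hab hw := ⟨_, rfl⟩
    have hVn : ∀ x, V x = w.valuation F (nrd x) := fun x => by rw [hV]; rfl
    have hp' := hp w ((ram_finite a b).mem_toFinset.mpr hw)
    have hq' := hq w ((ram_finite a b).mem_toFinset.mpr hw)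
    obtain ⟨h1, h2⟩ := hPQ w hw
    obtain ⟨ζw, hζw⟩ : ∃ ζw : Qt a b, ζw = ⟨P w, Q w, 0, 0⟩ := ⟨_, rfl⟩
    rw [← hζw] at h1 h2
    obtain ⟨Δ, hΔ⟩ : ∃ Δ : Qt a b, Δ = x₀ * (ζ - ζw) := ⟨_, rfl⟩
    have hn1 : w.valuation F (nrd x₀) = 1 := by
      have := Valuation.map_one_add_of_lt _ (h0 w hw)
      rwa [add_sub_cancel] at this
    have hva : w.valuation F (a : F) = 1 := by rw [ha]; exact adm_unit (hc w hw)
    have hΔV : w.valuation F (nrd Δ) ≤ w.valuation F (2 * g) ^ 2 := by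
      rw [hΔ, nrd_mul, map_mul, hn1, one_mul]
      have e1 : nrd (ζ - ζw) = (p - P w) ^ 2 - a * (q - Q w) ^ 2 := by
        rw [hζ, hζw]
        simp [nrd]
      rw [e1]
      refine (w.valuation F).map_sub_le ?_ ?_
      · rw [map_pow]
        exact pow_le_pow_left' hp'.le 2
      · rw [map_mul, hva, one_mul, map_pow]
        exact pow_le_pow_left' hq'.le 2
    have e2 : x₀ * ζ = x₀ * ζw + Δ := by
      rw [hΔ, mul_sub]
      abel
    have hlt : w.valuation F (2 * g) < w.valuation F 2 := by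
      rw [map_mul]
      calc _ < w.valuation F 2 * 1 :=
            mul_lt_mul_of_pos_left (hg1 w hw) (zero_lt_iff.mpr (val_two_ne _))
        _ = _ := mul_one _
    have h4 : w.valuation F (2 * g) ^ 2 < w.valuation F 4 := by
      rw [val_four_eq]
      exact pow_lt_pow_left₀ hlt zero_le two_ne_zero
    constructor
    · -- the norm
      have e3 : nrd x₀ * nrd ζ = nrd (x₀ * ζw) + 2 * (x₀ * ζw * star Δ).re + nrd Δ := by
        rw [← nrd_mul, e2]
        simp only [nrd, QuaternionAlgebra.re_mul, QuaternionAlgebra.re_star,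
          QuaternionAlgebra.imI_star, QuaternionAlgebra.imJ_star, QuaternionAlgebra.imK_star,
          QuaternionAlgebra.re_add, QuaternionAlgebra.imI_add, QuaternionAlgebra.imJ_add,
          QuaternionAlgebra.imK_add]
        ring
      have h5 : w.valuation F (nrd (x₀ * ζw)) ≤ 1 := by
        have e4 : nrd (x₀ * ζw) = (nrd x₀ * nrd ζw - 1) + 1 := by rw [nrd_mul]; ring
        rw [e4]
        refine (w.valuation F).map_add_le (h1.trans (hlt.le.trans (val_two_le _))) ?_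
        rw [map_one]
      have h6 : w.valuation F (2 * (x₀ * ζw * star Δ).re) ≤ w.valuation F (2 * g) := by
        have h7 : w.valuation F (nrd ((2 * g)⁻¹ • (x₀ * ζw * star Δ))) ≤ 1 := by
          rw [Two.nrd_smul, nrd_mul, Two.nrd_star, map_mul, map_mul, map_pow, map_inv₀]
          have hg' : w.valuation F (2 * g) ≠ 0 := (Valuation.ne_zero_iff _).mpr h2g
          calc _ ≤ ((w.valuation F (2 * g))⁻¹) ^ 2 * (1 * w.valuation F (2 * g) ^ 2) :=
                mul_le_mul_right (mul_le_mul' h5 hΔV) _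
            _ = 1 := by rw [one_mul, ← mul_pow, inv_mul_cancel₀ hg', one_pow]
        have h8 := trd_le hw h7
        have h9 : 2 * (x₀ * ζw * star Δ).re =
            (2 * g) * (2 * ((2 * g)⁻¹ • (x₀ * ζw * star Δ)).re) := by
          rw [QuaternionAlgebra.re_smul, smul_eq_mul]
          field_simp
        rw [h9, map_mul]
        exact mul_le_of_le_one_right' h8
      have e5 : nrd x₀ * nrd ζ - 1 = (nrd x₀ * nrd ζw - 1) + (2 * (x₀ * ζw * star Δ).re +
          nrd Δ) := by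
        rw [e3, nrd_mul]
        ring
      rw [e5]
      refine (w.valuation F).map_add_le h1 ((w.valuation F).map_add_le h6 (hΔV.trans ?_))
      rw [sq]
      exact mul_le_of_le_one_right' (hlt.le.trans (val_two_le _))
    · have e6 : 1 + x₀ * ζ = (1 + x₀ * ζw) + Δ := by rw [e2]; abel
      have h7 : V (1 + x₀ * ζ) = V (1 + x₀ * ζw) := by
        rw [e6]
        refine Valuation.map_add_eq_of_lt_left V ?_
        rw [hVn, hVn]
        exact (hΔV.trans_lt h4).trans_le h2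
      rw [← hVn, h7, hVn]
      exact h2
  refine ⟨ζ, by rw [hζ], by rw [hζ], fun w hw => (key w hw).1, ?_⟩
  obtain ⟨z, hz⟩ : ∃ z : Qt a b, z = 1 + x₀ * ζ := ⟨_, rfl⟩
  by_cases hz0 : nrd z = 0
  · refine ⟨1, fun w hw => ?_⟩
    have := (key w hw).2
    rw [← hz, hz0, map_zero] at this
    exact absurd (le_zero_iff.mp this) (val_four_ne _)
  obtain ⟨x, hx⟩ := exists_SL1 ((nrd z)⁻¹ • (z * z)) (by
    rw [Two.nrd_smul, nrd_mul]
    field_simp)
  refine ⟨x, fun w hw => ?_⟩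
  obtain ⟨ν, hν⟩ : ∃ ν : F, ν = nrd (x₀ * ζ) := ⟨_, rfl⟩
  have e4 : (nrd z)⁻¹ • (z * z) - x₀ * ζ = ((nrd z)⁻¹ * (1 - ν)) • z := by
    have e6 : nrd z • ((nrd z)⁻¹ • (z * z) - x₀ * ζ) = (1 - ν) • z := by
      rw [smul_sub, smul_smul, mul_inv_cancel₀ hz0, one_smul]
      obtain ⟨y, hy⟩ : ∃ y : Qt a b, y = x₀ * ζ := ⟨_, rfl⟩
      rw [hν, hz, ← hy]
      ext
      · simp [nrd]; ring
      · simp [nrd]; ring
      · simp [nrd]; ring
      · simp [nrd]; ring
    rw [mul_smul, ← e6, smul_smul, inv_mul_cancel₀ hz0, one_smul]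
  obtain ⟨h1, h2⟩ := key w hw
  rw [← hz] at h2
  rw [hx, e4, Two.nrd_smul, map_mul, map_pow, map_mul, map_inv₀]
  have hzv : w.valuation F (nrd z) ≠ 0 := (Valuation.ne_zero_iff _).mpr hz0
  have h4 : w.valuation F (1 - ν) ≤ w.valuation F (2 * g) := by
    rw [← Valuation.map_neg, neg_sub, hν, nrd_mul]
    exact h1
  have e8 : ((w.valuation F (nrd z))⁻¹ * w.valuation F (1 - ν)) ^ 2 *
      w.valuation F (nrd z) = w.valuation F (1 - ν) ^ 2 * (w.valuation F (nrd z))⁻¹ := by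
    field_simp
  rw [e8]
  calc _ ≤ w.valuation F (2 * g) ^ 2 * (w.valuation F 4)⁻¹ := by
        refine mul_le_mul' (pow_le_pow_left' h4 2) ?_
        exact inv_anti₀ (zero_lt_iff.mpr (val_four_ne _)) h2
    _ = w.valuation F g ^ 2 := by
        rw [map_mul, mul_pow, val_four_eq, mul_comm, ← mul_assoc,
          inv_mul_cancel₀ (pow_ne_zero 2 (val_two_ne _)), one_mul]

end Vale.Agent.P011.D4.TG
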