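import Vale.Agent.P011.D4.TG3

/-!
Generation of the norm-one group of a quaternion algebra by an unramified torus: the theorem over
one field.
-/

open NumberField IsDedekindDomain

namespace Vale.Agent.P011.D4.TG

open Vale.Agent.P011.Arith Vale.Agent.P011.MPQ Vale.Agent.P011.Two

section alg

variable {F : Type} [Field F] {a b : Fˣ}

theorem conj_id (d t : Qt a b) (hdJ : d.imJ = 0) (hdK : d.imK = 0) (htJ : t.imJ = 0)
    (htK : t.imK = 0) :
    (1 + d * ⟨0, 0, 1, 0⟩) * t * star (1 + d * ⟨0, 0, 1, 0⟩) =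
      t - (b * nrd d) • star t + d * (star t - t) * ⟨0, 0, 1, 0⟩ := by
  ext
  · simp [hdJ, hdK, htJ, htK, nrd]; ring
  · simp [hdJ, hdK, htJ, htK, nrd]; ring
  · simp [hdJ, hdK, htJ, htK, nrd]; ring
  · simp [hdJ, hdK, htJ, htK, nrd]; ring

theorem nrd_one_add_j (d : Qt a b) (hdJ : d.imJ = 0) (hdK : d.imK = 0) :
    nrd (1 + d * ⟨0, 0, 1, 0⟩) = 1 - b * nrd d := by
  simp [hdJ, hdK, nrd]; ring

theorem comm_E {x y : Qt a b} (hxJ : x.imJ = 0) (hxK : x.imK = 0) (hyJ : y.imJ = 0)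
    (hyK : y.imK = 0) : x * y = y * x := by
  ext
  · simp [hxJ, hxK, hyJ, hyK]; ring
  · simp [hxJ, hxK, hyJ, hyK]; ring
  · simp [hxJ, hxK, hyJ, hyK]
  · simp [hxJ, hxK, hyJ, hyK]

end alg

variable {F : Type} [Field F] [NumberField F] {a b : Fˣ}

/-- The unramified torus generates the norm-one group as a normal subgroup of finite index. -/
theorem gen_one (hab : Aniso a b) {c : F} (ha : (a : F) = 1 + 4 * c)
    (hc : ∀ w, Ram a b w → AdmC (w.valuation F) c) (N : Subgroup (SL1 a b)) (hN : N.Normal)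
    (hi : N.index ≠ 0) (hT : ∀ x : SL1 a b, ((x : (Qt a b)ˣ) : Qt a b).imJ = 0 →
      ((x : (Qt a b)ˣ) : Qt a b).imK = 0 → x ∈ N) : N = ⊤ := by
  obtain ⟨g, hg0, hg1, hnear⟩ := near_mem hab N hN hi
  rw [eq_top_iff]
  intro y _
  by_cases hR : ∃ w, Ram a b w
  swap
  · exact hnear y 1 (fun w hw => absurd ⟨w, hw⟩ hR) N.one_mem
  obtain ⟨w₀, hw₀⟩ := hR
  have hc0 : c ≠ 0 := by
    rintro rfl
    have := adm_val (hc w₀ hw₀)
    rw [map_zero] at this
    exact zero_ne_one this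
  have ha0 : (a : F) ≠ 0 := a.ne_zero
  have h2F : (2 : F) ≠ 0 := two_ne_zero
  obtain ⟨y', hy'⟩ : ∃ y' : Qt a b, y' = ((y : (Qt a b)ˣ) : Qt a b) := ⟨_, rfl⟩
  have hy1 : nrd y' = 1 := by rw [hy']; exact y.2
  obtain ⟨K, hK⟩ : ∃ K : F, K = b * (y'.imJ ^ 2 - a * y'.imK ^ 2) := ⟨_, rfl⟩
  obtain ⟨κ, hκ⟩ : ∃ κ : F, κ = -(K * c ^ 2 / a) := ⟨_, rfl⟩
  have hKs : ∀ w, Ram a b w → w.valuation F K < 1 := fun w hw => by
    rw [hK]
    exact snd_small (hc w hw) ha hw hy1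
  have hva : ∀ w, Ram a b w → w.valuation F (a : F) = 1 := fun w hw => by
    rw [ha]
    exact adm_unit (hc w hw)
  have hvc : ∀ w, Ram a b w → w.valuation F c = 1 := fun w hw => adm_val (hc w hw)
  have hκs : ∀ w, Ram a b w → w.valuation F κ < 1 := fun w hw => by
    rw [hκ, Valuation.map_neg, map_div₀, map_mul, map_pow, hva w hw, hvc w hw, one_pow, mul_one,
      div_one]
    exact hKs w hw
  obtain ⟨m, hm1, hm2⟩ := exists_m (R := {w | Ram a b w}) (ram_finite a b) κ hκs (2 * g)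
    (mul_ne_zero two_ne_zero hg0)
  obtain ⟨m₁, hm₁⟩ : ∃ m₁ : F, m₁ = κ * (1 - m) ^ 2 := ⟨_, rfl⟩
  rw [← hm₁] at hm2
  have h2g : ∀ w, Ram a b w → w.valuation F (2 * g) < 1 := fun w hw => by
    rw [map_mul]
    calc _ ≤ 1 * w.valuation F g := mul_le_mul_left (val_two_le _) _
      _ < 1 := by rw [one_mul]; exact hg1 w hw
  have hm₁s : ∀ w, Ram a b w → w.valuation F m₁ < 1 := fun w hw => by
    have e : m₁ = (m₁ - m) + m := by ring
    rw [e]
    exact (w.valuation F).map_add_lt ((hm2 w hw).trans_lt (h2g w hw)) (hm1 w hw)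
  have h1m : ∀ w, Ram a b w → w.valuation F (1 - m) = 1 := fun w hw =>
    Valuation.map_one_sub_of_lt _ (hm1 w hw)
  have h1m₁ : ∀ w, Ram a b w → w.valuation F (1 - m₁) = 1 := fun w hw =>
    Valuation.map_one_sub_of_lt _ (hm₁s w hw)
  -- the fixed element of the torus
  obtain ⟨t, ht⟩ : ∃ t : Qt a b, t = ⟨-(1 + 2 * c) / (2 * c), -1 / (2 * c), 0, 0⟩ := ⟨_, rfl⟩
  have htJ : t.imJ = 0 := by rw [ht]
  have htK : t.imK = 0 := by rw [ht]
  have ht1 : nrd t = 1 := by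
    rw [ht]
    simp only [nrd]
    rw [ha]
    field_simp
    ring
  obtain ⟨t', ht'⟩ := exists_SL1 t ht1
  obtain ⟨τ, hτ⟩ : ∃ τ : Qt a b, τ = t - m₁ • star t := ⟨_, rfl⟩
  have hτn : nrd τ = (1 - m₁) ^ 2 - m₁ * a / c ^ 2 := by
    have e1 : nrd τ = (1 - m₁) ^ 2 * nrd t - 4 * m₁ * a * t.imI ^ 2 := by
      rw [hτ]
      simp only [nrd, QuaternionAlgebra.re_sub, QuaternionAlgebra.imI_sub,
        QuaternionAlgebra.imJ_sub, QuaternionAlgebra.imK_sub, QuaternionAlgebra.re_smul,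
        QuaternionAlgebra.imI_smul, QuaternionAlgebra.imJ_smul, QuaternionAlgebra.imK_smul,
        QuaternionAlgebra.re_star, QuaternionAlgebra.imI_star, QuaternionAlgebra.imJ_star,
        QuaternionAlgebra.imK_star, htJ, htK, smul_eq_mul]
      ring
    rw [e1, ht1, ht]
    field_simp
    ring
  have hτ1 : ∀ w, Ram a b w → w.valuation F (nrd τ) = 1 := fun w hw => by
    have e1 : nrd τ = 1 + -(m₁ * (2 - m₁ + a / c ^ 2)) := by rw [hτn]; ring
    rw [e1]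
    refine Valuation.map_one_add_of_lt _ ?_
    rw [Valuation.map_neg, map_mul]
    refine lt_of_le_of_lt (mul_le_of_le_one_right' ?_) (hm₁s w hw)
    refine (w.valuation F).map_add_le ((w.valuation F).map_sub_le (val_two_le _)
      (hm₁s w hw).le) ?_
    rw [map_div₀, map_pow, hva w hw, hvc w hw, one_pow, div_one]
  have hτ0 : nrd τ ≠ 0 := by
    intro h
    have := hτ1 w₀ hw₀
    rw [h, map_zero] at this
    exact zero_ne_one this
  obtain ⟨A, hA⟩ : ∃ A : Qt a b, A = ⟨y'.re, y'.imI, 0, 0⟩ := ⟨_, rfl⟩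
  obtain ⟨B, hB⟩ : ∃ B : Qt a b, B = ⟨y'.imJ, y'.imK, 0, 0⟩ := ⟨_, rfl⟩
  have hAJ : A.imJ = 0 := by rw [hA]
  have hAK : A.imK = 0 := by rw [hA]
  have hBJ : B.imJ = 0 := by rw [hB]
  have hBK : B.imK = 0 := by rw [hB]
  have hAn : nrd A = 1 + K := by
    rw [hA, hK]
    simp only [nrd] at hy1 ⊢
    linear_combination hy1
  have hBn : b * nrd B = K := by
    rw [hB, hK]
    simp only [nrd]
    ring
  have hyAB : y' = A + B * ⟨0, 0, 1, 0⟩ := by
    rw [hA, hB]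
    ext <;> simp
  obtain ⟨σ, hσ⟩ : ∃ σ : Qt a b, σ = ((1 - m₁) / nrd τ) • (A * star τ) := ⟨_, rfl⟩
  have hτJ : τ.imJ = 0 := by rw [hτ]; simp [htJ]
  have hτK : τ.imK = 0 := by rw [hτ]; simp [htK]
  have hσJ : σ.imJ = 0 := by rw [hσ]; simp [hτJ, hτK, hAJ, hAK]
  have hσK : σ.imK = 0 := by rw [hσ]; simp [hτJ, hτK, hAJ, hAK]
  have hστ : σ * τ = (1 - m₁) • A := by
    rw [hσ, smul_mul_assoc, mul_assoc, star_mul_self', mul_smul_comm, mul_one, smul_smul,
      div_mul_cancel₀ _ hτ0]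
  have hσn : nrd σ - 1 = (a / c ^ 2) * (m₁ - κ * (1 - m₁) ^ 2) / nrd τ := by
    have e1 : nrd σ = (1 - m₁) ^ 2 * (1 + K) / nrd τ := by
      rw [hσ, Two.nrd_smul, nrd_mul, Two.nrd_star, hAn]
      field_simp
    rw [e1, div_sub_one hτ0]
    congr 1
    rw [hτn, hκ]
    field_simp
    ring
  have hσs : Sc a b (2 * g) (nrd σ - 1) := fun w hw => by
    rw [hσn, map_div₀, map_mul, map_div₀, map_pow, hva w hw, hvc w hw, one_pow, div_one, one_mul,
      hτ1 w hw, div_one]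
    have e1 : m₁ - κ * (1 - m₁) ^ 2 = (m₁ - m) * (κ * ((1 - m) + (1 - m₁))) := by
      rw [hm₁]
      ring
    rw [e1, map_mul, map_mul]
    refine (mul_le_of_le_one_right' ?_).trans (hm2 w hw)
    exact mul_le_one' (hκs w hw).le ((w.valuation F).map_add_le (h1m w hw).le (h1m₁ w hw).le)
  have hσ1 : Cm 1 σ := fun w hw => by
    have e1 : nrd σ = (nrd σ - 1) + 1 := by ring
    rw [e1, map_one, one_pow]
    refine (w.valuation F).map_add_le ((hσs w hw).trans (h2g w hw).le) ?_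
    rw [map_one]
  obtain ⟨s, hsJ, hsK, hsσ⟩ := exists_s hab ha hc σ hσJ hσK hσs hσ1
  obtain ⟨s', hs'⟩ : ∃ s' : Qt a b, s' = ((s : (Qt a b)ˣ) : Qt a b) := ⟨_, rfl⟩
  rw [← hs'] at hsJ hsK hsσ
  have hs1 : nrd s' = 1 := by rw [hs']; exact s.2
  obtain ⟨δ, hδ⟩ : ∃ δ : Qt a b, δ = ((1 - m) * c / a) • (star s' * B * ⟨0, 1, 0, 0⟩) := ⟨_, rfl⟩
  have hδJ : δ.imJ = 0 := by rw [hδ]; simp [hsJ, hsK, hBJ, hBK]
  have hδK : δ.imK = 0 := by rw [hδ]; simp [hsJ, hsK, hBJ, hBK]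
  have hδn : b * nrd δ = m₁ := by
    have e1 : nrd (⟨0, 1, 0, 0⟩ : Qt a b) = -a := by simp [nrd]
    rw [hδ, Two.nrd_smul, nrd_mul, nrd_mul, Two.nrd_star, hs1, e1, hm₁, hκ, ← hBn]
    field_simp
  obtain ⟨x₀, hx₀⟩ : ∃ x₀ : Qt a b, x₀ = 1 + δ * ⟨0, 0, 1, 0⟩ := ⟨_, rfl⟩
  have hx₀n : nrd x₀ = 1 - m₁ := by rw [hx₀, nrd_one_add_j δ hδJ hδK, hδn]
  -- the main identity
  have hID : s' * (x₀ * t * star x₀) = s' * τ + (1 - m) • (B * ⟨0, 0, 1, 0⟩) := by
    have e1 : δ * (star t - t) = (1 - m) • (star s' * B) := by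
      have e2 : star t - t = (1 / c) • (⟨0, 1, 0, 0⟩ : Qt a b) := by
        rw [ht]
        ext
        · simp
        · simp
          field_simp
          ring
        · simp
        · simp
      have e3 : (⟨0, 1, 0, 0⟩ : Qt a b) * ⟨0, 1, 0, 0⟩ = (a : F) • (1 : Qt a b) := by
        ext <;> simp
      rw [e2, hδ, mul_smul_comm, smul_mul_assoc, mul_assoc _ (⟨0, 1, 0, 0⟩ : Qt a b), e3,
        mul_smul_comm, mul_one, smul_smul, smul_smul]
      congr 1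
      field_simp
    rw [hx₀, conj_id δ t hδJ hδK htJ htK, hδn, ← hτ, e1, mul_add, smul_mul_assoc, mul_smul_comm,
      ← mul_assoc, ← mul_assoc, mul_star_self', hs1, one_smul, one_mul]
  obtain ⟨ζ, hζJ, hζK, hζ1, x, hx⟩ := exists_x hab ha hc hg0 hg1 x₀ (fun w hw => by
    rw [hx₀n, sub_sub_cancel_left, Valuation.map_neg]
    exact hm₁s w hw)
  obtain ⟨X, hX⟩ : ∃ X : Qt a b, X = ((x : (Qt a b)ˣ) : Qt a b) := ⟨_, rfl⟩
  rw [← hX] at hx
  have hX1 : nrd X = 1 := by rw [hX]; exact x.2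
  rw [hx₀n] at hζ1
  obtain ⟨x₁, hx₁⟩ : ∃ x₁ : Qt a b, x₁ = x₀ * ζ := ⟨_, rfl⟩
  rw [← hx₁] at hx
  have hx₁c : x₁ * t * star x₁ = nrd ζ • (x₀ * t * star x₀) := by
    rw [hx₁, star_mul]
    have e1 : x₀ * ζ * t * (star ζ * star x₀) = x₀ * (ζ * t * star ζ) * star x₀ := by
      simp only [mul_assoc]
    rw [e1, comm_E hζJ hζK htJ htK, mul_assoc t, mul_star_self', mul_smul_comm, mul_one,
      mul_smul_comm, smul_mul_assoc]
  have hx₁1 : Cm 1 x₁ := fun w hw => by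
    have e1 : nrd x₁ = ((1 - m₁) * nrd ζ - 1) + 1 := by rw [hx₁, nrd_mul, hx₀n]; ring
    rw [e1, map_one, one_pow]
    refine (w.valuation F).map_add_le ((hζ1 w hw).trans (h2g w hw).le) ?_
    rw [map_one]
  have hζs : Sc a b 1 (nrd ζ) := fun w hw => by
    have e1 : w.valuation F (nrd ζ) = w.valuation F ((1 - m₁) * nrd ζ) := by
      rw [map_mul, h1m₁ w hw, one_mul]
    have e2 : (1 - m₁) * nrd ζ = ((1 - m₁) * nrd ζ - 1) + 1 := by ring
    rw [e1, e2, map_one]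
    refine (w.valuation F).map_add_le ((hζ1 w hw).trans (h2g w hw).le) ?_
    rw [map_one]
  have h2gg : Sc a b g (2 * g) := fun w _ => by
    rw [map_mul]
    exact mul_le_of_le_one_left' (val_two_le _)
  have hs1' : Cm 1 s' := Cm.of_nrd hs1
  have hX1' : Cm 1 X := Cm.of_nrd hX1
  have ht1' : Cm 1 t := Cm.of_nrd ht1
  have hτ1' : Cm 1 τ := fun w hw => by rw [hτ1 w hw, map_one, one_pow]
  have hBj : Cm 1 (B * (⟨0, 0, 1, 0⟩ : Qt a b)) := fun w hw => by
    have e1 : nrd (⟨0, 0, 1, 0⟩ : Qt a b) = -b := by simp [nrd]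
    rw [nrd_mul, e1, mul_neg, mul_comm, hBn, Valuation.map_neg, map_one, one_pow]
    exact (hKs w hw).le
  have key : Cm g (y' - s' * X * t * star X) := by
    have e1 : y' - s' * X * t * star X = (1 - (1 - m₁) * nrd ζ) • y' +
        nrd ζ • ((σ - s') * τ + (m - m₁) • (B * ⟨0, 0, 1, 0⟩)) -
        s' * ((X - x₁) * t * star x₁ + X * t * star (X - x₁)) := by
      have e2 : s' * X * t * star X = s' * (x₁ * t * star x₁) +
          s' * ((X - x₁) * t * star x₁ + X * t * star (X - x₁)) := by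
        rw [star_sub]
        noncomm_ring
      have e3 : (σ - s') * τ + (m - m₁) • (B * ⟨0, 0, 1, 0⟩) =
          (1 - m₁) • y' - s' * (x₀ * t * star x₀) := by
        rw [hID, sub_mul, hστ, hyAB]
        module
      rw [e2, e3, hx₁c, mul_smul_comm]
      module
    rw [e1]
    refine ((Cm.add hab ?_ ?_).sub hab ?_)
    · refine Cm.smul_left (fun w hw => ?_) (Cm.of_nrd hy1)
      rw [← Valuation.map_neg, neg_sub]
      exact (hζ1 w hw).trans (h2gg w hw)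
    · refine Cm.smul_right hζs (Cm.add hab ?_ ?_)
      · refine Cm.mul_right ?_ hτ1'
        rw [← neg_sub]
        exact hsσ.neg
      · refine Cm.smul_left (fun w hw => ?_) hBj
        rw [← Valuation.map_neg, neg_sub]
        exact (hm2 w hw).trans (h2gg w hw)
    · refine Cm.mul_left hs1' (Cm.add hab ?_ ?_)
      · exact (hx.mul_right ht1').mul_right hx₁1.star
      · refine Cm.mul_left ?_ hx.star
        have := hX1'.mul ht1'
        rwa [one_mul] at this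
  refine hnear y (s * (x * t' * x⁻¹)) ?_ (N.mul_mem ?_ ?_)
  · have e1 : (((s * (x * t' * x⁻¹) : SL1 a b) : (Qt a b)ˣ) : Qt a b) = s' * X * t * star X := by
      have e2 : (((s * (x * t' * x⁻¹) : SL1 a b) : (Qt a b)ˣ) : Qt a b) =
          ((s : (Qt a b)ˣ) : Qt a b) * (((x : (Qt a b)ˣ) : Qt a b) * ((t' : (Qt a b)ˣ) : Qt a b) *
            (((x⁻¹ : SL1 a b) : (Qt a b)ˣ) : Qt a b)) := rfl
      rw [e2, coe_inv_sl, ← hs', ← hX, ht']
      simp only [mul_assoc]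
    rw [e1, ← hy']
    exact key
  · exact hT s (by rw [← hs']; exact hsJ) (by rw [← hs']; exact hsK)
  · exact hN.conj_mem t' (hT t' (by rw [ht']; exact htJ) (by rw [ht']; exact htK)) x

end Vale.Agent.P011.D4.TG
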