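import Vale.Agent.P011.D4.TG4

/-!
Change of basis in a quaternion algebra.
-/

open NumberField IsDedekindDomain

namespace Vale.Agent.P011.D4.TG

open Vale.Agent.P011.Arith Vale.Agent.P011.MPQ Vale.Agent.P011.Two

variable {F : Type} [Field F] [CharZero F] {a b A B : Fˣ}

/-- The isomorphism given by a pair of anticommuting pure quaternions. -/
theorem exists_equiv {i j : Qt a b} (hi : i.re = 0) (hj : j.re = 0)
    (hii : i * i = (A : F) • (1 : Qt a b)) (hjj : j * j = (B : F) • (1 : Qt a b))
    (hij : j * i = -(i * j)) : ∃ Φ : Qt A B ≃ₐ[F] Qt a b,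
      (∀ x, Φ x = x.re • (1 : Qt a b) + x.imI • i + x.imJ • j + x.imK • (i * j)) ∧
      ∀ x, nrd (Φ x) = nrd x := by
  let q : QuaternionAlgebra.Basis (Qt a b) (A : F) 0 (B : F) :=
    { i := i
      j := j
      k := i * j
      i_mul_i := by rw [hii, zero_smul, add_zero]
      j_mul_j := hjj
      i_mul_j := rfl
      j_mul_i := by rw [hij, zero_smul, zero_sub] }
  obtain ⟨Φ, hΦ⟩ : ∃ Φ : Qt A B →ₐ[F] Qt a b, ∀ x, Φ x =
      x.re • (1 : Qt a b) + x.imI • i + x.imJ • j + x.imK • (i * j) := by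
    refine ⟨QuaternionAlgebra.lift q, fun x => ?_⟩
    change algebraMap F (Qt a b) x.re + x.imI • i + x.imJ • j + x.imK • (i * j) = _
    rw [Algebra.algebraMap_eq_smul_one]
  have hsi : star i = -i := by
    ext <;> simp [hi]
  have hsj : star j = -j := by
    ext <;> simp [hj]
  have hijre : (i * j).re = 0 := by
    have h1 : star (i * j) = -(i * j) := by
      rw [star_mul, hsi, hsj, neg_mul_neg, hij]
    have h2 := congrArg QuaternionAlgebra.re h1
    rw [QuaternionAlgebra.re_star, QuaternionAlgebra.re_neg, zero_mul, add_zero] at h2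
    have h3 : 2 * (i * j).re = 0 := by linear_combination h2
    exact (mul_eq_zero.mp h3).resolve_left two_ne_zero
  have hre : ∀ x, (Φ x).re = x.re := fun x => by
    rw [hΦ]
    simp only [QuaternionAlgebra.re_add, QuaternionAlgebra.re_smul, QuaternionAlgebra.re_one, hi,
      hj, hijre, smul_eq_mul, mul_one, mul_zero, add_zero]
  have hstar : ∀ x, Φ (star x) = star (Φ x) := fun x => by
    rw [hΦ, hΦ, star_add, star_add, star_add, QuaternionAlgebra.star_smul,
      QuaternionAlgebra.star_smul, QuaternionAlgebra.star_smul, QuaternionAlgebra.star_smul,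
      star_one, hsi, hsj, star_mul, hsi, hsj, neg_mul_neg, hij]
    simp only [QuaternionAlgebra.re_star, QuaternionAlgebra.imI_star, QuaternionAlgebra.imJ_star,
      QuaternionAlgebra.imK_star, zero_mul, add_zero, neg_smul, smul_neg]
  have hnrd : ∀ x, nrd (Φ x) = nrd x := fun x => by
    have h1 : Φ (x * star x) = Φ x * star (Φ x) := by rw [map_mul, hstar]
    rw [mul_star_self', mul_star_self', map_smul, map_one] at h1
    have h2 := congrArg QuaternionAlgebra.re h1
    simpa using h2.symm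
  have hinj : Function.Injective Φ := by
    rw [injective_iff_map_eq_zero]
    intro x hx
    have key : ∀ z, (x * z).re = 0 := fun z => by
      rw [← hre, map_mul, hx, zero_mul]
      rfl
    have hA : (A : F) ≠ 0 := A.ne_zero
    have hB : (B : F) ≠ 0 := B.ne_zero
    have h0 := key 1
    have h1 := key ⟨0, 1, 0, 0⟩
    have h2 := key ⟨0, 0, 1, 0⟩
    have h3 := key ⟨0, 0, 0, 1⟩
    simp [hA, hB] at h0 h1 h2 h3
    ext
    · exact h0
    · exact h1
    · exact h2
    · exact h3
  have hfin : Module.finrank F (Qt A B) = Module.finrank F (Qt a b) := by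
    rw [QuaternionAlgebra.finrank_eq_four, QuaternionAlgebra.finrank_eq_four]
  have hsurj : Function.Surjective Φ :=
    (LinearMap.injective_iff_surjective_of_finrank_eq_finrank (f := Φ.toLinearMap) hfin).mp hinj
  exact ⟨AlgEquiv.ofBijective Φ ⟨hinj, hsurj⟩, hΦ, hnrd⟩

omit [CharZero F] in
/-- Transport of subgroups of the norm-one group. -/
theorem top_of_equiv (Φ : Qt A B ≃ₐ[F] Qt a b) (hΦ : ∀ x, nrd (Φ x) = nrd x)
    (P : Subgroup (SL1 A B) → Prop)
    (hP : ∀ N : Subgroup (SL1 A B), N.Normal → N.index ≠ 0 → P N → N = ⊤)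
    (N : Subgroup (SL1 a b)) (hN : N.Normal) (hi : N.index ≠ 0)
    (h : ∀ N' : Subgroup (SL1 A B), (∀ (x : SL1 A B) (y : SL1 a b),
      ((y : (Qt a b)ˣ) : Qt a b) = Φ ((x : (Qt A B)ˣ) : Qt A B) → y ∈ N → x ∈ N') → P N') :
    N = ⊤ := by
  let ψ : SL1 A B →* SL1 a b :=
    { toFun := fun x => ⟨Units.map (Φ : Qt A B →* Qt a b) (x : (Qt A B)ˣ), by
        change nrd (Φ ((x : (Qt A B)ˣ) : Qt A B)) = 1
        rw [hΦ]
        exact x.2⟩
      map_one' := by
        apply Subtype.ext
        apply Units.ext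
        exact map_one Φ
      map_mul' := fun x y => by
        apply Subtype.ext
        apply Units.ext
        exact map_mul Φ _ _ }
  have hψ : ∀ x : SL1 A B, ((ψ x : (Qt a b)ˣ) : Qt a b) = Φ ((x : (Qt A B)ˣ) : Qt A B) :=
    fun x => rfl
  have hsurj : Function.Surjective ψ := by
    intro y
    obtain ⟨x, hx⟩ := exists_SL1 (Φ.symm ((y : (Qt a b)ˣ) : Qt a b)) (by
      rw [← hΦ, Φ.apply_symm_apply]
      exact y.2)
    refine ⟨x, ?_⟩
    apply Subtype.ext
    apply Units.ext
    rw [hψ, hx, Φ.apply_symm_apply]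
  have h1 : (N.comap ψ).index ≠ 0 := by
    rw [N.index_comap_of_surjective hsurj]
    exact hi
  have h2 := hP (N.comap ψ) (hN.comap ψ) h1 (h _ fun x y hxy hy => by
    rw [Subgroup.mem_comap]
    have : ψ x = y := by
      apply Subtype.ext
      apply Units.ext
      rw [hψ, hxy]
    rw [this]
    exact hy)
  rw [eq_top_iff]
  intro y _
  obtain ⟨x, rfl⟩ := hsurj y
  have : x ∈ N.comap ψ := by rw [h2]; exact Subgroup.mem_top _
  exact this

omit [CharZero F] in
/-- A pure quaternion anticommuting with a given one. -/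
theorem exists_anti {i : Qt a b} (hi : i.re = 0) :
    ∃ j : Qt a b, j.re = 0 ∧ j ≠ 0 ∧ j * i = -(i * j) := by
  by_cases h : i.imI = 0 ∧ i.imJ = 0
  · refine ⟨⟨0, 1, 0, 0⟩, rfl, ?_, ?_⟩
    · intro h0
      exact one_ne_zero (α := F) (congrArg QuaternionAlgebra.imI h0)
    · ext <;> simp [hi, h.1, h.2]
  · refine ⟨⟨0, b * i.imJ, -(a * i.imI), 0⟩, rfl, ?_, ?_⟩
    · intro h0
      apply h
      have h1 := congrArg QuaternionAlgebra.imI h0
      have h2 := congrArg QuaternionAlgebra.imJ h0
      simp at h1 h2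
      exact ⟨h2, h1⟩
    · ext
      · simp [hi]; ring
      · simp [hi]; ring
      · simp [hi]; ring
      · simp [hi]; ring

end Vale.Agent.P011.D4.TG
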