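import Vale.Agent.P011.D4.Defs2

/-!
The topology of a number field given by a set of places is a field topology.
-/

open NumberField IsDedekindDomain Topology Filter

namespace Vale.Agent.P011.D4

open Vale.Agent.P011.Arith

section one

variable {k : Type} [Field k] (A : AbsoluteValue k ℝ)

/-- The topology of one absolute value. -/
@[instance_reducible]
noncomputable def topA : TopologicalSpace k :=
  TopologicalSpace.induced (fun x => fun y : k => A (x - y)) inferInstance

theorem nhds_topA (x : k) : @nhds k (topA A) x = comap (fun y => A (y - x)) (𝓝 0) := by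
  rw [nhds_induced, nhds_pi, Filter.pi, comap_iInf]
  apply le_antisymm
  · refine (iInf_le _ x).trans ?_
    rw [comap_comap, sub_self, map_zero]
    exact le_rfl
  · refine le_iInf fun y => ?_
    rw [comap_comap, ← tendsto_iff_comap]
    have h1 : Tendsto (fun z => A (z - x)) (comap (fun y => A (y - x)) (𝓝 0)) (𝓝 0) :=
      tendsto_comap
    rw [tendsto_iff_norm_sub_tendsto_zero]
    refine squeeze_zero (fun z => norm_nonneg _) (fun z => ?_) h1
    have e1 := A.sub_le z x y
    have e2 := A.sub_le x z y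
    rw [A.map_sub x z] at e2
    rw [Real.norm_eq_abs, abs_le]
    constructor
    · change -A (z - x) ≤ A (z - y) - A (x - y)
      linarith
    · change A (z - y) - A (x - y) ≤ A (z - x)
      linarith

theorem tendsto_topA {α : Type*} {l : Filter α} {g : α → k} {x : k} :
    Tendsto g l (@nhds k (topA A) x) ↔ Tendsto (fun t => A (g t - x)) l (𝓝 0) := by
  rw [nhds_topA, tendsto_comap_iff]
  rfl

theorem tendsto_self (x : k) :
    Tendsto (fun z => A (z - x)) (@nhds k (topA A) x) (𝓝 0) :=
  (tendsto_topA A).mp tendsto_id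

theorem topA_ring : @IsTopologicalRing k (topA A) _ := by
  let _ := topA A
  have hadd : ContinuousAdd k := by
    refine ⟨continuous_iff_continuousAt.mpr ?_⟩
    rintro ⟨x, y⟩
    rw [ContinuousAt, nhds_prod_eq]
    refine (tendsto_topA A).mpr ?_
    have h1 : Tendsto (fun p : k × k => A (p.1 - x)) (𝓝 x ×ˢ 𝓝 y) (𝓝 0) :=
      (tendsto_self A x).comp tendsto_fst
    have h2 : Tendsto (fun p : k × k => A (p.2 - y)) (𝓝 x ×ˢ 𝓝 y) (𝓝 0) :=
      (tendsto_self A y).comp tendsto_snd
    have h3 := h1.add h2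
    rw [add_zero] at h3
    refine squeeze_zero (fun _ => A.nonneg _) (fun p => ?_) h3
    have e : p.1 + p.2 - (x + y) = (p.1 - x) + (p.2 - y) := by ring
    change A (p.1 + p.2 - (x + y)) ≤ _
    rw [e]
    exact A.add_le _ _
  have hmul : ContinuousMul k := by
    refine ⟨continuous_iff_continuousAt.mpr ?_⟩
    rintro ⟨x, y⟩
    rw [ContinuousAt, nhds_prod_eq]
    refine (tendsto_topA A).mpr ?_
    have h1 : Tendsto (fun p : k × k => A (p.1 - x)) (𝓝 x ×ˢ 𝓝 y) (𝓝 0) :=
      (tendsto_self A x).comp tendsto_fst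
    have h2 : Tendsto (fun p : k × k => A (p.2 - y)) (𝓝 x ×ˢ 𝓝 y) (𝓝 0) :=
      (tendsto_self A y).comp tendsto_snd
    have h3 := ((h1.mul h2).add (h1.mul_const (A y))).add (h2.const_mul (A x))
    rw [mul_zero, zero_mul, mul_zero, add_zero, add_zero] at h3
    refine squeeze_zero (fun _ => A.nonneg _) (fun p => ?_) h3
    have e : p.1 * p.2 - x * y = (p.1 - x) * (p.2 - y) + (p.1 - x) * y + x * (p.2 - y) := by ring
    change A (p.1 * p.2 - x * y) ≤ _
    rw [e, ← map_mul, ← map_mul, ← map_mul]
    exact (A.add_le _ _).trans (add_le_add (A.add_le _ _) le_rfl)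
  have hneg : ContinuousNeg k := by
    refine ⟨continuous_iff_continuousAt.mpr fun x => ?_⟩
    refine (tendsto_topA A).mpr ?_
    refine squeeze_zero (fun _ => A.nonneg _) (fun z => ?_) (tendsto_self A x)
    have e : -z - -x = -(z - x) := by ring
    rw [e, A.map_neg]
  exact { }

theorem topA_inv : @ContinuousInv₀ k _ _ (topA A) := by
  let _ := topA A
  refine ⟨fun x hx => ?_⟩
  refine (tendsto_topA A).mpr ?_
  have hx' : A x ≠ 0 := (A.ne_zero_iff).mpr hx
  have h1 := tendsto_self A x
  have h2 : Tendsto (fun z : k => A z) (𝓝 x) (𝓝 (A x)) := by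
    rw [tendsto_iff_norm_sub_tendsto_zero]
    refine squeeze_zero (fun z => norm_nonneg _) (fun z => ?_) h1
    have e1 := A.sub_le z x 0
    have e2 := A.sub_le x z 0
    rw [A.map_sub x z] at e2
    rw [sub_zero, sub_zero] at e1 e2
    rw [Real.norm_eq_abs, abs_le]
    constructor <;> linarith
  have h3 : Tendsto (fun z : k => A (z - x) / (A z * A x)) (𝓝 x) (𝓝 0) := by
    have := h1.div (h2.mul_const (A x)) (mul_ne_zero hx' hx')
    rwa [zero_div] at this
  refine h3.congr' ?_
  have h4 : ∀ᶠ z in 𝓝 x, A z ≠ 0 := h2.eventually_ne hx'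
  filter_upwards [h4] with z hz
  have hz0 : z ≠ 0 := (A.ne_zero_iff).mp hz
  have e : z⁻¹ - x⁻¹ = -((z - x) / (z * x)) := by
    field_simp
    ring
  rw [e, A.map_neg, map_div₀, map_mul]

end one

variable {k : Type} [Field k] [NumberField k] {S : Set (Pl k)}

theorem topS_eq : topS S = ⨅ p : S, topA (plAbv p.1) := rfl

/-- R5: the topology given by a set of places is a ring topology. -/
theorem topS_ring : @IsTopologicalRing k (topS S) _ := by
  have h (p : S) := topA_ring (plAbv (F := k) p.1)
  have h1 : @ContinuousAdd k (topS S) _ := continuousAdd_iInf fun p : S => by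
    let _ := topA (plAbv (F := k) p.1)
    have := h p
    infer_instance
  have h2 : @ContinuousMul k (topS S) _ := continuousMul_iInf fun p : S => by
    let _ := topA (plAbv (F := k) p.1)
    have := h p
    infer_instance
  have h3 : @ContinuousNeg k (topS S) _ := continuousNeg_iInf fun p : S => by
    let _ := topA (plAbv (F := k) p.1)
    have := h p
    infer_instance
  let _ := topS S
  exact { }

/-- R5: the inverse is continuous. -/
theorem topS_inv : @ContinuousInv₀ k _ _ (topS S) := by
  let _ := topS S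
  refine ⟨fun x hx => ?_⟩
  change Tendsto _ (@nhds k (topS S) x) (@nhds k (topS S) x⁻¹)
  rw [topS_eq, nhds_iInf, nhds_iInf]
  refine tendsto_iInf.mpr fun p => (Tendsto.mono_left ?_ (iInf_le _ p))
  exact (@ContinuousInv₀.continuousAt_inv₀ k _ _ (topA (plAbv p.1)) (topA_inv _) x hx)

/-- R5: neighbourhoods. -/
theorem nhds_topS (hS : S.Finite) (x : k) (U : Set k) : U ∈ @nhds k (topS S) x ↔
    ∃ ε : ℝ, 0 < ε ∧ ∀ y, (∀ p ∈ S, plAbv p (y - x) < ε) → y ∈ U := by
  have hfin : Finite S := hS
  have key : ∀ (p : Pl k) (V : Set k), V ∈ @nhds k (topA (plAbv p)) x ↔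
      ∃ ε : ℝ, 0 < ε ∧ ∀ y, plAbv p (y - x) < ε → y ∈ V := by
    intro p V
    rw [nhds_topA, mem_comap]
    constructor
    · rintro ⟨t, ht, htV⟩
      obtain ⟨ε, hε, hb⟩ := Metric.mem_nhds_iff.mp ht
      refine ⟨ε, hε, fun y hy => htV (hb ?_)⟩
      rw [Metric.mem_ball, Real.dist_eq, sub_zero, abs_of_nonneg ((plAbv p).nonneg _)]
      exact hy
    · rintro ⟨ε, hε, h⟩
      refine ⟨Metric.ball 0 ε, Metric.ball_mem_nhds _ hε, fun y hy => h y ?_⟩
      rw [Set.mem_preimage, Metric.mem_ball, Real.dist_eq, sub_zero,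
        abs_of_nonneg ((plAbv p).nonneg _)] at hy
      exact hy
  rw [topS_eq, nhds_iInf, mem_iInf_of_finite]
  constructor
  · rintro ⟨t, ht, rfl⟩
    choose ε hε h using fun p : S => (key p.1 (t p)).mp (ht p)
    by_cases hne : Nonempty S
    · obtain ⟨p0, hp0⟩ := Finite.exists_min ε
      refine ⟨ε p0, hε p0, fun y hy => Set.mem_iInter.mpr fun p => h p y ?_⟩
      exact (hy p.1 p.2).trans_le (hp0 p)
    · refine ⟨1, one_pos, fun y _ => Set.mem_iInter.mpr fun p => absurd ⟨p⟩ hne⟩
  · rintro ⟨ε, hε, h⟩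
    refine ⟨fun p => {y | plAbv p.1 (y - x) < ε} ∪ U, fun p => ?_, ?_⟩
    · exact (key p.1 _).mpr ⟨ε, hε, fun y hy => Or.inl hy⟩
    · ext y
      rw [Set.mem_iInter]
      constructor
      · intro hy p
        exact Or.inr hy
      · intro hy
        by_cases hU : y ∈ U
        · exact hU
        · exact h y fun p hp => (hy ⟨p, hp⟩).resolve_right hU

end Vale.Agent.P011.D4
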