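import Vale.Agent.P011.D4.Defs4
import Vale.Agent.P011.D4.R1

/-!
The torus identity: the two short embeddings of the norm-one torus of a quadratic subfield differ
by an automorphism of the octonion algebra.
-/

namespace Vale.Agent.P011.D4.TI

open Vale.Agent.P011.MPQ Vale.Agent.P011.Arith Vale.Agent.P011.D4 Vale.Agent.P011.D4.Oct

section h0

variable {F : Type} [Field F] {a b c : Fˣ}

/-- The toral automorphism, as a function. -/
def tfun (u v : F) (y : Oct a b c) : Oct a b c :=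
  ⟨⟨y.fst.re, y.fst.imI, u * y.fst.imJ + a * v * y.fst.imK, u * y.fst.imK + v * y.fst.imJ⟩,
   ⟨u * y.snd.re - a * v * y.snd.imI, u * y.snd.imI - v * y.snd.re, y.snd.imJ, y.snd.imK⟩⟩

theorem tfun_mul (u v : F) (h : u ^ 2 - a * v ^ 2 = 1) (x y : Oct a b c) :
    tfun u v (x * y) = tfun u v x * tfun u v y := by
  obtain ⟨⟨x0, x1, x2, x3⟩, ⟨x4, x5, x6, x7⟩⟩ := x
  obtain ⟨⟨y0, y1, y2, y3⟩, ⟨y4, y5, y6, y7⟩⟩ := y
  ext <;> simp [tfun] <;> grind

/-- The toral automorphism. -/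
def taut (u v : F) (h : u ^ 2 - a * v ^ 2 = 1) : AutC a b c :=
  ⟨{ toFun := tfun u v
     invFun := tfun u (-v)
     left_inv := by
      intro y
      obtain ⟨⟨y0, y1, y2, y3⟩, ⟨y4, y5, y6, y7⟩⟩ := y
      ext <;> simp [tfun] <;> grind
     right_inv := by
      intro y
      obtain ⟨⟨y0, y1, y2, y3⟩, ⟨y4, y5, y6, y7⟩⟩ := y
      ext <;> simp [tfun] <;> grind
     map_add' := by
      intro x y
      ext <;> simp [tfun] <;> ring
     map_smul' := by
      intro t y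
      ext <;> simp [tfun] <;> ring }, tfun_mul u v h⟩

theorem taut_apply (u v : F) (h : u ^ 2 - a * v ^ 2 = 1) (y : Oct a b c) :
    (taut u v h).1 y = tfun u v y := rfl

end h0

section scal

variable {F : Type} [Field F] {a b c c1 : Fˣ}

theorem star_mul_self_q (x : Qt a b) : star x * x = (nrd x) • (1 : Qt a b) := by
  ext <;> simp [nrd] <;> ring

theorem mul_star_self_q (x : Qt a b) : x * star x = (nrd x) • (1 : Qt a b) := by
  ext <;> simp [nrd] <;> ring

/-- The scaling isomorphism. -/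
def scal (q0 : Qt a b) (hq : nrd q0 ≠ 0) : Oct a b c1 ≃ₗ[F] Oct a b c where
  toFun y := ⟨y.fst, q0 * y.snd⟩
  invFun y := ⟨y.fst, (nrd q0)⁻¹ • (star q0 * y.snd)⟩
  left_inv y := by
    apply Oct.ext
    · rfl
    · change (nrd q0)⁻¹ • (star q0 * (q0 * y.snd)) = y.snd
      rw [← mul_assoc, star_mul_self_q, smul_mul_assoc, one_mul, smul_smul, inv_mul_cancel₀ hq,
        one_smul]
  right_inv y := by
    apply Oct.ext
    · rfl
    · change q0 * ((nrd q0)⁻¹ • (star q0 * y.snd)) = y.snd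
      rw [mul_smul_comm, ← mul_assoc, mul_star_self_q, smul_mul_assoc, one_mul, smul_smul,
        inv_mul_cancel₀ hq, one_smul]
  map_add' x y := by
    apply Oct.ext
    · rfl
    · exact mul_add _ _ _
  map_smul' t y := by
    apply Oct.ext
    · rfl
    · exact mul_smul_comm _ _ _

theorem scal_apply (q0 : Qt a b) (hq : nrd q0 ≠ 0) (y : Oct a b c1) :
    (scal q0 hq : Oct a b c1 ≃ₗ[F] Oct a b c) y = ⟨y.fst, q0 * y.snd⟩ := rfl

theorem scal_mul (q0 : Qt a b) (hq : nrd q0 ≠ 0) (hc : (c1 : F) = c * nrd q0)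
    (x y : Oct a b c1) : (scal q0 hq : Oct a b c1 ≃ₗ[F] Oct a b c) (x * y) =
      scal q0 hq x * scal q0 hq y := by
  apply Oct.ext
  · change x.fst * y.fst + (c1 : F) • (star y.snd * x.snd) =
      x.fst * y.fst + (c : F) • (star (q0 * y.snd) * (q0 * x.snd))
    rw [star_mul, mul_assoc, ← mul_assoc (star q0), star_mul_self_q, smul_mul_assoc, one_mul,
      mul_smul_comm, smul_smul, ← hc]
  · change q0 * (y.snd * x.fst + x.snd * star y.fst) =
      q0 * y.snd * x.fst + q0 * x.snd * star y.fst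
    rw [mul_add, mul_assoc, mul_assoc]

end scal

section lin

variable {k M : Type} [Field k] [Field M] [Algebra k M] {a b c : kˣ}

theorem fst_oup' (x : Oct a b c) : (oup M x).fst = qup M x.fst := rfl
theorem snd_oup' (x : Oct a b c) : (oup M x).snd = qup M x.snd := rfl
theorem re_qup' (x : Qt a b) : (qup M x).re = algebraMap k M x.re := rfl
theorem imI_qup' (x : Qt a b) : (qup M x).imI = algebraMap k M x.imI := rfl
theorem imJ_qup' (x : Qt a b) : (qup M x).imJ = algebraMap k M x.imJ := rfl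
theorem imK_qup' (x : Qt a b) : (qup M x).imK = algebraMap k M x.imK := rfl

theorem gi1 {F : Type} [Field F] {a b c : Fˣ} : (gi : Oct a b c).fst.re = 0 := rfl
theorem gi2 {F : Type} [Field F] {a b c : Fˣ} : (gi : Oct a b c).fst.imI = 1 := rfl
theorem gi3 {F : Type} [Field F] {a b c : Fˣ} : (gi : Oct a b c).fst.imJ = 0 := rfl
theorem gi4 {F : Type} [Field F] {a b c : Fˣ} : (gi : Oct a b c).fst.imK = 0 := rfl
theorem gi5 {F : Type} [Field F] {a b c : Fˣ} : (gi : Oct a b c).snd = 0 := rfl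
theorem gj1 {F : Type} [Field F] {a b c : Fˣ} : (gj : Oct a b c).fst.re = 0 := rfl
theorem gj2 {F : Type} [Field F] {a b c : Fˣ} : (gj : Oct a b c).fst.imI = 0 := rfl
theorem gj3 {F : Type} [Field F] {a b c : Fˣ} : (gj : Oct a b c).fst.imJ = 1 := rfl
theorem gj4 {F : Type} [Field F] {a b c : Fˣ} : (gj : Oct a b c).fst.imK = 0 := rfl
theorem gj5 {F : Type} [Field F] {a b c : Fˣ} : (gj : Oct a b c).snd = 0 := rfl

attribute [local simp] fst_oup' snd_oup' re_qup' imI_qup' imJ_qup' imK_qup' gi1 gi2 gi3 gi4 gi5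
  gj1 gj2 gj3 gj4 gj5

theorem oup_ext {W : Type} [AddCommGroup W] [Module M W] {f g : OctL M a b c →ₗ[M] W}
    (h : ∀ y : Oct a b c, f (oup M y) = g (oup M y)) : f = g := by
  apply LinearMap.ext
  intro y
  have hy : y = y.fst.re • oup M ⟨⟨1, 0, 0, 0⟩, 0⟩ + y.fst.imI • oup M ⟨⟨0, 1, 0, 0⟩, 0⟩ +
      y.fst.imJ • oup M ⟨⟨0, 0, 1, 0⟩, 0⟩ + y.fst.imK • oup M ⟨⟨0, 0, 0, 1⟩, 0⟩ +
      y.snd.re • oup M ⟨0, ⟨1, 0, 0, 0⟩⟩ + y.snd.imI • oup M ⟨0, ⟨0, 1, 0, 0⟩⟩ +
      y.snd.imJ • oup M ⟨0, ⟨0, 0, 1, 0⟩⟩ + y.snd.imK • oup M ⟨0, ⟨0, 0, 0, 1⟩⟩ := by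
    ext <;> simp
  rw [hy]
  simp only [map_add, map_smul, h]

end lin

section main

variable {k E M : Type} [Field k] [Field E] [Field M] [Algebra k E] [Algebra k M] [Algebra E M]
  [IsScalarTower k E M] {ρ : M ≃ₐ[k] M} {I : Set (M ≃ₐ[k] M)} {a b c c1 : kˣ}

attribute [local simp] fst_oup' snd_oup' re_qup' imI_qup' imJ_qup' imK_qup' gi1 gi2 gi3 gi4 gi5
  gj1 gj2 gj3 gj4 gj5

/-- The swap of two of the three generators, on coordinates. -/
def swp {F : Type} [Field F] {a b c : Fˣ} (z : Oct a c b) : Oct a b c :=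
  ⟨⟨z.fst.re, z.fst.imI, z.snd.re, z.snd.imI⟩, ⟨z.fst.imJ, z.fst.imK, -z.snd.imJ, -z.snd.imK⟩⟩

section swpc

variable {F : Type} [Field F] {a b c : Fˣ} (z : Oct a c b)

theorem swp1 : (swp z).fst.re = z.fst.re := rfl
theorem swp2 : (swp z).fst.imI = z.fst.imI := rfl
theorem swp3 : (swp z).fst.imJ = z.snd.re := rfl
theorem swp4 : (swp z).fst.imK = z.snd.imI := rfl
theorem swp5 : (swp z).snd.re = z.fst.imJ := rfl
theorem swp6 : (swp z).snd.imI = z.fst.imK := rfl
theorem swp7 : (swp z).snd.imJ = -z.snd.imJ := rfl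
theorem swp8 : (swp z).snd.imK = -z.snd.imK := rfl

variable (u v : F) (y : Oct a b c)

theorem tfun1 : (tfun u v y).fst.re = y.fst.re := rfl
theorem tfun2 : (tfun u v y).fst.imI = y.fst.imI := rfl
theorem tfun3 : (tfun u v y).fst.imJ = u * y.fst.imJ + a * v * y.fst.imK := rfl
theorem tfun4 : (tfun u v y).fst.imK = u * y.fst.imK + v * y.fst.imJ := rfl
theorem tfun5 : (tfun u v y).snd.re = u * y.snd.re - a * v * y.snd.imI := rfl
theorem tfun6 : (tfun u v y).snd.imI = u * y.snd.imI - v * y.snd.re := rfl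
theorem tfun7 : (tfun u v y).snd.imJ = y.snd.imJ := rfl
theorem tfun8 : (tfun u v y).snd.imK = y.snd.imK := rfl

end swpc

attribute [local simp] swp1 swp2 swp3 swp4 swp5 swp6 swp7 swp8 tfun1 tfun2 tfun3 tfun4 tfun5 tfun6
  tfun7 tfun8

theorem emb_eq (q0 : Qt a b) (z : OctL M a c1 b) :
    Oct.emb (oup M gi) (oup M (⟨0, q0⟩ : Oct a b c)) (oup M gj) z =
      ⟨(swp (b := up M b) (c := up M c1) z).fst,
        qup M q0 * (swp (b := up M b) (c := up M c1) z).snd⟩ := by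
  ext <;> simp [Oct.emb, Oct.qemb] <;> ring

omit [IsScalarTower k E M] in
theorem qup_mul_q (x y : Qt a b) : qup M (x * y) = qup M x * qup M y := by
  ext <;> simp

/-- The scaling over the upper field, as a linear map. -/
def scalM (q0 : Qt a b) : OctL M a b c1 →ₗ[M] OctL M a b c where
  toFun y := ⟨y.fst, qup M q0 * y.snd⟩
  map_add' x y := by
    apply Oct.ext
    · rfl
    · exact mul_add _ _ _
  map_smul' t y := by
    apply Oct.ext
    · rfl
    · exact mul_smul_comm _ _ _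

/-- The toral map over the upper field, as a linear map. -/
def tlinM (U V : M) : OctL M a b c1 →ₗ[M] OctL M a b c1 where
  toFun := tfun U V
  map_add' x y := by
    ext <;> simp <;> ring
  map_smul' t y := by
    ext <;> simp <;> ring

theorem scalM_oup (q0 : Qt a b) (hq : nrd q0 ≠ 0) (y : Oct a b c1) :
    (scalM q0 : OctL M a b c1 →ₗ[M] OctL M a b c) (oup M y) =
      oup M ((scal q0 hq : Oct a b c1 ≃ₗ[k] Oct a b c) y) := by
  apply Oct.ext
  · rfl
  · exact (qup_mul_q _ _).symm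

theorem tlinM_oup (u v : k) (y : Oct a b c1) :
    (tlinM (algebraMap k M u) (algebraMap k M v) : OctL M a b c1 →ₗ[M] OctL M a b c1) (oup M y) =
      oup M (tfun u v y) := by
  change tfun (algebraMap k M u) (algebraMap k M v) (oup M y) = _
  ext <;> simp

/-- The action of the toral automorphism on the scaled octonions. -/
theorem ext_scal (q0 : Qt a b) (hq : nrd q0 ≠ 0) (hc : (c1 : k) = c * nrd q0)
    {e : AutC a b c →* TriU ρ I a b c} (he : IsExtU ρ I e) (u v : k) (h : u ^ 2 - a * v ^ 2 = 1)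
    (y : OctL M a b c1) :
    (e (conjA (scal q0 hq) (scal_mul q0 hq hc) (taut u v h))).1 ⟨y.fst, qup M q0 * y.snd⟩ =
      ⟨(tfun (algebraMap k M u) (algebraMap k M v) y).fst,
        qup M q0 * (tfun (algebraMap k M u) (algebraMap k M v) y).snd⟩ := by
  have key : ((e (conjA (scal q0 hq) (scal_mul q0 hq hc) (taut u v h))).1 :
      OctL M a b c →ₗ[M] OctL M a b c) ∘ₗ (scalM q0 : OctL M a b c1 →ₗ[M] OctL M a b c) =
      (scalM q0 : OctL M a b c1 →ₗ[M] OctL M a b c) ∘ₗ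
        tlinM (algebraMap k M u) (algebraMap k M v) := by
    apply oup_ext
    intro y
    rw [LinearMap.comp_apply, LinearMap.comp_apply, scalM_oup q0 hq, tlinM_oup, scalM_oup q0 hq]
    change (e (conjA (scal q0 hq) (scal_mul q0 hq hc) (taut u v h))).1 (oup M _) = _
    rw [he]
    change oup M (scal q0 hq ((taut u v h).1 ((scal q0 hq).symm (scal q0 hq y)))) = _
    rw [LinearEquiv.symm_apply_apply]
    rfl
  exact LinearMap.congr_fun key y

section ids

variable {F : Type} [Field F] {A B C : Fˣ} {p0 q0 p1 q1 p2 q2 : F}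

/-- The polynomial identity. -/
theorem key_fst (h1 : p1 ^ 2 - A * q1 ^ 2 = 1) (z : Oct A C B)
    {X0 X2 : Qt A B} {Y0 Y1 Y2 : Qt A C}
    (hX0 : X0 = ⟨p0, q0, 0, 0⟩) (hX2 : X2 = ⟨p2, q2, 0, 0⟩)
    (hY0 : Y0 = ⟨p0, q0, 0, 0⟩) (hY1 : Y1 = ⟨p1, q1, 0, 0⟩) (hY2 : Y2 = ⟨p2, q2, 0, 0⟩) :
    X0 * (swp z).fst * star X2 =
      (tfun ((p0 * p1 + A * (q0 * q1)) * p2 + A * ((p0 * q1 + q0 * p1) * q2))
        ((p0 * p1 + A * (q0 * q1)) * q2 + (p0 * q1 + q0 * p1) * p2)
        (swp (⟨Y0 * z.fst * star Y2, z.snd * star Y1⟩ : Oct A C B))).fst := by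
  subst hX0 hX2 hY0 hY1 hY2
  ext <;> simp <;> grind

theorem key_snd (h0 : p0 ^ 2 - A * q0 ^ 2 = 1) (h2 : p2 ^ 2 - A * q2 ^ 2 = 1) (z : Oct A C B)
    {X1 : Qt A B} {Y0 Y1 Y2 : Qt A C}
    (hX1 : X1 = ⟨p1, q1, 0, 0⟩)
    (hY0 : Y0 = ⟨p0, q0, 0, 0⟩) (hY1 : Y1 = ⟨p1, q1, 0, 0⟩) (hY2 : Y2 = ⟨p2, q2, 0, 0⟩) :
    (swp z).snd * star X1 =
      (tfun ((p0 * p1 + A * (q0 * q1)) * p2 + A * ((p0 * q1 + q0 * p1) * q2))
        ((p0 * p1 + A * (q0 * q1)) * q2 + (p0 * q1 + q0 * p1) * p2)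
        (swp (⟨Y0 * z.fst * star Y2, z.snd * star Y1⟩ : Oct A C B))).snd := by
  subst hX1 hY0 hY1 hY2
  ext <;> simp <;> grind

end ids

/-- **The torus identity**: the two short embeddings of an element of `E(i)` of norm one differ
by an automorphism of the octonion algebra. -/
theorem torus_id (hU : SetU k E M ρ I) {q0 : Qt a b} (hq0 : nrd q0 ≠ 0)
    (hc1 : (c1 : k) = c * nrd q0) {s : SL1 (up E a) (up E b) →* TriU ρ I a b c}
    (hs : IsShortU ρ I s) {e : AutC a b c →* TriU ρ I a b c} (he : IsExtU ρ I e)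
    {s1 : SL1 (up E a) (up E c1) →* TriU ρ I a c1 b} (hs1 : IsShortU ρ I s1)
    {C : TriU ρ I a c1 b →* TriU ρ I a b c} (hC : IsConjU ρ I gi (⟨0, q0⟩ : Oct a b c) gj C)
    {p q : E} (x : SL1 (up E a) (up E b))
    (hx : ((x : (Qt (up E a) (up E b))ˣ) : Qt (up E a) (up E b)) = ⟨p, q, 0, 0⟩)
    (x1 : SL1 (up E a) (up E c1))
    (hx1 : ((x1 : (Qt (up E a) (up E c1))ˣ) : Qt (up E a) (up E c1)) = ⟨p, q, 0, 0⟩) :
    ∃ h : AutC a b c, s x = e h * C (s1 x1) := by
  set A : M := algebraMap k M a with hA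
  set p0 : M := algebraMap E M p with hp0
  set r0 : M := algebraMap E M q with hr0
  set p1 := ρ p0 with hp1
  set r1 := ρ r0 with hr1
  set p2 := ρ p1 with hp2
  set r2 := ρ r1 with hr2
  have hρA : ρ A = A := ρ.commutes a
  have hρp : ρ p2 = p0 := hU.r3 p0
  have hρr : ρ r2 = r0 := hU.r3 r0
  have hn0 : p0 ^ 2 - A * r0 ^ 2 = 1 := by
    have h1 : nrd ((x : (Qt (up E a) (up E b))ˣ) : Qt (up E a) (up E b)) = 1 := x.2
    rw [hx] at h1
    simp only [nrd] at h1
    have h2 := congrArg (algebraMap E M) h1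
    have h3 : algebraMap E M ((up E a : Eˣ) : E) = A := by
      change algebraMap E M (algebraMap k E a) = _
      rw [← IsScalarTower.algebraMap_apply]
    simp only [map_sub, map_add, map_mul, map_pow, map_one, map_zero, h3] at h2
    linear_combination h2
  have hn1 : p1 ^ 2 - A * r1 ^ 2 = 1 := by
    have h := congrArg ρ hn0
    simp only [map_sub, map_mul, map_pow, map_one, hρA] at h
    exact h
  have hn2 : p2 ^ 2 - A * r2 ^ 2 = 1 := by
    have h := congrArg ρ hn1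
    simp only [map_sub, map_mul, map_pow, map_one, hρA] at h
    exact h
  set U : M := (p0 * p1 + A * (r0 * r1)) * p2 + A * ((p0 * r1 + r0 * p1) * r2) with hUd
  set V : M := (p0 * p1 + A * (r0 * r1)) * r2 + (p0 * r1 + r0 * p1) * p2 with hVd
  have hρU : ρ U = U := by
    simp only [hUd, map_add, map_mul, hρA, ← hp1, ← hr1, ← hp2, ← hr2, hρp, hρr]
    ring
  have hρV : ρ V = V := by
    simp only [hVd, map_add, map_mul, hρA, ← hp1, ← hr1, ← hp2, ← hr2, hρp, hρr]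
    ring
  have hι0 : ∀ ι ∈ I, ∀ t : E, ι (algebraMap E M t) = ρ (ρ (algebraMap E M t)) := by
    intro ι hι t
    have h1 := hU.iE ι hι t
    have h2 := congrArg (fun m => ρ (ρ m)) h1
    simp only [hU.r3] at h2
    exact h2
  have hι1 : ∀ ι ∈ I, ∀ t : E, ι (ρ (algebraMap E M t)) = ρ (algebraMap E M t) := by
    intro ι hι t
    have h1 := hU.iri ι hι (ι (algebraMap E M t))
    rw [hU.ii ι hι, hι0 ι hι, hU.r3] at h1
    exact h1
  have hι2 : ∀ ι ∈ I, ∀ t : E, ι (ρ (ρ (algebraMap E M t))) = algebraMap E M t := by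
    intro ι hι t
    rw [← hι0 ι hι, hU.ii ι hι]
  have hιA : ∀ ι ∈ I, ι A = A := fun ι _ => ι.commutes a
  have hιU : ∀ ι ∈ I, ι U = U := by
    intro ι hι
    simp only [hUd, map_add, map_mul, hιA ι hι, hp2, hp1, hp0, hr2, hr1, hr0, hι0 ι hι, hι1 ι hι,
      hι2 ι hι]
    ring
  have hιV : ∀ ι ∈ I, ι V = V := by
    intro ι hι
    simp only [hVd, map_add, map_mul, hιA ι hι, hp2, hp1, hp0, hr2, hr1, hr0, hι0 ι hι, hι1 ι hι,
      hι2 ι hι]
    ring
  obtain ⟨u, hu⟩ := hU.fixk U hρU hιU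
  obtain ⟨v, hv⟩ := hU.fixk V hρV hιV
  have huv : u ^ 2 - a * v ^ 2 = 1 := by
    apply (algebraMap k M).injective
    rw [map_sub, map_mul, map_pow, map_pow, hu, hv, map_one, ← hA]
    have h1 : U ^ 2 - A * V ^ 2 =
        (p0 ^ 2 - A * r0 ^ 2) * (p1 ^ 2 - A * r1 ^ 2) * (p2 ^ 2 - A * r2 ^ 2) := by
      rw [hUd, hVd]
      ring
    rw [h1, hn0, hn1, hn2]
    ring
  refine ⟨conjA (scal q0 hq0) (scal_mul q0 hq0 hc1) (taut u v huv), ?_⟩
  apply Subtype.ext
  apply LinearEquiv.ext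
  intro Y
  -- write `Y` as the image of `z`
  obtain ⟨z, hz⟩ : ∃ z : OctL M a c1 b,
      Oct.emb (oup M gi) (oup M (⟨0, q0⟩ : Oct a b c)) (oup M gj) z = Y := by
    have hqM : nrd (qup M q0 : Qt (up M a) (up M b)) ≠ 0 := by
      have h1 : nrd (qup M q0 : Qt (up M a) (up M b)) = algebraMap k M (nrd q0) := by
        simp [nrd]
      rw [h1]
      exact fun h => hq0 ((algebraMap k M).injective (h.trans (map_zero _).symm))
    let T : Qt (up M a) (up M b) :=
      (nrd (qup M q0 : Qt (up M a) (up M b)))⁻¹ • (star (qup M q0) * Y.snd)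
    refine ⟨⟨⟨Y.fst.re, Y.fst.imI, T.re, T.imI⟩, ⟨Y.fst.imJ, Y.fst.imK, -T.imJ, -T.imK⟩⟩, ?_⟩
    rw [emb_eq]
    apply Oct.ext
    · rfl
    · have h1 : (swp (b := up M b) (c := up M c1)
          (⟨⟨Y.fst.re, Y.fst.imI, T.re, T.imI⟩, ⟨Y.fst.imJ, Y.fst.imK, -T.imJ, -T.imK⟩⟩ :
            OctL M a c1 b)).snd = T := by
        ext
        · rfl
        · rfl
        · simp
        · simp
      change qup M q0 * (swp (b := up M b) (c := up M c1)
          (⟨⟨Y.fst.re, Y.fst.imI, T.re, T.imI⟩, ⟨Y.fst.imJ, Y.fst.imK, -T.imJ, -T.imK⟩⟩ :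
            OctL M a c1 b)).snd = Y.snd
      rw [h1]
      change qup M q0 * ((nrd (qup M q0 : Qt (up M a) (up M b)))⁻¹ •
        (star (qup M q0) * Y.snd)) = Y.snd
      rw [mul_smul_comm, ← mul_assoc, mul_star_self_q, smul_mul_assoc, one_mul, smul_smul,
        inv_mul_cancel₀ hqM, one_smul]
  -- compute
  have hCz : (C (s1 x1)).1 Y = Oct.emb (oup M gi) (oup M (⟨0, q0⟩ : Oct a b c)) (oup M gj)
      ((s1 x1).1 z) := by
    rw [← hz, hC]
  change (s x).1 Y = (e _).1 ((C (s1 x1)).1 Y)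
  rw [hCz, hs1, emb_eq, ext_scal q0 hq0 hc1 he, ← hz, hs, emb_eq, hu, hv]
  set X0 := qEM M ((x : (Qt (up E a) (up E b))ˣ) : Qt (up E a) (up E b)) with hX0
  set Y0 := qEM M ((x1 : (Qt (up E a) (up E c1))ˣ) : Qt (up E a) (up E c1)) with hY0
  have eX0 : X0 = ⟨p0, r0, 0, 0⟩ := by
    rw [hX0, hx]
    ext
    · rfl
    · rfl
    · exact map_zero _
    · exact map_zero _
  have eY0 : Y0 = ⟨p0, r0, 0, 0⟩ := by
    rw [hY0, hx1]
    ext
    · rfl
    · rfl
    · exact map_zero _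
    · exact map_zero _
  have eX1 : qmap ρ X0 = ⟨p1, r1, 0, 0⟩ := by
    rw [eX0]
    ext
    · rfl
    · rfl
    · exact map_zero _
    · exact map_zero _
  have eY1 : qmap ρ Y0 = ⟨p1, r1, 0, 0⟩ := by
    rw [eY0]
    ext
    · rfl
    · rfl
    · exact map_zero _
    · exact map_zero _
  have eX2 : qmap ρ (qmap ρ X0) = ⟨p2, r2, 0, 0⟩ := by
    rw [eX1]
    ext
    · rfl
    · rfl
    · exact map_zero _
    · exact map_zero _
  have eY2 : qmap ρ (qmap ρ Y0) = ⟨p2, r2, 0, 0⟩ := by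
    rw [eY1]
    ext
    · rfl
    · rfl
    · exact map_zero _
    · exact map_zero _
  apply Oct.ext
  · change X0 * (swp (b := up M b) (c := up M c1) z).fst * star (qmap ρ (qmap ρ X0)) = _
    exact key_fst (A := up M a) (B := up M b) (C := up M c1) hn1 z eX0 eX2 eY0 eY1 eY2
  · change qup M q0 * (swp (b := up M b) (c := up M c1) z).snd * star (qmap ρ X0) =
      qup M q0 * _
    rw [mul_assoc]
    congr 1
    exact key_snd (A := up M a) (B := up M b) (C := up M c1) hn0 hn2 z eX1 eY0 eY1 eY2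

end main

end Vale.Agent.P011.D4.TI
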