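import Vale.Agent.P011.D4.Up
import Vale.Agent.P011.D4.Mem
import Vale.Agent.P011.D4.Springer
import Vale.Agent.P011.D4.R1
import Vale.Agent.P011.D4.H369.Stab

/-!
The torus trick: the elements of norm one of `L(i)` in the short subgroup lie in every normal
subgroup of finite index which contains the automorphism group of the octonion algebra.
-/

open NumberField IsDedekindDomain Topology

namespace Vale.Agent.P011.D4.H24

open Vale.Agent.P011.MPQ Vale.Agent.P011.Arith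

section unit

variable {F : Type} [Field F] {a b : Fˣ}

theorem star_mul_self_nrd (x : Qt a b) : star x * x = (nrd x) • (1 : Qt a b) := by
  ext
  · simp [nrd]
    ring
  · simp
    ring
  · simp
    ring
  · simp
    ring

theorem self_mul_star_nrd (x : Qt a b) : x * star x = (nrd x) • (1 : Qt a b) := by
  ext
  · simp [nrd]
    ring
  · simp
    ring
  · simp
    ring
  · simp
    ring

/-- A quaternion of norm one, as an element of the norm-one group. -/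
def mkSL (q : Qt a b) (h : nrd q = 1) : SL1 a b :=
  ⟨⟨q, star q, by rw [self_mul_star_nrd, h, one_smul], by rw [star_mul_self_nrd, h, one_smul]⟩, h⟩

theorem coe_mkSL (q : Qt a b) (h : nrd q = 1) : ((mkSL q h : (Qt a b)ˣ) : Qt a b) = q := rfl

theorem coe_inv_mkSL (q : Qt a b) (h : nrd q = 1) :
    (((mkSL q h)⁻¹ : (Qt a b)ˣ) : Qt a b) = star q := rfl

end unit

section arith

variable {k : Type} [Field k] [NumberField k]

/-- There is a second quaternion algebra in the octonion algebra which splits at the places where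
the first one does not. -/
theorem exists_u (a b c : kˣ) : ∃ (u : Qt a b) (b₁ : kˣ), (b₁ : k) = c * nrd u ∧
    ∀ w, Ram a b w → ¬ Ram a b₁ w := by
  obtain ⟨f, hf⟩ := weak_approx' (ram_finite a b)
    (Sum.elim (fun _ => c⁻¹) (fun _ => 1) : Pl k → kˣ)
  have hr : ∀ φ : k →+* ℝ, 0 < φ f := by
    intro φ
    have h := hf (Sum.inr φ) inr_mem_SP
    rw [Sum.elim_inr, div_one] at h
    exact h
  have hw : ∀ w, Ram a b w → c * f ∈ LS (w.valuation k) := by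
    intro w hw
    have h := hf (Sum.inl w) (inl_mem_SP.mpr hw)
    rw [Sum.elim_inl, div_inv_eq_mul, mul_comm] at h
    exact h
  obtain ⟨x, y, z, t, h⟩ := Sch.quaternion_norm a b f fun φ _ _ => hr φ
  refine ⟨⟨x, y, z, t⟩, c * f, ?_, fun w h1 h2 => h2 ?_⟩
  · rw [Units.val_mul, h]
    rfl
  · exact (le_sup_right : LS (w.valuation k) ≤ NF a ⊔ LS (w.valuation k)) (hw w h1)

variable {L : Type} [Field L] [NumberField L] [Algebra k L]

theorem ram_disjoint {a b b₁ : kˣ} (h : ∀ w, Ram a b w → ¬ Ram a b₁ w)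
    (w : HeightOneSpectrum (𝓞 L)) (h1 : Ram (up L a) (up L b) w) (h2 : Ram (up L a) (up L b₁) w) :
    False := by
  obtain ⟨v, hv⟩ := Sch.exists_below (F := k) w
  by_cases h3 : b ∈ NF a ⊔ LS (v.valuation k)
  · exact h1 (Sch.sup_map hv h3)
  · have h4 := h v h3
    unfold Ram at h4
    rw [not_not] at h4
    exact h2 (Sch.sup_map hv h4)

end arith

section approx

theorem near_tor {F : Type} [Field F] (v : AbsoluteValue F ℝ) (a y₀ y₁ M : F) (hM : M ≠ 0)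
    (hN : y₀ ^ 2 - a * y₁ ^ 2 ≠ 0) : ∃ η : ℝ, 0 < η ∧ ∀ z₀ z₁ : F, v (z₀ - y₀) < η →
      v (z₁ - y₁) < η → v (4 * a * (y₁ * z₀ - y₀ * z₁) ^ 2) <
        v (M * (y₀ ^ 2 - a * y₁ ^ 2) * (z₀ ^ 2 - a * z₁ ^ 2)) := by
  let _ : NormedField F := v.toNormedField
  have hv : ∀ x : F, ‖x‖ = v x := fun x => rfl
  have hc : Continuous fun z : F × F => ‖4 * a * (y₁ * z.1 - y₀ * z.2) ^ 2‖ -
      ‖M * (y₀ ^ 2 - a * y₁ ^ 2) * (z.1 ^ 2 - a * z.2 ^ 2)‖ := by
    fun_prop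
  have h0 : (fun z : F × F => ‖4 * a * (y₁ * z.1 - y₀ * z.2) ^ 2‖ -
      ‖M * (y₀ ^ 2 - a * y₁ ^ 2) * (z.1 ^ 2 - a * z.2 ^ 2)‖) (y₀, y₁) < 0 := by
    change ‖4 * a * (y₁ * y₀ - y₀ * y₁) ^ 2‖ -
      ‖M * (y₀ ^ 2 - a * y₁ ^ 2) * (y₀ ^ 2 - a * y₁ ^ 2)‖ < 0
    have h1 : ‖4 * a * (y₁ * y₀ - y₀ * y₁) ^ 2‖ = 0 := by
      rw [mul_comm y₁, sub_self]
      simp
    rw [h1, zero_sub, neg_lt_zero, norm_pos_iff]
    exact mul_ne_zero (mul_ne_zero hM hN) hN
  obtain ⟨η, hη, h⟩ := Metric.eventually_nhds_iff.mp (hc.continuousAt.eventually_lt_const h0)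
  refine ⟨η, hη, fun z₀ z₁ h1 h2 => ?_⟩
  have h3 := h (y := (z₀, z₁)) (by
    rw [Prod.dist_eq, dist_eq_norm, dist_eq_norm]
    exact max_lt h1 h2)
  exact sub_neg.mp h3

theorem exists_root {F : Type} [Field F] (h2 : (2 : F) ≠ 0) {a x₀ x₁ : F} (ha : a ≠ 0)
    (h : x₀ ^ 2 - a * x₁ ^ 2 = 1) : ∃ y₀ y₁ : F, y₀ ^ 2 - a * y₁ ^ 2 ≠ 0 ∧
      x₀ * (y₀ ^ 2 - a * y₁ ^ 2) = y₀ ^ 2 + a * y₁ ^ 2 ∧
      x₁ * (y₀ ^ 2 - a * y₁ ^ 2) = 2 * y₀ * y₁ := by
  by_cases h0 : 1 + x₀ = 0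
  · have e1 : x₁ = 0 := by
      have h3 : a * x₁ ^ 2 = 0 := by linear_combination (x₀ - 1) * h0 - h
      simpa [ha] using h3
    refine ⟨0, 1, ?_, ?_, ?_⟩
    · simpa using ha
    · linear_combination (-a) * h0
    · rw [e1]
      ring
  · refine ⟨1 + x₀, x₁, ?_, ?_, ?_⟩
    · have e : (1 + x₀) ^ 2 - a * x₁ ^ 2 = 2 * (1 + x₀) := by linear_combination h
      rw [e]
      exact mul_ne_zero h2 h0
    · linear_combination (x₀ + 1) * h
    · linear_combination x₁ * h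

end approx

section trip

variable {F : Type} [Field F] {a b c : Fˣ}

/-- The basic triple `(i, u l, j)`. -/
theorem trip_u {u : Qt a b} {b₁ : Fˣ} (h : (b₁ : F) = c * nrd u) :
    Oct.Trip a b₁ b (Oct.gi : Oct a b c) ⟨0, u⟩ Oct.gj where
  si := by ext <;> simp [Oct.gi]
  sj := by ext <;> simp
  sl := by ext <;> simp [Oct.gj]
  ii := by ext <;> simp [Oct.gi]
  jj := by
    rw [h, ← one_smul F (nrd u)]
    apply Oct.ext
    · change (0 : Qt a b) * 0 + (c : F) • (star u * u) = _ • 1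
      rw [star_mul_self_nrd, mul_zero, zero_add, smul_smul, one_smul]
    · change u * 0 + u * star 0 = _ • 0
      simp
  ll := by ext <;> simp [Oct.gj]
  ij := by simp [Oct.dot, Oct.gi]
  il := by simp [Oct.dot, Oct.gi, Oct.gj]
  jl := by simp [Oct.dot, Oct.gj]
  ijl := by simp [Oct.dot, Oct.gi, Oct.gj]

end trip

section main

variable {k L : Type} [Field k] [Field L] [Algebra k L]

theorem shortFun_torus_one (ρ : L ≃ₐ[k] L) {a b c : kˣ} (p q : L) :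
    shortFun ρ (⟨p, q, 0, 0⟩ : Qt (up L a) (up L b)) (1 : OctL L a b c) =
      ⟨⟨p * ρ (ρ p) - (up L a : Lˣ) * (q * ρ (ρ q)), q * ρ (ρ p) - p * ρ (ρ q), 0, 0⟩, 0⟩ := by
  unfold shortFun
  rw [Oct.fst_one, Oct.snd_one, mul_one, zero_mul]
  have e : (⟨p, q, 0, 0⟩ : Qt (up L a) (up L b)) *
      star (qmap ρ (qmap ρ (⟨p, q, 0, 0⟩ : Qt (up L a) (up L b)))) =
      ⟨p * ρ (ρ p) - (up L a : Lˣ) * (q * ρ (ρ q)), q * ρ (ρ p) - p * ρ (ρ q), 0, 0⟩ := by
    refine QuaternionAlgebra.ext ?_ ?_ ?_ ?_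
    · rw [QuaternionAlgebra.re_mul]
      simp only [QuaternionAlgebra.re_star, QuaternionAlgebra.imI_star, QuaternionAlgebra.imJ_star,
        QuaternionAlgebra.imK_star, re_qmap, imI_qmap, imJ_qmap, imK_qmap, map_zero]
      ring
    · rw [QuaternionAlgebra.imI_mul]
      simp only [QuaternionAlgebra.re_star, QuaternionAlgebra.imI_star, QuaternionAlgebra.imJ_star,
        QuaternionAlgebra.imK_star, re_qmap, imI_qmap, imJ_qmap, imK_qmap, map_zero]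
      ring
    · rw [QuaternionAlgebra.imJ_mul]
      simp only [QuaternionAlgebra.re_star, QuaternionAlgebra.imI_star, QuaternionAlgebra.imJ_star,
        QuaternionAlgebra.imK_star, re_qmap, imI_qmap, imJ_qmap, imK_qmap, map_zero]
      ring
    · rw [QuaternionAlgebra.imK_mul]
      simp only [QuaternionAlgebra.re_star, QuaternionAlgebra.imI_star, QuaternionAlgebra.imJ_star,
        QuaternionAlgebra.imK_star, re_qmap, imI_qmap, imJ_qmap, imK_qmap, map_zero]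
      ring
  rw [e]

theorem emb_torus {a b c b₁ c₁ : kˣ} (j l : Oct a b c) (p q : L) :
    Oct.emb (oup L (Oct.gi : Oct a b c)) (oup L j) (oup L l)
      (⟨⟨p, q, 0, 0⟩, 0⟩ : OctL L a b₁ c₁) = ⟨⟨p, q, 0, 0⟩, 0⟩ := by
  have h0 : Oct.qemb (oup L (Oct.gi : Oct a b c)) (oup L j) (0 : Qt (up L a) (up L b₁)) = 0 := by
    unfold Oct.qemb
    simp
  unfold Oct.emb
  rw [h0, zero_mul, add_zero, oup_gi]
  unfold Oct.qemb
  simp only [zero_smul, add_zero]
  refine Oct.ext (QuaternionAlgebra.ext ?_ ?_ ?_ ?_) (QuaternionAlgebra.ext ?_ ?_ ?_ ?_)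
  · change p * 1 + q * 0 = p
    ring
  · change p * 0 + q * 1 = q
    ring
  all_goals
    change p * 0 + q * 0 = 0
    ring

end main

section abs

variable {k L : Type} [Field k] [NumberField k] [Field L] [NumberField L] [Algebra k L]

/-- The approximation argument of the torus trick. -/
theorem torus_abs {a b b₁ : kˣ} (hram : ∀ w, Ram a b w → ¬ Ram a b₁ w)
    (hA : Aniso (up L a) (up L b)) (hA₁ : Aniso (up L a) (up L b₁)) {G : Type} [Group G]
    (s : SL1 (up L a) (up L b) →* G) (s₁ : SL1 (up L a) (up L b₁) →* G)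
    (N : Subgroup G) [N.Normal] (hN : N.index ≠ 0)
    (m3 : ∀ (t : SL1 (up L a) (up L b)) (t' : SL1 (up L a) (up L b₁)) (p q : L),
      ((t : (Qt (up L a) (up L b))ˣ) : Qt (up L a) (up L b)) = ⟨p, q, 0, 0⟩ →
      ((t' : (Qt (up L a) (up L b₁))ˣ) : Qt (up L a) (up L b₁)) = ⟨p, q, 0, 0⟩ →
      s₁ t' ∈ N → s t ∈ N)
    (x : SL1 (up L a) (up L b)) (hJ : ((x : (Qt (up L a) (up L b))ˣ) : Qt (up L a) (up L b)).imJ = 0)
    (hK : ((x : (Qt (up L a) (up L b))ˣ) : Qt (up L a) (up L b)).imK = 0) : s x ∈ N := by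
  classical
  have hfi : N.FiniteIndex := ⟨hN⟩
  have he : 0 < N.index := Nat.pos_of_ne_zero hN
  have hpow : ∀ g : G, g ^ N.index ∈ N := fun g => N.pow_index_mem g
  obtain ⟨A, hA0⟩ : ∃ A : L, A = algebraMap k L a := ⟨_, rfl⟩
  have hAne : A ≠ 0 := by
    rw [hA0]
    exact (up L a).ne_zero
  -- membership from closeness
  have m1 : ∀ t : SL1 (up L a) (up L b), (∀ w, Ram (up L a) (up L b) w →
      w.valuation L (2 - 2 * ((t : (Qt (up L a) (up L b))ˣ) : Qt (up L a) (up L b)).re) <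
        w.valuation L (4 * (N.index : L) ^ 4)) → s t ∈ N := by
    intro t ht
    obtain ⟨h1, h2⟩ := comap_normal_index s (N := N) inferInstance hN
    exact mpq_mem hA h1 h2 he (fun g => by rw [Subgroup.mem_comap, map_pow]; exact hpow _) t ht
  have m2 : ∀ t : SL1 (up L a) (up L b₁), (∀ w, Ram (up L a) (up L b₁) w →
      w.valuation L (2 - 2 * ((t : (Qt (up L a) (up L b₁))ˣ) : Qt (up L a) (up L b₁)).re) <
        w.valuation L (4 * (N.index : L) ^ 4)) → s₁ t ∈ N := by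
    intro t ht
    obtain ⟨h1, h2⟩ := comap_normal_index s₁ (N := N) inferInstance hN
    exact mpq_mem hA₁ h1 h2 he (fun g => by rw [Subgroup.mem_comap, map_pow]; exact hpow _) t ht
  obtain ⟨x₀, x₁, hx⟩ : ∃ x₀ x₁ : L,
      ((x : (Qt (up L a) (up L b))ˣ) : Qt (up L a) (up L b)) = ⟨x₀, x₁, 0, 0⟩ :=
    ⟨_, _, QuaternionAlgebra.ext rfl rfl hJ hK⟩
  have hx1 : x₀ ^ 2 - A * x₁ ^ 2 = 1 := by
    have h : nrd ((x : (Qt (up L a) (up L b))ˣ) : Qt (up L a) (up L b)) = 1 := x.2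
    rw [hx] at h
    change x₀ ^ 2 - algebraMap k L a * x₁ ^ 2 - (up L b : Lˣ) * 0 ^ 2 +
      algebraMap k L a * (up L b : Lˣ) * 0 ^ 2 = 1 at h
    rw [hA0]
    linear_combination h
  by_cases hne : ∃ w, Ram (up L a) (up L b) w
  swap
  · exact m1 x fun w hw => absurd ⟨w, hw⟩ hne
  obtain ⟨w₀, hw₀⟩ := hne
  obtain ⟨y₀, y₁, hy, hy0, hy1⟩ := exists_root two_ne_zero hAne hx1
  have hM : (4 * (N.index : L) ^ 4) ≠ 0 :=
    mul_ne_zero (by norm_num) (pow_ne_zero 4 (by exact_mod_cast hN))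
  choose η₁ hη₁ hz₁ using fun p : Pl L => near_tor (plAbv p) A y₀ y₁ _ hM hy
  choose η₂ hη₂ hz₂ using fun p : Pl L => near_tor (plAbv p) A 1 0 _ hM (by simp)
  let T : Set (Pl L) := Sum.inl '' ({w | Ram (up L a) (up L b) w} ∪ {w | Ram (up L a) (up L b₁) w})
  have hT : T.Finite := ((ram_finite _ _).union (ram_finite _ _)).image _
  let P : Pl L → Prop := fun p => ∃ w, p = Sum.inl w ∧ Ram (up L a) (up L b) w
  let δ : Pl L → ℝ := fun p => if P p then η₁ p else η₂ p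
  have hδ : ∀ p, 0 < δ p := fun p => by
    by_cases hp : P p
    · simp only [δ, if_pos hp]
      exact hη₁ p
    · simp only [δ, if_neg hp]
      exact hη₂ p
  obtain ⟨z₀, hz₀⟩ := approx T hT (fun p => if P p then y₀ else 1) δ hδ
  obtain ⟨z₁, hz₁'⟩ := approx T hT (fun p => if P p then y₁ else 0) δ hδ
  have k1 : ∀ w, Ram (up L a) (up L b) w → w.valuation L (4 * A * (y₁ * z₀ - y₀ * z₁) ^ 2) <
      w.valuation L (4 * (N.index : L) ^ 4 * (y₀ ^ 2 - A * y₁ ^ 2) * (z₀ ^ 2 - A * z₁ ^ 2)) := by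
    intro w hw
    have hP : P (Sum.inl w) := ⟨w, rfl, hw⟩
    have h1 := hz₀ (Sum.inl w) ⟨w, Or.inl hw, rfl⟩
    have h2 := hz₁' (Sum.inl w) ⟨w, Or.inl hw, rfl⟩
    simp only [δ, if_pos hP] at h1 h2
    exact (plAbv_lt w _ _).mp (hz₁ _ _ _ h1 h2)
  have k2 : ∀ w, Ram (up L a) (up L b₁) w → w.valuation L (4 * A * z₁ ^ 2) <
      w.valuation L (4 * (N.index : L) ^ 4 * (z₀ ^ 2 - A * z₁ ^ 2)) := by
    intro w hw
    have hP : ¬ P (Sum.inl w) := by
      rintro ⟨w', h, hw'⟩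
      rw [Sum.inl.injEq] at h
      subst h
      exact ram_disjoint hram w hw' hw
    have h1 := hz₀ (Sum.inl w) ⟨w, Or.inr hw, rfl⟩
    have h2 := hz₁' (Sum.inl w) ⟨w, Or.inr hw, rfl⟩
    simp only [δ, if_neg hP] at h1 h2
    have h3 := (plAbv_lt w _ _).mp (hz₂ _ _ _ h1 h2)
    have e1 : 4 * A * (0 * z₀ - 1 * z₁) ^ 2 = 4 * A * z₁ ^ 2 := by ring
    have e2 : 4 * (N.index : L) ^ 4 * (1 ^ 2 - A * 0 ^ 2) * (z₀ ^ 2 - A * z₁ ^ 2) =
        4 * (N.index : L) ^ 4 * (z₀ ^ 2 - A * z₁ ^ 2) := by ring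
    rwa [e1, e2] at h3
  have hz : z₀ ^ 2 - A * z₁ ^ 2 ≠ 0 := by
    intro h
    have h1 := k1 w₀ hw₀
    rw [h, mul_zero, map_zero] at h1
    exact not_lt_zero h1
  obtain ⟨n, hn⟩ : ∃ n, n = z₀ ^ 2 - A * z₁ ^ 2 := ⟨_, rfl⟩
  obtain ⟨m, hm⟩ : ∃ m, m = y₀ ^ 2 - A * y₁ ^ 2 := ⟨_, rfl⟩
  have hn0 : n ≠ 0 := hn ▸ hz
  have hm0 : m ≠ 0 := hm ▸ hy
  obtain ⟨r₀, hr₀⟩ : ∃ r₀, r₀ = (z₀ ^ 2 + A * z₁ ^ 2) / n := ⟨_, rfl⟩
  obtain ⟨r₁, hr₁⟩ : ∃ r₁, r₁ = 2 * z₀ * z₁ / n := ⟨_, rfl⟩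
  have hr : r₀ ^ 2 - A * r₁ ^ 2 = 1 := by
    rw [hr₀, hr₁]
    field_simp
    rw [hn]
    ring
  have hup : ((up L a : Lˣ) : L) = A := hA0.symm
  have hq : nrd (⟨r₀, r₁, 0, 0⟩ : Qt (up L a) (up L b)) = 1 := by
    simp only [nrd]
    rw [hup]
    linear_combination hr
  have hq₁ : nrd (⟨r₀, r₁, 0, 0⟩ : Qt (up L a) (up L b₁)) = 1 := by
    simp only [nrd]
    rw [hup]
    linear_combination hr
  have e2 : 2 - 2 * r₀ = -(4 * A * z₁ ^ 2) / n := by
    rw [hr₀]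
    field_simp
    rw [hn]
    ring
  have e1 : 2 - 2 * (x₀ * r₀ - A * (x₁ * r₁)) = -(4 * A * (y₁ * z₀ - y₀ * z₁) ^ 2) / (m * n) := by
    have h1 : x₀ = (y₀ ^ 2 + A * y₁ ^ 2) / m := by
      rw [eq_div_iff hm0, hm, hy0]
    have h2 : x₁ = 2 * y₀ * y₁ / m := by
      rw [eq_div_iff hm0, hm, hy1]
    rw [hr₀, hr₁, h1, h2]
    field_simp
    rw [hn, hm]
    ring
  -- the second factor
  have c2 : s (mkSL _ hq) ∈ N := by
    refine m3 (mkSL _ hq) (mkSL _ hq₁) r₀ r₁ rfl rfl (m2 _ fun w hw => ?_)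
    rw [coe_mkSL]
    change w.valuation L (2 - 2 * r₀) < _
    rw [e2, map_div₀, Valuation.map_neg, div_lt_iff₀ (zero_lt_iff.mpr
      ((Valuation.ne_zero_iff _).mpr hn0)), ← map_mul, hn]
    exact k2 w hw
  -- the first factor
  have c1 : s (x * (mkSL _ hq)⁻¹) ∈ N := by
    refine m1 _ fun w hw => ?_
    have e3 : (((x * (mkSL _ hq)⁻¹ : SL1 (up L a) (up L b)) : (Qt (up L a) (up L b))ˣ) :
        Qt (up L a) (up L b)).re = x₀ * r₀ - A * (x₁ * r₁) := by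
      change (((x : (Qt (up L a) (up L b))ˣ) : Qt (up L a) (up L b)) *
        star (⟨r₀, r₁, 0, 0⟩ : Qt (up L a) (up L b))).re = _
      rw [hx, QuaternionAlgebra.re_mul]
      simp only [QuaternionAlgebra.re_star, QuaternionAlgebra.imI_star, QuaternionAlgebra.imJ_star,
        QuaternionAlgebra.imK_star]
      rw [hup]
      ring
    rw [e3, e1, map_div₀, Valuation.map_neg, div_lt_iff₀ (zero_lt_iff.mpr
      ((Valuation.ne_zero_iff _).mpr (mul_ne_zero hm0 hn0))), ← map_mul, ← mul_assoc, hn, hm]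
    exact k1 w hw
  have := N.mul_mem c1 c2
  rwa [← map_mul, inv_mul_cancel_right] at this

end abs

section tower

open Oct

variable {k E M : Type} [Field k] [Field E] [Field M] [Algebra k E] [Algebra k M] [Algebra E M]
  [IsScalarTower k E M] {ρ : M ≃ₐ[k] M} {I : Set (M ≃ₐ[k] M)}

omit [IsScalarTower k E M] in
/-- Short elements of `E(i)` with respect to two quaternion algebras containing `i` have the same
value at one. -/
theorem short_one_eq {a b c b₁ c₁ : kˣ} {j l : Oct a b c}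
    {s : SL1 (up E a) (up E b) →* TriU ρ I a b c} (hs : IsShortU ρ I s)
    {s₁ : SL1 (up E a) (up E b₁) →* TriU ρ I a b₁ c₁} (hs₁ : IsShortU ρ I s₁)
    {C : TriU ρ I a b₁ c₁ →* TriU ρ I a b c}
    (hC : IsConjU ρ I (gi : Oct a b c) j l C) {t : SL1 (up E a) (up E b)}
    {t' : SL1 (up E a) (up E b₁)} {p q : E}
    (ht : ((t : (Qt (up E a) (up E b))ˣ) : Qt (up E a) (up E b)) = ⟨p, q, 0, 0⟩)
    (ht' : ((t' : (Qt (up E a) (up E b₁))ˣ) : Qt (up E a) (up E b₁)) = ⟨p, q, 0, 0⟩) :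
    (s t).1 1 = (C (s₁ t')).1 1 := by
  have h1 : (1 : OctL M a b c) =
      emb (oup M (gi : Oct a b c)) (oup M j) (oup M l) (1 : OctL M a b₁ c₁) :=
    (emb_torus (b₁ := b₁) (c₁ := c₁) j l 1 0).symm
  have h2 : ∀ b' : kˣ, qEM M (⟨p, q, 0, 0⟩ : Qt (up E a) (up E b')) =
      ⟨algebraMap E M p, algebraMap E M q, 0, 0⟩ := fun b' =>
    QuaternionAlgebra.ext rfl rfl (map_zero _) (map_zero _)
  rw [hs, ht, h2, shortFun_torus_one]
  conv_rhs => rw [h1]
  rw [hC, hs₁, ht', h2, shortFun_torus_one, emb_torus]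

variable [NumberField k] [NumberField E]

omit [IsScalarTower k E M] in
/-- The torus trick. -/
theorem torus_mem (hU : SetU k E M ρ I)
    (exists_short : ∀ a b c : kˣ, ∃ s : SL1 (up E a) (up E b) →* TriU ρ I a b c, IsShortU ρ I s)
    (exists_conj : ∀ {a b c a' b' c' : kˣ} {i j l : Oct a b c}, Trip a' b' c' i j l →
      ∃ C : TriU ρ I a' b' c' →* TriU ρ I a b c, IsConjU ρ I i j l C)
    {a b c : kˣ} (hdiv : Division a b c) {s : SL1 (up E a) (up E b) →* TriU ρ I a b c}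
    (hs : IsShortU ρ I s) {e : AutC a b c →* TriU ρ I a b c} (he : IsExtU ρ I e)
    (N : Subgroup (TriU ρ I a b c)) [N.Normal] (hN : N.index ≠ 0) (hEN : ∀ g, e g ∈ N)
    (x : SL1 (up E a) (up E b)) (hJ : ((x : (Qt (up E a) (up E b))ˣ) : Qt (up E a) (up E b)).imJ = 0)
    (hK : ((x : (Qt (up E a) (up E b))ˣ) : Qt (up E a) (up E b)).imK = 0) : s x ∈ N := by
  obtain ⟨u, b₁, hu, hram⟩ := exists_u a b c
  have htr := trip_u (b := b) hu
  obtain ⟨hA₁, -, -, -⟩ := aniso_of_trip hdiv htr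
  obtain ⟨s₁, hs₁⟩ := exists_short a b₁ b
  obtain ⟨C, hC⟩ := exists_conj htr
  refine torus_abs hram (aniso_up hU.h3 hdiv.aniso) (aniso_up hU.h3 hA₁) s (C.comp s₁) N hN ?_
    x hJ hK
  intro t t' p q ht ht' hmem
  have h1 := short_one_eq hs hs₁ hC ht ht'
  have h2 : ((C (s₁ t'))⁻¹ * s t).1 1 = 1 := by
    change ((C (s₁ t'))⁻¹).1 ((s t).1 1) = 1
    rw [h1]
    change ((C (s₁ t'))⁻¹ * C (s₁ t')).1 1 = 1
    rw [inv_mul_cancel]
    rfl
  obtain ⟨h, hh⟩ := H369.stab_one hU he _ h2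
  have h3 := N.mul_mem hmem (hh ▸ hEN h)
  change C (s₁ t') * ((C (s₁ t'))⁻¹ * s t) ∈ N at h3
  rwa [mul_inv_cancel_left] at h3

end tower

end Vale.Agent.P011.D4.H24
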