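import Vale.Agent.P011.D4.Oct

/-!
Quaternion subalgebras of octonion algebras, and basic triples.
-/

namespace Vale.Agent.P011.D4

open Vale.Agent.P011.MPQ

namespace Oct

variable {F : Type} [Field F] {a b c : Fˣ}

/-- Two orthogonal pure elements of norms `-α`, `-β`. -/
structure Basic (i j : Oct a b c) (α β : Fˣ) : Prop where
  i_one : bil i 1 = 0
  j_one : bil j 1 = 0
  i_j : bil i j = 0
  norm_i : norm i = -α
  norm_j : norm j = -β

/-- Orthogonality to the quaternion subalgebra generated by `i`, `j`. -/
def Perp (i j l : Oct a b c) : Prop := bil l 1 = 0 ∧ bil l i = 0 ∧ bil l j = 0 ∧ bil l (i * j) = 0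

/-- A basic triple. -/
structure Triple (i j l : Oct a b c) (α β γ : Fˣ) : Prop extends Basic i j α β where
  perp : Perp i j l
  norm_l : norm l = -γ

namespace Basic

variable {i j : Oct a b c} {α β : Fˣ} (h : Basic i j α β)
include h

theorem star_i : star i = -i := star_neg_of_pure h.i_one

theorem star_j : star j = -j := star_neg_of_pure h.j_one

theorem i_i : i * i = (α : F) • 1 := by rw [mul_self_of_pure h.i_one, h.norm_i, neg_neg]

theorem j_j : j * j = (β : F) • 1 := by rw [mul_self_of_pure h.j_one, h.norm_j, neg_neg]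

theorem j_i : j * i = -(i * j) := by
  have := mul_star_of_orth h.i_j
  rw [h.star_i, h.star_j, mul_neg, mul_neg, neg_neg] at this
  exact this.symm

theorem ij_one : bil (i * j) 1 = 0 := by
  rw [bil_mul_left', one_mul, h.star_j, bil_neg_right, h.i_j, neg_zero]

theorem star_ij : star (i * j) = -(i * j) := star_neg_of_pure h.ij_one

theorem norm_ij : norm (i * j) = α * β := by
  rw [norm_mul, h.norm_i, h.norm_j]
  ring

theorem i_ij : i * (i * j) = (α : F) • j := by
  rw [mul_mul_self, h.i_i, smul_mul_assoc, one_mul]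

theorem i_mul_j : i * j = -(j * i) := by rw [h.j_i, neg_neg]

theorem j_ij : j * (i * j) = (-β : F) • i := by
  rw [h.i_mul_j, mul_neg, mul_mul_self, h.j_j, smul_mul_assoc, one_mul,
    neg_smul]

theorem ij_i : (i * j) * i = (-α : F) • j := by
  rw [h.i_mul_j, neg_mul, mul_self_mul, h.i_i, mul_smul_comm, mul_one,
    neg_smul]

theorem ij_j : (i * j) * j = (β : F) • i := by
  rw [mul_self_mul, h.j_j, mul_smul_comm, mul_one]

theorem ij_ij : (i * j) * (i * j) = (-(α * β) : F) • 1 := by
  rw [mul_self_of_pure h.ij_one, h.norm_ij]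

theorem qemb_mul (p q : Qt α β) : qemb i j (p * q) = qemb i j p * qemb i j q := by
  simp only [qemb, mul_add, add_mul, smul_mul_assoc, mul_smul_comm, one_mul, mul_one, h.i_i,
    h.j_j, h.j_i, h.i_ij, h.j_ij, h.ij_i, h.ij_j, h.ij_ij, QuaternionAlgebra.re_mul,
    QuaternionAlgebra.imI_mul, QuaternionAlgebra.imJ_mul, QuaternionAlgebra.imK_mul]
  module

end Basic

theorem qemb_one {i j : Oct a b c} {α β : Fˣ} : qemb i j (1 : Qt α β) = 1 := by
  simp [qemb]

theorem qemb_add {i j : Oct a b c} {α β : Fˣ} (p q : Qt α β) :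
    qemb i j (p + q) = qemb i j p + qemb i j q := by
  simp only [qemb, QuaternionAlgebra.re_add, QuaternionAlgebra.imI_add, QuaternionAlgebra.imJ_add,
    QuaternionAlgebra.imK_add]
  module

theorem qemb_smul {i j : Oct a b c} {α β : Fˣ} (t : F) (q : Qt α β) :
    qemb i j (t • q) = t • qemb i j q := by
  simp only [qemb, QuaternionAlgebra.re_smul, QuaternionAlgebra.imI_smul,
    QuaternionAlgebra.imJ_smul, QuaternionAlgebra.imK_smul, smul_eq_mul]
  module

theorem bil_qemb (i j l : Oct a b c) {α β : Fˣ} (hl : Perp i j l) (q : Qt α β) :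
    bil l (qemb i j q) = 0 := by
  obtain ⟨h1, h2, h3, h4⟩ := hl
  simp only [qemb, bil_add_right, bil_smul_right, h1, h2, h3, h4, mul_zero, add_zero]

theorem Basic.star_qemb {i j : Oct a b c} {α β : Fˣ} (h : Basic i j α β) (q : Qt α β) :
    star (qemb i j q) = qemb i j (star q) := by
  simp only [qemb, star_add, star_smul_oct, star_one, h.star_i, h.star_j, h.star_ij,
    QuaternionAlgebra.re_star, QuaternionAlgebra.imI_star,
    QuaternionAlgebra.imJ_star, QuaternionAlgebra.imK_star]
  module

theorem Basic.bil_qemb_qemb {i j : Oct a b c} {α β : Fˣ} (h : Basic i j α β) (p q : Qt α β) :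
    bil (qemb i j p) (qemb i j q) = nrd (p + q) - nrd p - nrd q := by
  have h1 : bil (1 : Oct a b c) 1 = 2 := by rw [bil_self, norm_one, mul_one]
  have h2 : bil i i = 2 * -α := by rw [bil_self, h.norm_i]
  have h3 : bil j j = 2 * -β := by rw [bil_self, h.norm_j]
  have h4 : bil (i * j) (i * j) = 2 * (α * β) := by rw [bil_self, h.norm_ij]
  have h5 : bil 1 i = 0 := by rw [bil_comm, h.i_one]
  have h6 : bil 1 j = 0 := by rw [bil_comm, h.j_one]
  have h7 : bil 1 (i * j) = 0 := by rw [bil_comm, h.ij_one]
  have h8 : bil j i = 0 := by rw [bil_comm, h.i_j]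
  have h9 : bil i (i * j) = 0 := by
    have := bil_mul_mul_left i 1 j
    rw [mul_one, bil_comm, bil_comm 1, h.j_one, mul_zero] at this
    rw [bil_comm, this]
  have h10 : bil j (i * j) = 0 := by
    have := bil_mul_mul_right j 1 i
    rw [one_mul, bil_comm 1, h.i_one, mul_zero] at this
    exact this
  have h11 : bil (i * j) i = 0 := by rw [bil_comm, h9]
  have h12 : bil (i * j) j = 0 := by rw [bil_comm, h10]
  rw [nrd_add_eq]
  simp only [qemb, bil_add_left, bil_add_right, bil_smul_left, bil_smul_right, h1, h2, h3, h4,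
    h5, h6, h7, h8, h9, h10, h11, h12, h.i_one, h.j_one, h.ij_one, h.i_j]
  ring

theorem Basic.norm_qemb {i j : Oct a b c} {α β : Fˣ} (h : Basic i j α β) (q : Qt α β) :
    norm (qemb i j q) = nrd q := by
  have : norm (qemb i j q) • (1 : Oct a b c) = nrd q • 1 := by
    rw [← mul_star_self, h.star_qemb, ← h.qemb_mul, ← qemb_one (i := i) (j := j) (α := α) (β := β),
      ← qemb_smul]
    congr 1
    apply QuaternionAlgebra.ext <;> simp [nrd] <;> ring
  have h2 := congrArg (fun z : Oct a b c => z.fst.re) this
  simpa using h2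

/-! The rules for products with a vector orthogonal to the quaternion subalgebra. -/

section rules

variable {i j l : Oct a b c} {α β : Fˣ} (h : Basic i j α β) (hl : Perp i j l)
include h hl

theorem l_mul (p : Qt α β) : l * qemb i j p = qemb i j (star p) * l := by
  have h1 : star l = -l := star_neg_of_pure hl.1
  have h2 := mul_star_of_orth (bil_qemb i j l hl (star p))
  rw [← h.star_qemb, star_star, h1, mul_neg, neg_neg] at h2
  rw [h2, h.star_qemb]

theorem mul_mul_l (p q : Qt α β) : qemb i j p * (qemb i j q * l) = qemb i j (q * p) * l := by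
  have h1 : star l = -l := star_neg_of_pure hl.1
  have h2 := mul_star_mul_add (qemb i j p) (qemb i j (star q)) l
  rw [h1, neg_mul, l_mul h hl, star_star, h.star_qemb, ← h.qemb_mul, l_mul h hl, star_mul,
    star_star, star_star, bil_comm, bil_qemb i j l hl, zero_smul, mul_neg] at h2
  rw [← sub_eq_zero, ← neg_eq_zero, ← h2]
  abel

theorem mul_l_mul (p q : Qt α β) : (qemb i j p * l) * qemb i j q = qemb i j (p * star q) * l := by
  have h1 : star l = -l := star_neg_of_pure hl.1
  have h2 := mul_mul_star_add l (qemb i j p) (qemb i j (star q))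
  rw [h.star_qemb, star_star, ← h.qemb_mul, h1, mul_neg, bil_qemb i j l hl, zero_smul] at h2
  rw [← sub_eq_zero, ← h2]
  abel

theorem mul_l_mul_l (p q : Qt α β) :
    (qemb i j p * l) * (qemb i j q * l) = (-norm l) • qemb i j (star q * p) := by
  have h1 : star l = -l := star_neg_of_pure hl.1
  have h3 : star (qemb i j p * l) = -(qemb i j p * l) := by
    rw [star_mul, h1, h.star_qemb, neg_mul, l_mul h hl, star_star]
  have h4 : bil (qemb i j p * l) (star l) = -norm l * bil (qemb i j p) 1 := by
    rw [h1, bil_neg_right]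
    have := bil_mul_mul_right l (qemb i j p) 1
    rw [one_mul] at this
    rw [this]
    ring
  have h5 : qemb i j q * l = l * qemb i j (star q) := by
    rw [l_mul h hl, star_star]
  have h6 : l * (qemb i j (p * q) * l) = (-norm l) • qemb i j (star (p * q)) := by
    rw [← star_star (p * q), ← l_mul h hl, star_star, mul_mul_self, mul_self_of_pure hl.1,
      smul_mul_assoc, one_mul]
  have h2 := mul_star_mul_add (qemb i j p * l) (qemb i j (star q)) (star l)
  have h8 : (qemb i j p * l) * qemb i j (star q) = qemb i j (p * q) * l := by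
    rw [mul_l_mul h hl, star_star]
  rw [star_star, h3, h4, h1, neg_mul (qemb i j p * l), neg_mul_neg, h8, h6, ← h5] at h2
  have h7 : star q * p = bil (qemb i j p) 1 • star q - star (p * q) := by
    have h8 : bil (qemb i j p) 1 = 2 * p.re := by
      rw [← qemb_one (i := i) (j := j) (α := α) (β := β), h.bil_qemb_qemb, nrd_add_eq]
      simp
    rw [h8]
    apply QuaternionAlgebra.ext <;> simp <;> ring
  rw [h7, sub_eq_add_neg, qemb_add, qemb_smul, ← neg_one_smul F (star (p * q)), qemb_smul,
    smul_add, smul_smul, ← h2]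
  module

end rules

theorem Basic.norm_mul_l {i j : Oct a b c} {α β : Fˣ} (h : Basic i j α β) (l : Oct a b c)
    (p : Qt α β) : norm (qemb i j p * l) = nrd p * norm l := by
  rw [norm_mul, h.norm_qemb]

/-! The homomorphism attached to a triple. -/

section tr

variable {i j l : Oct a b c} {α β γ : Fˣ}

theorem emb_add (x y : Oct α β γ) : emb i j l (x + y) = emb i j l x + emb i j l y := by
  rw [emb, emb, emb, fst_add, snd_add, qemb_add, qemb_add, add_mul]
  abel

theorem emb_smul (t : F) (x : Oct α β γ) : emb i j l (t • x) = t • emb i j l x := by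
  rw [emb, emb, fst_smul, snd_smul, qemb_smul, qemb_smul, smul_mul_assoc, smul_add]

theorem qemb_zero : qemb i j (0 : Qt α β) = 0 := by
  simp [qemb]

theorem emb_one : emb i j l (1 : Oct α β γ) = 1 := by
  rw [emb, fst_one, snd_one, qemb_one, qemb_zero, zero_mul, add_zero]

namespace Triple

variable (h : Triple i j l α β γ)
include h

theorem emb_mul (x y : Oct α β γ) : emb i j l (x * y) = emb i j l x * emb i j l y := by
  have hb := h.toBasic
  rw [emb, emb, emb, mul_add, add_mul, add_mul, mul_l_mul hb h.perp, mul_l_mul_l hb h.perp,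
    mul_mul_l hb h.perp, ← hb.qemb_mul, h.norm_l, fst_mul, snd_mul, qemb_add, qemb_add,
    qemb_smul, add_mul, neg_neg]
  abel

theorem emb_star (x : Oct α β γ) : emb i j l (star x) = star (emb i j l x) := by
  have hb := h.toBasic
  rw [emb, emb, fst_star, snd_star, star_add, hb.star_qemb, star_mul,
    star_neg_of_pure h.perp.1, hb.star_qemb, neg_mul, l_mul hb h.perp, star_star,
    ← neg_one_smul F x.snd, qemb_smul, neg_one_smul, neg_mul]

theorem norm_emb (x : Oct α β γ) : norm (emb i j l x) = norm x := by
  have hb := h.toBasic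
  rw [emb, norm_add, hb.norm_qemb, hb.norm_mul_l, h.norm_l, bil_mul_right, hb.star_qemb,
    ← hb.qemb_mul, bil_comm, bil_qemb i j l h.perp, norm]
  ring

theorem bil_emb (x y : Oct α β γ) : bil (emb i j l x) (emb i j l y) = bil x y := by
  rw [bil, bil, ← emb_add, h.norm_emb, h.norm_emb, h.norm_emb]

end Triple

end tr

end Oct

end Vale.Agent.P011.D4
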